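import Vale.Agent.P277Z.GH.KahB

/-!
# P277, block GH: metrics on relatively ample line bundles
-/

open scoped Manifold ContDiff Topology ComplexOrder
open Vale.Agent.P277 hiding Amin IsFlipR
open Vale.Agent.P272.K Vale.Agent.P285.H281.FD Set Filter
open Vale.Agent.P277.H60.Z (XH)
open Vale.Agent.P277Z.St
open Vale.Agent.P284Y.Lib (two_le_inf)

noncomputable section

namespace Vale.Agent.P277Z.GH

namespace Ka

variable {X Y : CSp} {g : Y.pt → X.pt} {P : Bd Y.pt}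

theorem log_change {n k : ℕ} (hk : 1 ≤ k) {a b : Fin n → ℂ} {c : ℂ} (hc : c ≠ 0)
    (h : ∀ l, a l = c ^ k * b l) (hb : ∃ l, b l ≠ 0) :
    (k : ℝ)⁻¹ * Real.log (∑ l, ‖a l‖ ^ 2) =
      (k : ℝ)⁻¹ * Real.log (∑ l, ‖b l‖ ^ 2) + Real.log (‖c‖ ^ 2) := by
  have h1 : 0 < ∑ l, ‖b l‖ ^ 2 := Ps.sq_pos (n := 0) (f := fun l _ => b l) (z := 0) hb
  have h2 : ∑ l, ‖a l‖ ^ 2 = (‖c‖ ^ 2) ^ k * ∑ l, ‖b l‖ ^ 2 := by
    rw [Finset.mul_sum]
    refine Finset.sum_congr rfl fun l _ => ?_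
    rw [h l, norm_mul, norm_pow]
    ring
  have h3 : (k : ℝ) ≠ 0 := by positivity
  rw [h2, Real.log_mul (by positivity) h1.ne', Real.log_pow]
  field_simp
  ring

/-- the metric defined by the local embeddings -/
theorem core (hg : ∀ y, HolMap Y X g y) (hP : IsLBx Y P) (hA : RelAmple Y X g P) :
    ∃ ψ : P.ι → Y.pt → ℝ,
      (∀ i j y, y ∈ P.U i → y ∈ P.U j → ψ i y = ψ j y + Real.log (‖P.g i j y‖ ^ 2)) ∧
      ∀ i, ∀ y ∈ P.U i, ∀ u, Sp X u (g y) → ∃ t₀ : ℝ, ∀ᶠ y' in 𝓝 y, ∀ t, t₀ ≤ t →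
        Sp Y (fun y => ψ i y + t * u (g y)) y' := by
  choose V k n s hV hx hk hs hne hsep hgen using hA
  obtain ⟨T, r, r0, r1, r2, r3⟩ := pou hV hx
  refine ⟨fun i y => ∑ a : T, r a (g y) * ((k a : ℝ)⁻¹ * Real.log (∑ l, ‖s a l i y‖ ^ 2)),
    fun i j y hi hj => ?_, fun i y hi u hu => ?_⟩
  · rw [← one_mul (Real.log (‖P.g i j y‖ ^ 2)), ← r3 (g y), Finset.sum_mul,
      ← Finset.sum_add_distrib]
    refine Finset.sum_congr rfl fun a _ => ?_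
    by_cases h : g y ∈ V a
    · rw [log_change (hk a) (hP.ne_zero i j y hi hj) (fun l => (hs a l).change i j y h hi hj)
        (hne a y j h hj), mul_add]
    · simp [(r2 a _ h).self_of_nhds]
  obtain ⟨M, k', V', Ω', h', χ, υ, u1, u2, u3, u4⟩ := hu
  obtain ⟨N, k'', W, Ω, h, φ, y1, y2⟩ := Y.model y
  obtain ⟨Γ, g1, g2⟩ := lift y2 y1 (F := fun y => χ (g y))
    fun a => (hg y).2 _ (u2.isCoord.hol a _ u1)
  have g0 : χ (g y) = Γ (φ y) := g2.self_of_nhds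
  choose ρ ρ1 ρ2 using fun a => sm_lift u2 u1 (holMap_id (g y)) (r1 a (g y))
  have hS : ∀ a : T, ∃ S : Cm N → Fin (n a + 1) → ℂ, AnalyticAt ℂ S (φ y) ∧ (∃ l, S (φ y) l ≠ 0) ∧
      (g y ∈ V a → ∀ᶠ y' in 𝓝 y, (fun l => s a l i y') = S (φ y')) := fun a => by
    by_cases h : g y ∈ V a
    · obtain ⟨S, k1, k2⟩ := lift y2 y1 (F := fun y l => s a l i y)
        fun l => (hs a l).holo i y h hi
      exact ⟨S, k1, k2.self_of_nhds ▸ hne a y i h hi, fun _ => k2⟩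
    · exact ⟨fun _ => 1, analyticAt_const, ⟨0, one_ne_zero⟩, fun h' => (h h').elim⟩
  choose S S1 S2 S3 using hS
  obtain ⟨a₀, ha₀⟩ : ∃ a, 0 < r a (g y) := by
    by_contra k1
    have := Finset.sum_nonpos fun a (_ : a ∈ Finset.univ) => not_lt.1 (not_exists.1 k1 a)
    linarith [r3 (g y)]
  have hV₀ : g y ∈ V a₀ := of_not_not fun k1 => ha₀.ne' (r2 a₀ _ k1).self_of_nhds
  obtain ⟨l₀, hl₀⟩ := S2 a₀
  have S0 := (S3 a₀ hV₀).self_of_nhds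
  have hG : ∀ b, ∃ G : Cm M × Cm (n a₀ + 1) → ℂ,
      AnalyticAt ℂ G (Γ (φ y), fun m => S a₀ (φ y) m / S a₀ (φ y) l₀) ∧
      ∀ᶠ y' in 𝓝 y, φ y' b = G (Γ (φ y'), fun m => S a₀ (φ y') m / S a₀ (φ y') l₀) := fun b => by
    obtain ⟨M', γ, G, k1, k2, k3⟩ := hgen a₀ y i l₀ hV₀ hi ((congrFun S0 l₀).trans_ne hl₀) _
      (y2.isCoord.hol b _ y1)
    obtain ⟨γ', k4, k5⟩ := lift u2 u1 (F := fun x a => γ a x) k1
    refine ⟨fun q => G (γ' q.1, q.2), AnalyticAt.comp (g := G)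
      (f := fun q : Cm M × Cm (n a₀ + 1) => (γ' q.1, q.2)) ?_
      ((AnalyticAt.comp (g := γ') ?_ analyticAt_fst).prod analyticAt_snd), ?_⟩
    · rw [← g0, ← k5.self_of_nhds, ← S0]
      exact k2
    · exact g0 ▸ k4
    · filter_upwards [k3, (hg y).1.eventually k5, g2, S3 a₀ hV₀] with y' e1 e2 e3 e4
      rw [← e3, ← e2, ← e4]
      exact e1
  choose G G1 G2 using hG
  have S1' : ∀ a l, AnalyticAt ℂ (fun w => S a w l) (φ y) := fun a => analyticAt_pi_iff.1 (S1 a)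
  have hH : ∀ b, AnalyticAt ℂ (fun w => w b - G b (Γ w, fun m => S a₀ w m / S a₀ w l₀)) (φ y) :=
    fun b => ((ContinuousLinearMap.proj (R := ℂ) (φ := fun _ : Fin N => ℂ) b).analyticAt _).sub
      (AnalyticAt.comp (g := G b) (G1 b)
        (g1.prod (AnalyticAt.pi fun m => (S1' _ m).div (S1' _ l₀) hl₀)))
  have hQ : ∀ᶠ w in 𝓝 (φ y), ContDiffAt ℝ ∞ (fun w => ∑ a : T, ρ a (Γ w) * ((k a : ℝ)⁻¹ *
      Real.log (∑ l, ‖S a w l‖ ^ 2)) +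
      ∑ b, ‖w b - G b (Γ w, fun m => S a₀ w m / S a₀ w l₀)‖ ^ 2) w := by
    have k1 : ∀ a, ∀ᶠ w in 𝓝 (φ y), ∃ l, S a w l ≠ 0 := fun a =>
      let ⟨l, hl⟩ := S2 a
      ((S1' a l).continuousAt.eventually_ne hl).mono fun w hw => ⟨l, hw⟩
    filter_upwards [eventually_all.2 fun a => sm_an g1 (g0 ▸ ρ1 a), eventually_all.2 k1,
      eventually_all.2 fun a => (S1 a).eventually_analyticAt,
      eventually_all.2 fun b => (hH b).eventually_analyticAt] with w e1 e2 e3 e4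
    exact (ContDiffAt.sum fun a _ => (e1 a).mul (contDiffAt_const.mul
      (Ps.sm_log (analyticAt_pi_iff.1 (e3 a)) (e2 a)))).add (Ps.sm_sq e4)
  obtain ⟨t₀, ht⟩ := amb_large g1 hQ (υ := υ)
    (g0 ▸ mem_of_superset (u2.isOpen'.mem_nhds (mem_Ω u2 u1)) u3) fun ξ hξ h0 =>
      amb (S := fun a l w => S a w l) g1 S1' S2
        (fun a => Ps.two (g0 ▸ (ρ1 a).self_of_nhds))
        (fun a => g0 ▸ (r0 a _).trans_eq (ρ2 a).self_of_nhds)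
        (fun a => inv_pos.2 (Nat.cast_pos.2 (hk a)))
        (g0 ▸ ha₀.trans_eq (ρ2 a₀).self_of_nhds) hl₀ G1 hξ h0
  have hE : ∀ a : T, ∀ᶠ y' in 𝓝 y, r a (g y') * ((k a : ℝ)⁻¹ * Real.log (∑ l, ‖s a l i y'‖ ^ 2)) =
      ρ a (Γ (φ y')) * ((k a : ℝ)⁻¹ * Real.log (∑ l, ‖S a (φ y') l‖ ^ 2)) := fun a => by
    have k1 : ∀ᶠ y' in 𝓝 y, r a (g y') = ρ a (Γ (φ y')) := by
      filter_upwards [(hg y).1.eventually (ρ2 a), g2] with y' e1 e2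
      rw [← e2]
      exact e1
    by_cases h : g y ∈ V a
    · filter_upwards [k1, S3 a h] with y' e1 e2
      rw [e1, ← e2]
    · filter_upwards [k1, (hg y).1.eventually (r2 a _ h)] with y' e1 e2
      rw [← e1, e2, Pi.zero_apply, zero_mul, zero_mul]
  refine ⟨t₀, ?_⟩
  filter_upwards [y2.isOpen.mem_nhds y1, (y2.continuousAt y1).eventually ht.eventually_nhds,
    ((eventually_all.2 hE).and ((eventually_all.2 G2).and (g2.and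
      ((hg y).1.eventually (u2.isOpen.mem_nhds u1))))).eventually_nhds] with y' e1 e2 e3 t ht
  refine sp_of y2 e1 (e2.mono fun w hw => hw t ht) (e3.mono fun y'' ⟨f1, f2, f3, f4⟩ => ?_)
  simp only [f1, ← f2, sub_self, norm_zero, u4 _ f4, f3]
  simp

theorem flat (hg : ∀ y, HolMap Y X g y) (hP : IsLBx Y P) {ψ : P.ι → Y.pt → ℝ}
    (hψ : ∀ i j y, y ∈ P.U i → y ∈ P.U j → ψ i y = ψ j y + Real.log (‖P.g i j y‖ ^ 2))
    {R U : Set X.pt} (hD : Dense (g ⁻¹' R)) (hU : IsOpen U) {u v : X.pt → ℝ}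
    (hf : ∀ (γ : Cm 4 → X.pt) z, HolAt X γ z → γ z ∈ R → γ z ∈ U →
      cHess (fun w => u (γ w) - v (γ w)) z = 0) {c : Cm 4 → Y.pt} {z : Cm 4} (hc : IsCh Y c z)
    {i j : P.ι} (hi : c z ∈ P.U i) (hj : c z ∈ P.U j) (hz : g (c z) ∈ U) (hu : Sm X u (g (c z)))
    (hv : Sm X v (g (c z))) (t : ℝ) :
    cHess (fun w => ψ i (c w) + t * u (g (c w)) - (ψ j (c w) + t * v (g (c w)))) z = 0 := by
  have h1 : (fun w => ψ i (c w) + t * u (g (c w)) - (ψ j (c w) + t * v (g (c w)))) =ᶠ[𝓝 z]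
      fun w => Real.log (‖P.g i j (c w)‖ ^ 2) + t * (u (g (c w)) - v (g (c w))) := by
    filter_upwards [hc.1.1.eventually ((hP.isOpen i).mem_nhds hi),
      hc.1.1.eventually ((hP.isOpen j).mem_nhds hj)] with w k1 k2
    rw [hψ i j _ k1 k2]
    ring
  have h2 := hc.1.analyticAt (hP.holo i j _ hi hj)
  have h3 := hP.ne_zero i j _ hi hj
  have h4 : ContDiffAt ℝ 2 (fun w => u (g (c w)) - v (g (c w))) z :=
    (sm_two (hc.1.holMap (hg _)) hu).sub (sm_two (hc.1.holMap (hg _)) hv)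
  rw [C2.cHess_congr h1, C2.cHess_add
    ((((h2.contDiffAt (n := 2)).restrict_scalars ℝ).norm_sq ℝ).log (by positivity))
    (contDiffAt_const.mul h4), C2.cHess_const_mul t h4, cHess_log_norm_sq h2.contDiffAt h3,
    ph_pull (u := fun x => u x - v x) hg hD hU hf hc hz h4, smul_zero, add_zero]

theorem cover (hg : ∀ y, HolMap Y X g y) (hP : IsLBx Y P) (hA : RelAmple Y X g P) {ι : Type}
    {U : ι → Set X.pt} {u : ι → X.pt → ℝ} (hU : ∀ a, IsOpen (U a)) (hc : ∀ x, ∃ a, x ∈ U a)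
    (hu : ∀ a, ∀ x ∈ U a, Sp X (u a) x) : ∃ (ψ : P.ι → Y.pt → ℝ) (t₀ : ℝ),
      (∀ i j y, y ∈ P.U i → y ∈ P.U j → ψ i y = ψ j y + Real.log (‖P.g i j y‖ ^ 2)) ∧
      (∀ i (d : ℕ) (c : Cm d → Y.pt) z, HolAt Y c z → c z ∈ P.U i →
        ContDiffAt ℝ ∞ (fun w => ψ i (c w)) z) ∧
      ∀ y t, t₀ ≤ t → ∃ i a, ∀ᶠ y' in 𝓝 y, y' ∈ P.U i ∧ g y' ∈ U a ∧
        Sp Y (fun y => ψ i y + t * u a (g y)) y' := by
  obtain ⟨ψ, h1, h2⟩ := core hg hP hA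
  obtain ⟨t₀, h3⟩ : ∃ t₀ : ℝ, ∀ y ∈ (univ : Set Y.pt), ∀ t, t₀ ≤ t → ∃ i a, ∀ᶠ y' in 𝓝 y,
      y' ∈ P.U i ∧ g y' ∈ U a ∧ Sp Y (fun y => ψ i y + t * u a (g y)) y' := by
    refine isCompact_univ.induction_on (p := fun S => ∃ t₀ : ℝ, ∀ y ∈ S, ∀ t, t₀ ≤ t → ∃ i a,
      ∀ᶠ y' in 𝓝 y, y' ∈ P.U i ∧ g y' ∈ U a ∧ Sp Y (fun y => ψ i y + t * u a (g y)) y')
      ⟨0, fun _ h => h.elim⟩ (fun S T hST ⟨t, ht⟩ => ⟨t, fun y hy => ht y (hST hy)⟩)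
      (fun S T ⟨t, ht⟩ ⟨t', ht'⟩ => ⟨max t t', fun y hy s hs => hy.elim
        (fun k => ht y k s (le_of_max_le_left hs)) fun k => ht' y k s (le_of_max_le_right hs)⟩)
      fun y _ => ?_
    obtain ⟨i, hi⟩ := hP.cover y
    obtain ⟨a, ha⟩ := hc (g y)
    obtain ⟨t₀, ht⟩ := h2 i y hi _ (hu a _ ha)
    exact ⟨_, nhdsWithin_le_nhds (ht.and (Eventually.and ((hP.isOpen i).mem_nhds hi)
      ((hg y).1.eventually ((hU a).mem_nhds ha)))).eventually_nhds, t₀,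
      fun y' hy' t ht => ⟨i, a, hy'.mono fun _ k => ⟨k.2.1, k.2.2, k.1 t ht⟩⟩⟩
  refine ⟨ψ, t₀, h1, fun i d c z hz hi => ?_, fun y => h3 y trivial⟩
  obtain ⟨a, ha⟩ := hc (g (c z))
  obtain ⟨t, ht⟩ := h2 i _ hi _ (hu a _ ha)
  have k1 := (sm_comp hz (sp_sm (ht.self_of_nhds t le_rfl))).self_of_nhds.sub
    ((contDiffAt_const (c := t)).mul
      (sm_comp (hz.holMap (hg _)) (sp_sm (hu a _ ha))).self_of_nhds)
  simpa only [Function.comp_apply, add_sub_cancel_right] using k1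

end Ka

/-- **KPROJ** -/
theorem kproj : StKProj := by
  rintro Y X g R P ⟨ι, U, u, hU, hc, hu, hf⟩ hg hD hP hA
  obtain ⟨ψ, t, h1, -, h3⟩ := Ka.cover hg hP hA hU hc hu
  refine ⟨⟨P.ι × ι, fun q => {y | ∀ᶠ y' in 𝓝 y, y' ∈ P.U q.1 ∧ g y' ∈ U q.2 ∧
    Sp Y (fun y => ψ q.1 y + t * u q.2 (g y)) y'}, fun q y => ψ q.1 y + t * u q.2 (g y),
    fun _ => isOpen_setOfPred_eventually_nhds, fun y => ?_,
    fun q y hy => Ka.sp_sm hy.self_of_nhds.2.2, ?_⟩, fun q y hy => hy.self_of_nhds.2.2⟩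
  · obtain ⟨i, a, h⟩ := h3 y t le_rfl
    exact ⟨(i, a), h⟩
  · rintro q q' y hy hy' c z hz rfl
    have k := hy.self_of_nhds
    have k' := hy'.self_of_nhds
    exact Ka.flat hg hP h1 hD ((hU q.2).inter (hU q'.2))
      (fun γ z e1 e2 e3 => hf _ _ 4 γ z e1 e2 e3.1 e3.2) hz k.1 k'.1 ⟨k.2.1, k'.2.1⟩
      (Ka.sp_sm (hu _ _ k.2.1)) (Ka.sp_sm (hu _ _ k'.2.1)) t

/-- **KMET** -/
theorem kmet : StKMet := by
  intro W _ _ _ _ _ X p P w hw hp hD hP hA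
  have hP' : IsLBx (XH 4 W) P := ⟨hP.isOpen, hP.cover,
    fun i j x hi hj e he => (hP.holo i j e x he hi hj).analyticAt, hP.ne_zero, hP.cocycle⟩
  obtain ⟨ψ, t₀, h1, h2, h3⟩ := Ka.cover (Y := XH 4 W) hp hP' hA w.isOpen w.cover hw
  refine ⟨ψ, t₀, ⟨fun i e y he hi => ?_, h1⟩, fun t ht i a y e he hi ha => ?_⟩
  · rw [← e.left_inv he.2] at hi
    exact h2 i 4 e.symm (e y) (Ka.holAt_chart he) hi
  obtain ⟨j, b, h4⟩ := h3 y t ht
  obtain ⟨hj, hb, h5⟩ := h4.self_of_nhds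
  have hc := Ka.isCh_chart he
  rw [← e.left_inv he.2] at hi ha hj hb h5
  have h6 : ∀ i a, e.symm (e y) ∈ P.U i → p (e.symm (e y)) ∈ w.U a →
      ContDiffAt ℝ 2 (fun z => ψ i (e.symm z) + t * w.u a (p (e.symm z))) (e y) :=
    fun i a hi ha => ((h2 i 4 e.symm (e y) hc.1 hi).of_le two_le_inf).add
      (contDiffAt_const.mul (Ka.sm_two (c := p ∘ e.symm) (hc.1.holMap (hp _)) (w.sm a _ ha)))
  have h7 := Ka.flat (Y := XH 4 W) hp hP' h1 hD ((w.isOpen a).inter (w.isOpen b))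
    (fun γ z e1 e2 e3 => Ka.kahR_of w 4 γ z e1 e2 e3.1 e3.2) hc hi hj ⟨ha, hb⟩
    (w.sm a _ ha) (w.sm b _ hb) t
  have h8 := Ka.pos_chart hc h5
  exact Ka.posDef_of_flat (h6 i a hi ha) (h6 j b hj hb) h7 h8

end Vale.Agent.P277Z.GH
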