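import Vale.Agent.P277Z.Val.Fin

/-!
# P277, block GH: the connected components of a simple normal crossing family
-/

open scoped Manifold ContDiff Topology
open Vale.Agent.P272.K Vale.Agent.P277 Set Filter
open Vale.Agent.P277.T2 (IsLEq)
open Vale.Agent.P277.PH (HolF)
open Vale.Agent.P277Z.Val

noncomputable section

namespace Vale.Agent.P277Z.GH.Of

variable {Y : Type} [TopologicalSpace Y] {κ : Type} {G : κ → Set Y}

/-- the `G' j` are the pieces of the `G l` -/
structure Cmp (G : κ → Set Y) {r : ℕ} (G' : Fin r → Set Y) (par : Fin r → κ) : Prop where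
  conn : ∀ j, IsConnected (G' j)
  sub : ∀ j, G' j ⊆ G (par j)
  ex : ∀ l, ∀ y ∈ G l, ∃ j, par j = l ∧ y ∈ G' j
  uniq : ∀ j j' y, par j = par j' → y ∈ G' j → y ∈ G' j' → j = j'
  loc : ∀ j, ∀ y ∈ G' j, ∀ᶠ x in 𝓝 y, x ∈ G (par j) → x ∈ G' j
  closed : ∀ j, IsClosed (G' j)

section
variable {n : ℕ} [ChartedSpace (Cm n) Y] [IsManifold 𝓘(ℂ, Cm n) ω Y]

theorem exists_cmp [CompactSpace Y] [Finite κ] (h : IsSnc n G) :
    ∃ (r : ℕ) (G' : Fin r → Set Y) (par : Fin r → κ), Cmp G G' par := by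
  have ev : ∀ l, ∀ y ∈ G l, ∀ᶠ x in 𝓝 y, x ∈ G l → x ∈ connectedComponentIn (G l) y :=
    fun l y hy => by simpa only [inter_self] using h.ev_cc (l := l) (k := l) ⟨hy, hy⟩
  have key : ∀ l, {S | ∃ y ∈ G l, S = connectedComponentIn (G l) y}.Finite := fun l => by
    obtain ⟨t, ht⟩ := (h.closed' l).isCompact.elim_nhds_subcover'
      (fun y _ => {x | x ∈ G l → x ∈ connectedComponentIn (G l) y}) (ev l)
    refine (t.finite_toSet.image fun y => connectedComponentIn (G l) y.1).subset ?_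
    rintro S ⟨x, hx, rfl⟩
    obtain ⟨y, hy, h⟩ := mem_iUnion₂.1 (ht hx)
    exact ⟨y, hy, connectedComponentIn_eq (h hx)⟩
  have fin : {c : κ × Set Y | ∃ y ∈ G c.1, c.2 = connectedComponentIn (G c.1) y}.Finite := by
    refine (finite_iUnion fun l => (key l).image (Prod.mk l)).subset ?_
    rintro ⟨l, S⟩ h
    exact mem_iUnion.2 ⟨l, S, h, rfl⟩
  obtain ⟨r, f, f1, f2⟩ := fin.fin_param
  have m : ∀ j, ∃ y ∈ G (f j).1, (f j).2 = connectedComponentIn (G (f j).1) y := fun j => by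
    have := mem_range_self (f := f) j
    rwa [f2] at this
  have s : ∀ j, (f j).2 ⊆ G (f j).1 := fun j => by
    obtain ⟨y, -, e⟩ := m j
    exact e ▸ connectedComponentIn_subset _ _
  have q : ∀ j, ∀ y ∈ (f j).2, (f j).2 = connectedComponentIn (G (f j).1) y := fun j y hy => by
    obtain ⟨x, -, e⟩ := m j
    exact e.trans (connectedComponentIn_eq (e ▸ hy))
  refine ⟨r, fun j => (f j).2, fun j => (f j).1, fun j => ?_, s, fun l y hy => ?_,
    fun j j' y e a b => f1 (Prod.ext e (by rw [q j y a, q j' y b, e])), fun j y hy => ?_,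
    fun j => isClosed_of_closure_subset fun z hz => ?_⟩
  · obtain ⟨y, hy, e⟩ := m j
    exact e ▸ isConnected_connectedComponentIn_iff.2 hy
  · obtain ⟨j, e⟩ : (l, connectedComponentIn (G l) y) ∈ range f := f2 ▸ ⟨y, hy, rfl⟩
    exact ⟨j, by rw [e], by rw [e]; exact mem_connectedComponentIn hy⟩
  · rw [q j y hy]
    exact ev _ y (s j hy)
  · have h1 := (h.closed' _).closure_subset_iff.2 (s j) hz
    obtain ⟨x, a, b⟩ := ((mem_closure_iff_frequently.1 hz).and_eventually (ev _ z h1)).exists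
    rw [q j x a, ← connectedComponentIn_eq (b (s j a))]
    exact mem_connectedComponentIn h1

end

variable {r : ℕ} {G' : Fin r → Set Y} {par : Fin r → κ}

theorem Cmp.ev (h : Cmp G G' par) (y : Y) :
    ∀ᶠ x in 𝓝 y, ∀ j, x ∈ G' j ↔ y ∈ G' j ∧ x ∈ G (par j) := eventually_all.2 fun j => by
  by_cases hy : y ∈ G' j
  · exact (h.loc j y hy).mono fun x hx => ⟨fun k => ⟨hy, h.sub j k⟩, fun k => hx k.2⟩
  · filter_upwards [(h.closed j).isOpen_compl.mem_nhds hy] with x hx
      using ⟨fun k => absurd k hx, fun k => absurd k.1 hy⟩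

theorem Cmp.snc {n : ℕ} [ChartedSpace (Cm n) Y] (h : Cmp G G' par) (hG : IsSnc n G) :
    IsSnc n G' := fun y => by
  classical
  obtain ⟨t, lab, h1, h2, h3⟩ := hG y
  refine ⟨t, fun j => if y ∈ G' j then lab (par j) else none, h1, fun j j' i a b => ?_, ?_⟩
  · by_cases c : y ∈ G' j
    · by_cases d : y ∈ G' j'
      · exact h.uniq j j' y (h2 _ _ i (by simpa [c] using a) (by simpa [d] using b)) c d
      · simp [d] at b
    · simp [c] at a
  · filter_upwards [h3, h.ev y] with x a b j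
    rw [b j, a]
    by_cases c : y ∈ G' j <;> simp [c]

theorem Cmp.mem (h : Cmp G G' par) {p : κ → Prop} {y : Y} :
    (∃ j, p (par j) ∧ y ∈ G' j) ↔ ∃ l, p l ∧ y ∈ G l :=
  ⟨fun ⟨j, a, b⟩ => ⟨_, a, h.sub j b⟩, fun ⟨l, a, b⟩ =>
    let ⟨j, c, d⟩ := h.ex l y b; ⟨j, c ▸ a, d⟩⟩

theorem leq_crd [ChartedSpace (Cm 4) Y] [IsManifold 𝓘(ℂ, Cm 4) ω Y] {S : Set Y} {y : Y}
    {e : Chart 4 Y} (he : At e y) {o : Option (Fin 4)}
    (h : ∀ x ∈ e.source, x ∈ S ↔ ∃ i, o = some i ∧ e x i = 0) :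
    IsLEq S y fun x => o.elim 1 fun i => e x i := by
  refine ⟨?_, fun e' he' => ?_⟩
  · filter_upwards [e.open_source.mem_nhds he.2] with z hz
    rw [h z hz]
    cases o <;> simp
  · cases o with
    | none => exact ⟨analyticAt_const, fun h => absurd h one_ne_zero⟩
    | some i =>
      have h1 := (crd_chart he').chg (crd_chart he)
      refine ⟨analyticAt_pi_iff.1 h1.1 i, fun _ h0 => ?_⟩
      obtain ⟨v, hv⟩ := (LinearMap.equivOfDetNeZero (fderiv ℂ (fun w => e (e'.symm w)) (e' y) :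
        Cm 4 →ₗ[ℂ] Cm 4) h1.2).surjective (Pi.single i 1)
      have h2 := congrArg (fun L : Cm 4 →L[ℂ] ℂ => L v)
        (hasFDerivAt_pi'.1 h1.1.differentiableAt.hasFDerivAt i).fderiv
      have h3 : fderiv ℂ (fun w => e (e'.symm w)) (e' y) v = Pi.single i 1 := hv
      simp only [Option.elim_some] at h0
      simp [h0, h3] at h2

/-- monomials in the equations of the `G l` and in the equations of their components -/
theorem Cmp.mon {V : Lg} {κ : Type} [Fintype κ] {G : κ → Set V.W} {par : Fin V.r → κ}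
    (h : Cmp G V.G par) {y : V.W} {z : κ → V.W → ℂ} (hz : ∀ l, IsLEq (G l) y (z l)) {ζ}
    (hζ : V.Eq y ζ) (e : κ → ℕ) : ∃ u : V.W → ℂ, HolF 4 u y ∧ u y ≠ 0 ∧
      ∀ᶠ x in 𝓝 y, ∏ l, z l x ^ e l = u x * ∏ j, ζ j x ^ e (par j) := by
  classical
  have h1 : V.Eq y fun j => if y ∈ V.G j then z (par j) else fun _ => 1 := fun j => by
    by_cases c : y ∈ V.G j
    · simp only [if_pos c]
      refine ⟨?_, (hz _).2⟩
      filter_upwards [(hz (par j)).1, h.ev y] with x a b
      rw [a, b j, and_iff_right c]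
    · simp only [if_neg c]
      refine ⟨?_, fun _ _ => ⟨analyticAt_const, fun k => absurd k one_ne_zero⟩⟩
      filter_upwards [h.ev y] with x b
      simp [b j, c]
  obtain ⟨u, u1, u2⟩ := hζ.unit h1
  refine ⟨fun x => (∏ l with y ∉ G l, z l x ^ e l) * ∏ j, u j x ^ e (par j),
    fun c hc => (Finset.analyticAt_fun_prod _ fun l _ => ((hz l).2 c hc).1.fun_pow _).mul
      (Finset.analyticAt_fun_prod _ fun j _ => ((u1 j).1 c hc).fun_pow _),
    mul_ne_zero (Finset.prod_ne_zero_iff.2 fun l hl => pow_ne_zero _ fun k =>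
      (Finset.mem_filter.1 hl).2 ((hz l).1.self_of_nhds.1 k))
      (Finset.prod_ne_zero_iff.2 fun j _ => pow_ne_zero _ (u1 j).2), u2.mono fun x hx => ?_⟩
  have h2 : ∏ j, u j x ^ e (par j) * ζ j x ^ e (par j) =
      ∏ j with y ∈ V.G j, z (par j) x ^ e (par j) := by
    rw [Finset.prod_filter]
    refine Finset.prod_congr rfl fun j _ => ?_
    rw [← mul_pow, mul_comm, ← hx j]
    split_ifs <;> simp
  rw [mul_assoc, ← Finset.prod_mul_distrib, h2, ← Finset.prod_filter_not_mul_prod_filter _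
    fun l => y ∈ G l]
  refine congrArg _ (Finset.prod_bij (fun j _ => par j) (fun j hj => ?_) (fun j a j' b k => ?_)
    (fun l hl => ?_) fun _ _ => rfl).symm
  · exact Finset.mem_filter.2 ⟨Finset.mem_univ _, h.sub j (Finset.mem_filter.1 hj).2⟩
  · exact h.uniq j j' y k (Finset.mem_filter.1 a).2 (Finset.mem_filter.1 b).2
  · obtain ⟨j, a, b⟩ := h.ex l y (Finset.mem_filter.1 hl).2
    exact ⟨j, Finset.mem_filter.2 ⟨Finset.mem_univ _, b⟩, a⟩

end Vale.Agent.P277Z.GH.Of
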