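import Vale.Agent.P277Z.GH.OfOut
import Vale.Agent.P277Z.Glc.Sing

/-!
# P277, block GH: the ideal of an analytic set, resolution of singularities
-/

open scoped Topology
open Vale.Agent.P277 hiding Amin IsFlipR
open Set Filter
open Vale.Agent.P277Z.Val

noncomputable section

namespace Vale.Agent.P277Z.GH

/-- the functions `f l` define `A` at `x` and dominate the functions which vanish on `A` -/
structure GenAt (X : CSp) (A : Set X.pt) {m : ℕ} (f : Fin m → X.pt → ℂ) (x : X.pt) : Prop where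
  hol : ∀ l, X.Hol (f l) x
  mem : x ∈ A ↔ ∀ l, f l x = 0
  gen : ∀ F, X.Hol F x → (∀ᶠ y in 𝓝 x, y ∈ A → F y = 0) →
    ∃ c : Fin m → X.pt → ℂ, (∀ l, X.Hol (c l) x) ∧ ∀ᶠ y in 𝓝 x, F y = ∑ l, c l y * f l y

theorem exists_genAt {X : CSp} {A : Set X.pt} (hA : IsAn X univ A) (x : X.pt) :
    ∃ (m : ℕ) (f : Fin m → X.pt → ℂ), ∀ᶠ y in 𝓝 x, GenAt X A f y := by
  obtain ⟨N, k, V, Ω, h, φ, hx, M⟩ := X.model x
  obtain ⟨m, g, hg, h1, h2⟩ := Oka.carX_all X univ A hA V Ω h φ M x ⟨hx, trivial⟩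
  refine ⟨m, fun l y => g l (φ y), ?_⟩
  filter_upwards [M.isOpen.mem_nhds hx, (M.continuousAt hx).eventually
    (h1.and (h2.and (eventually_all.2 fun l => (hg l).eventually_analyticAt)))] with y hy a
  refine ⟨fun l => (M.hol y hy _).2 ⟨g l, a.2.2 l, .rfl⟩,
    Iff.trans ⟨fun b => ⟨y, ⟨hy, b⟩, rfl⟩, fun ⟨y', b, c⟩ => M.injOn b.1 hy c ▸ b.2⟩ a.1,
    fun F hF h0 => ?_⟩
  obtain ⟨G, hG, e⟩ := (M.hol y hy F).1 hF
  obtain ⟨c, c1, c2⟩ := a.2.1 G hG ((Oka.Csp.push M hy (h0.and e)).mono (by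
    rintro z hz ⟨y', b, rfl⟩
    exact (hz y' b.1 rfl).2.symm.trans ((hz y' b.1 rfl).1 b.2)))
  refine ⟨fun l y => c l (φ y), fun l => (M.hol y hy _).2 ⟨c l, c1 l, .rfl⟩, ?_⟩
  filter_upwards [e, (M.continuousAt hy).eventually c2] with z b d using b.trans d

theorem GenAt.le {X : CSp} {A : Set X.pt} {m m' : ℕ} {f : Fin m → X.pt → ℂ}
    {f' : Fin m' → X.pt → ℂ} {x : X.pt} (h : ∀ᶠ y in 𝓝 x, GenAt X A f y) (h' : GenAt X A f' x) :
    ∃ C : ℝ, 0 ≤ C ∧ ∀ᶠ y in 𝓝 x, ∑ k, ‖f k y‖ ≤ C * ∑ l, ‖f' l y‖ := by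
  choose c c1 c2 using fun k => h'.gen (f k) (h.self_of_nhds.hol k)
    (h.mono fun y a b => a.mem.1 b k)
  refine ⟨∑ k, ∑ l, (‖c k l x‖ + 1), by positivity, ?_⟩
  filter_upwards [eventually_all.2 c2, eventually_all.2 fun k => eventually_all.2 fun l =>
    (hol_continuousAt (c1 k l)).norm.eventually (gt_mem_nhds (lt_add_one ‖c k l x‖))] with y a b
  rw [Finset.sum_mul]
  refine Finset.sum_le_sum fun k _ => ?_
  rw [a k, Finset.mul_sum]
  refine (norm_sum_le _ _).trans (Finset.sum_le_sum fun l _ => ?_)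
  rw [norm_mul]
  exact mul_le_mul_of_nonneg_right ((b k l).le.trans (Finset.single_le_sum
    (f := fun l => ‖c k l x‖ + 1) (fun _ _ => by positivity) (Finset.mem_univ l))) (norm_nonneg _)

/-- the family of the generators of the ideal of `A` -/
theorem exists_fam {X : CSp} {A : Set X.pt} (hA : IsAn X univ A) :
    ∃ I : Fam X, I.Z = A ∧ ∀ γ, ∀ x ∈ I.O γ, GenAt X A (I.f γ) x := by
  choose m f h using exists_genAt hA
  have e : ∀ γ, ∀ x ∈ interior {y | GenAt X A (f γ) y}, ∀ᶠ y in 𝓝 x, GenAt X A (f γ) y :=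
    fun γ x => mem_interior_iff_mem_nhds.1
  refine ⟨⟨X.pt, fun γ => interior {y | GenAt X A (f γ) y}, m, f, fun _ => isOpen_interior,
    fun x => ⟨x, mem_interior_iff_mem_nhds.2 (h x)⟩,
    fun γ k x hx => (e γ x hx).self_of_nhds.hol k, fun γ γ' x a b => ?_⟩,
    Set.ext fun x => ⟨fun a => a.elim fun γ a => (e γ x a.1).self_of_nhds.mem.2 a.2, fun a =>
      ⟨x, mem_interior_iff_mem_nhds.2 (h x), (h x).self_of_nhds.mem.1 a⟩⟩,
    fun γ x hx => (e γ x hx).self_of_nhds⟩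
  obtain ⟨C, c0, c1⟩ := GenAt.le (e γ x a) (e γ' x b).self_of_nhds
  obtain ⟨D, d0, d1⟩ := GenAt.le (e γ' x b) (e γ x a).self_of_nhds
  refine ⟨C + D + 1, by positivity, ?_⟩
  filter_upwards [c1, d1] with y p q
  exact ⟨p.trans (mul_le_mul_of_nonneg_right (by linarith) (by positivity)),
    q.trans (mul_le_mul_of_nonneg_right (by linarith) (by positivity))⟩

theorem fam : StFam := fun _ _ hA => (exists_fam hA).imp fun _ h => h.1

theorem res0_of (hK : Pos.KOD) (h : Hir.StMain) : StRes0 := by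
  intro X hX
  obtain ⟨I, hI⟩ := fam X _ (Glc.sing_an hX.dense)
  have hd : Dense I.Zᶜ := hX.dense.mono fun x a b => (hI ▸ b :) a
  obtain ⟨o⟩ := h I.base 4 univ (by norm_num)
    ⟨X.model, fun x hx => not_not.1 fun a => hx (hI.ge a), hd⟩ isCompact_univ
  obtain ⟨V, p, new, h1, h2, h3, -⟩ := ofOut0 hK hd o
  obtain rfl : new = Finset.univ := Finset.eq_univ_of_forall fun l => by
    obtain ⟨y, hy⟩ := (V.conn l).nonempty
    obtain ⟨x, a, b⟩ := (Lg.freq1 hy).exists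
    obtain ⟨k, c, d⟩ := mem_iUnion₂.1 ((h2 x).2 (((h3 x).1 (mem_iUnion.2 ⟨l, a⟩)).resolve_right id))
    exact (not_not.1 fun e => b k e d : k = l) ▸ c
  have e : p '' ⋃ l ∈ Finset.univ, V.G l = I.Z :=
    (congrArg _ (Set.ext h2)).trans (image_preimage_eq I.Z h1.surj)
  refine ⟨V, p, h1.res (e ▸ I.an) ?_, fun y => (h3 y).trans ?_⟩
  · rw [e, hI]
    exact hX.sing
  · rw [hI]
    exact or_iff_left id

end Vale.Agent.P277Z.GH
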