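import Vale.Agent.P277Z.St.Defs
import Vale.Agent.P277Z.Val.Sk
import Vale.Agent.P277Z.Glc.Sk0
import Vale.Agent.P277Z.Hir.OutL

/-!
# P277, block GH: global log resolutions, Kähler forms (statements)
-/

open scoped Manifold ContDiff Topology ComplexOrder
open Vale.Agent.P277 hiding Amin IsFlipR
open Vale.Agent.P272.K Vale.Agent.P285.H281.FD Vale.Agent.P277.HD Set Filter
open Vale.Agent.P277.PH (HolF)
open Vale.Agent.P277.H60.Z (XH)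
open Vale.Agent.P277Z.Val Vale.Agent.P277Z.St

noncomputable section

namespace Vale.Agent.P277Z.GH

/-- local families of holomorphic functions whose norms are comparable -/
structure Fam (X : CSp) where
  Γ : Type
  O : Γ → Set X.pt
  m : Γ → ℕ
  f : ∀ γ, Fin (m γ) → X.pt → ℂ
  isOpen : ∀ γ, IsOpen (O γ)
  cover : ∀ x, ∃ γ, x ∈ O γ
  hol : ∀ γ k, ∀ x ∈ O γ, X.Hol (f γ k) x
  cpb : ∀ γ γ', ∀ x ∈ O γ, x ∈ O γ' →
    Hir.Cpb (𝓝 x) (fun y => ∑ k, ‖f γ k y‖) fun y => ∑ k, ‖f γ' k y‖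

/-- the common zeros -/
def Fam.Z {X : CSp} (I : Fam X) : Set X.pt := {x | ∃ γ, x ∈ I.O γ ∧ ∀ k, I.f γ k x = 0}

/-- the pull back of the family generates the ideal of `∑ l, a l • G l` -/
def Fam.Mono {X : CSp} (I : Fam X) (V : Lg) (p : V.W → X.pt) (a : Fin V.r → ℕ) : Prop :=
  ∀ y γ ζ, p y ∈ I.O γ → V.Eq y ζ → ∃ u : Fin (I.m γ) → V.W → ℂ, (∀ k, HolF 4 (u k) y) ∧
    (∃ k, u k y ≠ 0) ∧ ∀ᶠ y' in 𝓝 y, ∀ k, I.f γ k (p y') = u k y' * ∏ l, ζ l y' ^ a l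

theorem res_ne {V : Lg} {X : CSp} {p : V.W → X.pt} {exc} (h : Res V X p exc) : Nonempty V.W := by
  obtain ⟨-, g, -⟩ := h.dim
  exact ⟨(h.surj (g 0 0)).choose⟩

/-- (FAM) the ideal of an analytic set -/
def StFam : Prop := ∀ (X : CSp) (A : Set X.pt), IsAn X univ A → ∃ I : Fam X, I.Z = A

/-- (RES0) resolution of singularities -/
def StRes0 : Prop := ∀ X : CSp, IsNormal 4 X →
  ∃ (V : Lg) (p : V.W → X.pt), Res V X p Finset.univ ∧ ∀ y, y ∈ V.E ↔ ¬ IsReg 4 X (p y)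

/-- (PRIN) principalization on a model, an isomorphism outside the common zeros -/
def StPrin : Prop := ∀ V : Lg, Nonempty V.W → ∀ (q : ℕ) (I : Fin q → Fam V.X),
  (∀ j, Dense (I j).Zᶜ) →
  ∃ (V' : Lg) (π : V'.W → V.W) (exc : Finset (Fin V'.r)), Res V' V.X π exc ∧
    (∀ y, y ∈ V'.E ↔ π y ∈ V.E ∨ ∃ j, π y ∈ (I j).Z) ∧
    (∀ l ∈ exc, ∀ y ∈ V'.G l, ∃ j, π y ∈ (I j).Z) ∧ ∀ j, ∃ a, (I j).Mono V' π a

/-- (COMP) composition of log resolutions -/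
def StComp : Prop := ∀ (V' V : Lg) (X : CSp) (π : V'.W → V.W) (p : V.W → X.pt) exc' exc,
  IsNormal 4 X → Res V' V.X π exc' → Res V X p exc → (∀ y, π y ∈ V.E → y ∈ V'.E) →
  ∃ exc'', Res V' X (fun y => p (π y)) exc'' ∧
    ∀ l, l ∈ exc'' ↔ l ∈ exc' ∨ ∃ k ∈ exc, π '' V'.G l ⊆ V.G k

/-- (GRAPH) resolution of a flip -/
def StGraph : Prop := ∀ (k : ℕ) (X Z X' : CSp) (f : X.pt → Z.pt) (f' : X'.pt → Z.pt) (A : Set Z.pt)
  (L : Fin k → Bd X.pt) (L' : Fin k → Bd X'.pt) (c c' : Fin k → ℕ) (ρ : Fin k → ℝ),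
  (∀ e, 1 ≤ c e) → (∀ e, 1 ≤ c' e) → IsFlipR X Z X' f f' A L L' c c' ρ →
  ∀ (V : Lg) (p : V.W → X.pt) exc, Res V X p exc →
  ∃ (V' : Lg) (π : V'.W → V.W) (p' : V'.W → X'.pt) (new exc' : Finset (Fin V'.r)),
    Res V' V.X π new ∧ Hom V' V π ∧ (∀ y, y ∈ V'.E ↔ π y ∈ V.E ∨ f (p (π y)) ∈ Amin f) ∧
    (∀ l ∈ new, ∀ y ∈ V'.G l, f (p (π y)) ∈ Amin f) ∧ (∀ y, f' (p' y) = f (p (π y))) ∧
    Res V' X (fun y => p (π y)) exc' ∧ Res V' X' p' exc'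

/-- (DOM) a log resolution which dominates a given projective modification -/
def StDom : Prop := ∀ (X X' : CSp) (g : X'.pt → X.pt) (A : Set X.pt) (P : Bd X'.pt), IsNormal 4 X →
  IsNormal 4 X' → IsBim X' X g A → IsLBx X' P → RelAmple X' X g P →
  ∀ (V : Lg) (p : V.W → X.pt) exc, Res V X p exc →
  ∃ (V' : Lg) (π : V'.W → V.W) (q : V'.W → X'.pt) (new exc' : Finset (Fin V'.r)),
    Res V' V.X π new ∧ Hom V' V π ∧ Res V' X (fun y => p (π y)) exc' ∧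
    (∀ y, HolMap V'.X X' q y) ∧ (∀ y, g (q y) = p (π y)) ∧
    (∀ l ∈ new, ∀ y ∈ V'.G l, p (π y) ∈ A ∨ ∃ k ∈ exc, π y ∈ V.G k) ∧
    IsBim V'.X X' q (g ⁻¹' ((fun y => p (π y)) '' ⋃ l ∈ exc', V'.G l))

/-! ### Kähler forms -/

/-- strictly plurisubharmonic potentials whose differences are pluriharmonic along `R` -/
def KahR (X : CSp) (R : Set X.pt) : Prop :=
  ∃ (ι : Type) (U : ι → Set X.pt) (u : ι → X.pt → ℝ), (∀ i, IsOpen (U i)) ∧ (∀ x, ∃ i, x ∈ U i) ∧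
    (∀ i, ∀ x ∈ U i, Sp X (u i) x) ∧ ∀ i j (d : ℕ) (g : Cm d → X.pt) z, HolAt X g z → g z ∈ R →
      g z ∈ U i → g z ∈ U j → cHess (fun w => u i (g w) - u j (g w)) z = 0

/-- (KR) -/
def StKR : Prop := ∀ X : CSp, Kah X → KahR X {x | IsReg 4 X x}

/-- (KPROJ) a space which is projective over a Kähler space is Kähler -/
def StKProj : Prop := ∀ (Y X : CSp) (g : Y.pt → X.pt) (R : Set X.pt) (P : Bd Y.pt), KahR X R →
  (∀ y, HolMap Y X g y) → Dense (g ⁻¹' R) → IsLBx Y P → RelAmple Y X g P → Kah Y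

/-- (KMAN) Kähler manifolds -/
def StKMan : Prop := ∀ (W : Type) [TopologicalSpace W] [T2Space W] [CompactSpace W]
  [ChartedSpace (Cm 4) W] [IsManifold 𝓘(ℂ, Cm 4) ω W],
  Kah (XH 4 W) ↔ ∃ χ : Chart 4 W → Cm 4 → Matrix (Fin 4) (Fin 4) ℂ, IsKahler χ

/-- (KMET) a relatively ample line bundle is positive up to the pull back of a Kähler form -/
def StKMet : Prop := ∀ (W : Type) [TopologicalSpace W] [T2Space W] [CompactSpace W]
  [ChartedSpace (Cm 4) W] [IsManifold 𝓘(ℂ, Cm 4) ω W] (X : CSp) (p : W → X.pt) (P : Bd W)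
  (w : Pot X), w.Pos → (∀ y, HolMap (XH 4 W) X p y) → Dense (p ⁻¹' {x | IsReg 4 X x}) →
  IsLB 4 P → RelAmple (XH 4 W) X p P →
  ∃ (ψ : P.ι → W → ℝ) (t₀ : ℝ), IsMet 4 P ψ ∧ ∀ t, t₀ ≤ t → ∀ i a y (e : Chart 4 W), At e y →
    y ∈ P.U i → p y ∈ w.U a →
    (cHess (fun z => ψ i (e.symm z) + t * w.u a (p (e.symm z))) (e y)).PosDef

/-- (NEF) the pull back of a nef line bundle -/
def StNef : Prop := ∀ (W : Type) [TopologicalSpace W] [T2Space W] [CompactSpace W]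
  [ChartedSpace (Cm 4) W] [IsManifold 𝓘(ℂ, Cm 4) ω W]
  (χ : Chart 4 W → Cm 4 → Matrix (Fin 4) (Fin 4) ℂ) (X : CSp) (q : W → X.pt) (k : ℕ)
  (N : Fin k → Bd X.pt) (ν : Fin k → ℕ), IsKahler χ → (∀ y, HolMap (XH 4 W) X q y) →
  Dense (q ⁻¹' {x | IsReg 4 X x}) → (∀ j, IsLBx X (N j)) → (∀ j, NefX X (N j)) →
  IsLB 4 (HD.Bd.lin (fun j => pull q (N j)) fun j => ν j) ∧
    Nef χ (HD.Bd.lin (fun j => pull q (N j)) fun j => ν j)

end Vale.Agent.P277Z.GH
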