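import Vale.Agent.P277Z.GH.Sk
import Vale.Agent.P277Z.Pos.Rb
import Vale.Agent.P284Y.Lib.GlC

/-!
# P277, block GH: smooth functions on complex spaces, Levi forms
-/

open scoped Manifold ContDiff Topology ComplexOrder
open Vale.Agent.P277 hiding Amin IsFlipR
open Vale.Agent.P272.K Vale.Agent.P285.H281.FD Set Filter
open Vale.Agent.P277.PH (HolF)
open Vale.Agent.P277.H60.Z (XH)
open Vale.Agent.P277Z.St
open Vale.Agent.P284Z (levi cHess_quad cHess_psd_iff)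
open Vale.Agent.P284Y.Lib (levi_hol levi_add levi_contAt levi_congr levi_smul two_le_inf)

noncomputable section

namespace Vale.Agent.P277Z.GH

namespace Ka

section levi
variable {d : ℕ} {u v : Cm d → ℝ} {z : Cm d}

theorem levi_pos (hu : ContDiffAt ℝ 2 u z) (h : (cHess u z).PosDef) {w : Cm d} (hw : w ≠ 0) :
    0 < levi u z w := by
  have := h.dotProduct_mulVec_pos (star_ne_zero.2 hw)
  rw [cHess_quad hu, star_star, Complex.zero_lt_real] at this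
  linarith

theorem levi_zero (u : Cm d → ℝ) (z : Cm d) : levi u z 0 = 0 := by simp [levi]

theorem cHess_zero (hu : ContDiffAt ℝ 2 u z) (h : ∀ w, levi u z w = 0) : cHess u z = 0 := by
  have h0 : (cHess u z).PosSemidef := (cHess_psd_iff hu).2 fun w => (h w).ge
  refine Matrix.ext_of_mulVec_single fun i => ?_
  rw [Matrix.zero_mulVec, ← h0.dotProduct_mulVec_zero_iff, cHess_quad hu, h]
  simp

theorem cHess_zero_of_freq (hu : ContDiffAt ℝ 2 u z) (h : ∃ᶠ w in 𝓝 z, cHess u w = 0) :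
    cHess u z = 0 := by
  refine cHess_zero hu fun ξ => ?_
  have h1 : ContinuousAt (fun w => levi u w ξ) z :=
    ContinuousAt.comp (f := fun w : Cm d => (w, ξ)) (levi_contAt hu) (by fun_prop)
  refine tendsto_nhds_unique_of_frequently_eq h1 tendsto_const_nhds (h.mp ?_)
  filter_upwards [hu.eventually (by simp)] with w h2 h3 using Pos.RbAux.levi_of_flat h2 h3 ξ

theorem flat_comp {e : ℕ} {τ : Cm e → Cm d} {w : Cm e} (hτ : AnalyticAt ℂ τ w)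
    (hu : ContDiffAt ℝ 2 u (τ w)) (h : cHess u (τ w) = 0) : cHess (fun y => u (τ y)) w = 0 :=
  cHess_zero (hu.comp w ((hτ.contDiffAt (n := 2)).restrict_scalars ℝ)) fun ξ => by
    rw [levi_hol hτ hu, Pos.RbAux.levi_of_flat hu h]

theorem posDef_of_flat (hu : ContDiffAt ℝ 2 u z) (hv : ContDiffAt ℝ 2 v z)
    (h : cHess (fun y => u y - v y) z = 0) (hp : (cHess v z).PosDef) : (cHess u z).PosDef := by
  rw [C2.cHess_sub hu hv, sub_eq_zero] at h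
  rwa [h]

/-- a form which is positive on the kernel of a semipositive form -/
theorem pos_large (hu : ContDiffAt ℝ 2 u z) (hv : ContDiffAt ℝ 2 v z) (h0 : ∀ ξ, 0 ≤ levi v z ξ)
    (h : ∀ ξ, ξ ≠ 0 → levi v z ξ = 0 → 0 < levi u z ξ) :
    ∃ t : ℝ, ∀ᶠ w in 𝓝 z, ∀ ξ, ξ ≠ 0 → 0 < levi u w ξ + t * levi v w ξ := by
  have hc : ∀ (t : ℝ) ξ, ContinuousAt
      (fun q : Cm d × Cm d => levi u q.1 q.2 + t * levi v q.1 q.2) (z, ξ) := fun t ξ =>
    (levi_contAt hu).add (continuousAt_const.mul (levi_contAt hv))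
  obtain ⟨t, ht⟩ : ∃ t : ℝ, ∀ ξ ∈ Metric.sphere (0 : Cm d) 1, 0 < levi u z ξ + t * levi v z ξ := by
    refine (isCompact_sphere (0 : Cm d) 1).induction_on
      (p := fun S => ∃ t : ℝ, ∀ ξ ∈ S, 0 < levi u z ξ + t * levi v z ξ) ⟨0, fun _ h => h.elim⟩
      (fun S T hST ⟨t, ht⟩ => ⟨t, fun ξ hξ => ht ξ (hST hξ)⟩)
      (fun S T ⟨t, ht⟩ ⟨t', ht'⟩ => ⟨max t t', fun ξ hξ => ?_⟩) fun ξ hξ => ?_
    · rcases hξ with hξ | hξ
      · linarith [ht ξ hξ, mul_le_mul_of_nonneg_right (le_max_left t t') (h0 ξ)]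
      · linarith [ht' ξ hξ, mul_le_mul_of_nonneg_right (le_max_right t t') (h0 ξ)]
    · obtain ⟨t, ht⟩ : ∃ t : ℝ, 0 < levi u z ξ + t * levi v z ξ := by
        rcases (h0 ξ).eq_or_lt with k | k
        · exact ⟨0, by simpa using h ξ (ne_zero_of_mem_unit_sphere ⟨ξ, hξ⟩) k.symm⟩
        · refine ⟨(1 - levi u z ξ) / levi v z ξ, ?_⟩
          rw [div_mul_cancel₀ _ k.ne']
          linarith
      have k1 : ContinuousAt (fun ξ => levi u z ξ + t * levi v z ξ) ξ :=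
        ContinuousAt.comp (f := fun ξ : Cm d => (z, ξ)) (hc t ξ) (by fun_prop)
      exact ⟨_, nhdsWithin_le_nhds (k1.eventually (lt_mem_nhds ht)), t, fun _ h => h⟩
  refine ⟨t, ((isCompact_sphere (0 : Cm d) 1).eventually_forall_of_forall_eventually
    (P := fun w ξ => 0 < levi u w ξ + t * levi v w ξ)
    fun ξ hξ => (hc t ξ).eventually (lt_mem_nhds (ht ξ hξ))).mono fun w hw ξ hξ => ?_⟩
  have hn := norm_pos_iff.2 hξ
  have h2 := hw (‖ξ‖⁻¹ • ξ) (by simp [norm_smul, inv_mul_cancel₀ hn.ne'])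
  simp only [levi_smul] at h2
  exact pos_of_mul_pos_left (by linarith) (pow_pos (inv_pos.2 hn) 2).le

end levi

variable {X Y : CSp} {N k : ℕ} {V : Set X.pt} {Ω : Set (Cm N)} {h : Fin k → Cm N → ℂ}
  {φ : X.pt → Cm N} {x : X.pt} {u : X.pt → ℝ}

theorem model_ev (hM : IsModel X.Hol V Ω h φ) (hx : x ∈ V) {p : X.pt → Prop}
    (hp : ∀ᶠ y in 𝓝 x, p y) : ∀ᶠ z in 𝓝 (φ x), ∀ y ∈ V, φ y = z → p y := by
  have h1 : ∀ᶠ y : V in 𝓝 ⟨x, hx⟩, p y := continuousAt_subtype_val.eventually hp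
  rw [hM.emb.isInducing.nhds_eq_comap, eventually_comap] at h1
  exact h1.mono fun z hz y hy e => hz ⟨y, hy⟩ e

theorem model_res (hM : IsModel X.Hol V Ω h φ) {Ω' : Set (Cm N)} (hΩ : IsOpen Ω') :
    IsModel X.Hol (V ∩ φ ⁻¹' Ω') (Ω ∩ Ω') h φ where
  isOpen := hM.continuousOn.isOpen_inter_preimage hM.isOpen hΩ
  isOpen' := hM.isOpen'.inter hΩ
  holo i z hz := hM.holo i z hz.1
  image := by
    rw [image_inter_preimage, hM.image]
    ext z
    exact ⟨fun h => ⟨⟨h.1.1, h.2⟩, h.1.2⟩, fun h => ⟨⟨h.1.1, h.2⟩, h.1.2⟩⟩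
  emb := hM.emb.comp (Topology.IsEmbedding.inclusion inter_subset_left)
  hol x hx := hM.hol x hx.1

theorem shrink (hM : IsModel X.Hol V Ω h φ) (hx : x ∈ V) {ψ : Cm N → ℝ} {p : Cm N → Prop}
    (h1 : ∀ᶠ z in 𝓝 (φ x), p z) (h2 : ∀ᶠ y in 𝓝 x, u y = ψ (φ y)) :
    ∃ V' Ω', x ∈ V' ∧ IsModel X.Hol V' Ω' h φ ∧ (∀ z ∈ Ω', p z) ∧ ∀ y ∈ V', u y = ψ (φ y) := by
  obtain ⟨Ω', k1, k2, k3⟩ := eventually_nhds_iff.1 (h1.and (model_ev hM hx h2))
  exact ⟨V ∩ φ ⁻¹' Ω', Ω ∩ Ω', ⟨hx, k3⟩, model_res hM k2, fun z hz => (k1 z hz.2).1,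
    fun y hy => (k1 _ hy.2).2 y hy.1 rfl⟩

theorem sm_of (hM : IsModel X.Hol V Ω h φ) (hx : x ∈ V) {ψ : Cm N → ℝ}
    (h1 : ∀ᶠ z in 𝓝 (φ x), ContDiffAt ℝ ∞ ψ z) (h2 : ∀ᶠ y in 𝓝 x, u y = ψ (φ y)) : Sm X u x :=
  let ⟨V', Ω', k1, k2, k3, k4⟩ := shrink hM hx h1 h2
  ⟨N, k, V', Ω', h, φ, ψ, k1, k2, k3, k4⟩

theorem sp_of (hM : IsModel X.Hol V Ω h φ) (hx : x ∈ V) {ψ : Cm N → ℝ}
    (h1 : ∀ᶠ z in 𝓝 (φ x), ContDiffAt ℝ ∞ ψ z ∧ (cHess ψ z).PosDef)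
    (h2 : ∀ᶠ y in 𝓝 x, u y = ψ (φ y)) : Sp X u x :=
  let ⟨V', Ω', k1, k2, k3, k4⟩ := shrink hM hx h1 h2
  ⟨N, k, V', Ω', h, φ, ψ, k1, k2, k3, k4⟩

theorem sp_sm (hu : Sp X u x) : Sm X u x :=
  let ⟨N, k, V, Ω, h, φ, ψ, k1, k2, k3, k4⟩ := hu
  ⟨N, k, V, Ω, h, φ, ψ, k1, k2, fun z hz => (k3 z hz).1, k4⟩

theorem mem_Ω (hM : IsModel X.Hol V Ω h φ) (hx : x ∈ V) : φ x ∈ Ω := by
  have : φ x ∈ φ '' V := mem_image_of_mem φ hx
  rw [hM.image] at this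
  exact this.1

/-- holomorphic maps to `ℂ^ι` extend to the ambient space -/
theorem lift (hM : IsModel X.Hol V Ω h φ) (hx : x ∈ V) {ι : Type} [Fintype ι] {F : X.pt → ι → ℂ}
    (hF : ∀ a, X.Hol (fun y => F y a) x) :
    ∃ Γ : Cm N → ι → ℂ, AnalyticAt ℂ Γ (φ x) ∧ ∀ᶠ y in 𝓝 x, F y = Γ (φ y) := by
  choose g h1 h2 using fun a => (hM.hol x hx _).1 (hF a)
  exact ⟨fun z a => g a z, AnalyticAt.pi h1, (eventually_all.2 h2).mono fun y hy => funext hy⟩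

theorem sm_an {d : ℕ} {τ : Cm d → Cm N} {z : Cm d} {ψ : Cm N → ℝ} (hτ : AnalyticAt ℂ τ z)
    (hψ : ∀ᶠ w in 𝓝 (τ z), ContDiffAt ℝ ∞ ψ w) :
    ∀ᶠ w in 𝓝 z, ContDiffAt ℝ ∞ (fun y => ψ (τ y)) w := by
  filter_upwards [hτ.eventually_analyticAt, hτ.continuousAt.eventually hψ] with w h1 h2
  exact h2.comp w ((h1.contDiffAt (n := ∞)).restrict_scalars ℝ)

theorem holMap_id (x : X.pt) : HolMap X X id x := ⟨continuousAt_id, fun _ h => h⟩

/-- smooth functions extend to the ambient space of every model -/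
theorem sm_lift (hM : IsModel X.Hol V Ω h φ) (hx : x ∈ V) {g : X.pt → Y.pt}
    (hg : HolMap X Y g x) {v : Y.pt → ℝ} (hv : Sm Y v (g x)) : ∃ ψ : Cm N → ℝ,
      (∀ᶠ z in 𝓝 (φ x), ContDiffAt ℝ ∞ ψ z) ∧ ∀ᶠ y in 𝓝 x, v (g y) = ψ (φ y) := by
  obtain ⟨N', k', V', Ω', h', χ, υ, k1, k2, k3, k4⟩ := hv
  obtain ⟨Γ, h1, h2⟩ := lift hM hx (F := fun y => χ (g y))
    fun a => hg.2 _ (k2.isCoord.hol a _ k1)
  refine ⟨fun z => υ (Γ z), sm_an h1 ?_, ?_⟩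
  · rw [← h2.self_of_nhds]
    exact mem_of_superset (k2.isOpen'.mem_nhds (mem_Ω k2 k1)) k3
  · filter_upwards [h2, hg.1 (k2.isOpen.mem_nhds k1)] with y h3 h4
    rw [k4 _ h4, h3]

theorem sm_fun {ι : Type} [Fintype ι] {f : ι → X.pt → ℝ} (hf : ∀ a, Sm X (f a) x)
    {Θ : (ι → ℝ) → ℝ} (hΘ : ∀ᶠ s in 𝓝 fun a => f a x, ContDiffAt ℝ ∞ Θ s) :
    Sm X (fun y => Θ fun a => f a y) x := by
  obtain ⟨N, k, V, Ω, h, φ, hx, hM⟩ := X.model x
  choose ψ h1 h2 using fun a => sm_lift hM hx (holMap_id x) (hf a)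
  have h3 : ContinuousAt (fun z a => ψ a z) (φ x) :=
    continuousAt_pi.2 fun a => (h1 a).self_of_nhds.continuousAt
  have h4 : (fun a => f a x) = fun a => ψ a (φ x) := funext fun a => (h2 a).self_of_nhds
  refine sm_of hM hx (ψ := fun z => Θ fun a => ψ a z) ?_
    ((eventually_all.2 h2).mono fun y hy => congrArg Θ (funext hy))
  filter_upwards [eventually_all.2 h1, h3.eventually (h4 ▸ hΘ)] with z k1 k2
  exact k2.comp z (contDiffAt_pi.2 k1)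

theorem an_model {d : ℕ} {c : Cm d → X.pt} {z : Cm d} (hM : IsModel X.Hol V Ω h φ) (hx : c z ∈ V)
    (hc : HolAt X c z) : AnalyticAt ℂ (fun w => φ (c w)) z :=
  AnalyticAt.pi fun a => hc.analyticAt (hM.isCoord.hol a _ hx)

/-- smooth functions are smooth along holomorphic maps -/
theorem sm_comp {d : ℕ} {c : Cm d → X.pt} {z : Cm d} (hc : HolAt X c z) (hu : Sm X u (c z)) :
    ∀ᶠ w in 𝓝 z, ContDiffAt ℝ ∞ (fun w => u (c w)) w := by
  obtain ⟨N, k, V, Ω, h, φ, ψ, k1, k2, k3, k4⟩ := hu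
  have h1 : ∀ᶠ w in 𝓝 z, u (c w) = ψ (φ (c w)) :=
    (hc.1.eventually (k2.isOpen.mem_nhds k1)).mono fun w hw => k4 _ hw
  filter_upwards [sm_an (an_model k2 k1 hc)
    (mem_of_superset (k2.isOpen'.mem_nhds (mem_Ω k2 k1)) k3), h1.eventually_nhds] with w h2 h3
  exact h2.congr_of_eventuallyEq h3

theorem sm_two {d : ℕ} {c : Cm d → X.pt} {z : Cm d} (hc : HolAt X c z) (hu : Sm X u (c z)) :
    ContDiffAt ℝ 2 (fun w => u (c w)) z := (sm_comp hc hu).self_of_nhds.of_le two_le_inf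

theorem psd_comp {d : ℕ} {c : Cm d → X.pt} {z : Cm d} (hc : HolAt X c z) (hu : Sp X u (c z)) :
    (cHess (fun w => u (c w)) z).PosSemidef := by
  refine (cHess_psd_iff (sm_two hc (sp_sm hu))).2 fun ξ => ?_
  obtain ⟨N, k, V, Ω, h, φ, ψ, k1, k2, k3, k4⟩ := hu
  have h1 : (fun w => u (c w)) =ᶠ[𝓝 z] fun w => ψ (φ (c w)) :=
    (hc.1.eventually (k2.isOpen.mem_nhds k1)).mono fun w hw => k4 _ hw
  have h2 := k3 _ (mem_Ω k2 k1)
  rw [levi_congr h1, levi_hol (an_model k2 k1 hc) (h2.1.of_le two_le_inf)]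
  exact (cHess_psd_iff (h2.1.of_le two_le_inf)).1 h2.2.posSemidef _

theorem pos_chart {c : Cm 4 → X.pt} {z : Cm 4} (hc : IsCh X c z) (hu : Sp X u (c z)) :
    (cHess (fun w => u (c w)) z).PosDef := by
  refine Pos.RbAux.posDef_of_levi (sm_two hc.1 (sp_sm hu)) fun ξ hξ => ?_
  obtain ⟨N, k, V, Ω, h, φ, ψ, k1, k2, k3, k4⟩ := hu
  obtain ⟨hc, V', Ω', h', φ', l1, l2, l3⟩ := hc
  have h1 : (fun w => u (c w)) =ᶠ[𝓝 z] fun w => ψ (φ (c w)) :=
    (hc.1.eventually (k2.isOpen.mem_nhds k1)).mono fun w hw => k4 _ hw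
  have h2 := k3 _ (mem_Ω k2 k1)
  have h3 := an_model k2 k1 hc
  rw [levi_congr h1, levi_hol h3 (h2.1.of_le two_le_inf)]
  refine levi_pos (h2.1.of_le two_le_inf) h2.2 fun h0 => hξ ?_
  obtain ⟨Γ, g1, g2⟩ := lift k2 k1 (F := φ') fun a => l2.isCoord.hol a _ l1
  have h4 : (Γ ∘ fun w => φ (c w)) =ᶠ[𝓝 z] id := by
    filter_upwards [hc.1.eventually g2, l3] with w h5 h6 using h5.symm.trans h6
  have h5 := (g1.differentiableAt.hasFDerivAt.comp z h3.differentiableAt.hasFDerivAt).fderiv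
  rw [h4.fderiv_eq, fderiv_id] at h5
  have h6 := congrArg (fun L => L ξ) h5
  simpa [h0] using h6

/-- the inverse of a chart -/
theorem exists_ch {Ω : Set (Cm 4)} {h : Fin 0 → Cm 4 → ℂ} {φ : X.pt → Cm 4}
    (hM : IsModel X.Hol V Ω h φ) (hx : x ∈ V) :
    ∃ c : Cm 4 → X.pt, IsCh X c (φ x) ∧ ∀ y ∈ V, c (φ y) = y := by
  have : Nonempty X.pt := ⟨x⟩
  have h1 : ∀ w ∈ Ω, ∃ y ∈ V, φ y = w := fun w hw => by
    have : w ∈ φ '' V := by
      rw [hM.image]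
      exact ⟨hw, fun i => i.elim0⟩
    exact this
  have h2 : ∀ᶠ w in 𝓝 (φ x), w ∈ Ω := hM.isOpen'.mem_nhds (mem_Ω hM hx)
  have h3 : ∀ᶠ w in 𝓝 (φ x), φ (Function.invFunOn φ V w) = w :=
    h2.mono fun w hw => Function.invFunOn_eq (h1 w hw)
  have h4 : ∀ y ∈ V, Function.invFunOn φ V (φ y) = y := fun y hy => hM.injOn.leftInvOn_invFunOn hy
  refine ⟨Function.invFunOn φ V, ⟨holAt_of_coord hM.isCoord
    (h2.mono fun w hw => Function.invFunOn_mem (h1 w hw)) fun a => ?_, V, Ω, h, φ,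
    (h4 x hx).symm ▸ hx, hM, h3⟩, h4⟩
  exact ((ContinuousLinearMap.proj (R := ℂ) (φ := fun _ : Fin 4 => ℂ) a).analyticAt _).congr
    (h3.mono fun w hw => (congrFun hw a).symm)

/-- flatness along all holomorphic maps at a smooth point -/
theorem ph_hol {d : ℕ} {g : Cm d → X.pt} {z : Cm d} (hg : HolAt X g z) (hr : IsReg 4 X (g z))
    (hs : ∀ c w, HolAt X c w → c w = g z → ContDiffAt ℝ 2 (fun w : Cm 4 => u (c w)) w)
    (hp : Ph X u (g z)) : cHess (fun w => u (g w)) z = 0 := by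
  obtain ⟨V, Ω, h, φ, hx, hM⟩ := hr
  obtain ⟨c, h1, h2⟩ := exists_ch hM hx
  have h3 : (fun w => u (g w)) =ᶠ[𝓝 z] fun w => u (c (φ (g w))) :=
    (hg.1.eventually (hM.isOpen.mem_nhds hx)).mono fun w hw => by simp only [h2 _ hw]
  rw [C2.cHess_congr h3]
  exact flat_comp (u := fun w => u (c w)) (an_model hM hx hg) (hs c _ h1.1 (h2 _ hx))
    (hp c _ h1 (h2 _ hx))

theorem freq_dense {c : Cm 4 → X.pt} {z : Cm 4} (hc : IsCh X c z) {D : Set X.pt} (hD : Dense D) :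
    ∃ᶠ w in 𝓝 z, c w ∈ D := by
  obtain ⟨hc, V, Ω, h, φ, k1, k2, k3⟩ := hc
  have h1 : Tendsto φ (𝓝 (c z)) (𝓝 z) := by
    have := (k2.continuousAt k1).tendsto
    rwa [k3.self_of_nhds] at this
  refine h1.frequently ((mem_closure_iff_frequently.1 (hD (c z))).mp ?_)
  filter_upwards [k2.isOpen.mem_nhds k1, h1.eventually k3,
    h1.eventually (hc.1.eventually (k2.isOpen.mem_nhds k1))] with y h2 h3 h4 h5
  rwa [k2.injOn h4 h2 h3]

/-- flatness on a dense set is enough -/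
theorem ph_pull {g : Y.pt → X.pt} (hg : ∀ y, HolMap Y X g y) {R U : Set X.pt}
    (hD : Dense (g ⁻¹' R)) (hU : IsOpen U) (hf : ∀ (γ : Cm 4 → X.pt) z, HolAt X γ z → γ z ∈ R →
      γ z ∈ U → cHess (fun w => u (γ w)) z = 0) {c : Cm 4 → Y.pt} {z : Cm 4} (hc : IsCh Y c z)
    (hz : g (c z) ∈ U) (hs : ContDiffAt ℝ 2 (fun w => u (g (c w))) z) :
    cHess (fun w => u (g (c w))) z = 0 := by
  refine cHess_zero_of_freq hs ((freq_dense hc hD).mp ?_)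
  filter_upwards [hc.1.eventually, (hc.1.holMap (hg _)).1.eventually (hU.mem_nhds hz)]
    with w h1 h2 h3 using hf (g ∘ c) w (h1.holMap (hg _)) h3 h2

section mfd
variable {n : ℕ} {W : Type} [TopologicalSpace W] [T2Space W] [CompactSpace W]
  [ChartedSpace (Cm n) W] [IsManifold 𝓘(ℂ, Cm n) ω W] {e : Chart n W} {y : W}

theorem model_chart (he : At e y) :
    IsModel (XH n W).Hol e.source e.target (fun i : Fin 0 => i.elim0) e := by
  refine ⟨e.open_source, e.open_target, fun i => i.elim0, ?_,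
    e.isOpenEmbedding_restrict.isEmbedding, fun x hx f => ⟨fun h => ⟨_, h e ⟨he.1, hx⟩, ?_⟩, ?_⟩⟩
  · refine e.image_source_eq_target.trans ?_
    ext z
    exact ⟨fun h => ⟨h, fun i => i.elim0⟩, fun h => h.1⟩
  · filter_upwards [e.open_source.mem_nhds hx] with y' hy' using congrArg f (e.left_inv hy').symm
  · rintro ⟨g, hg, hfg⟩
    refine P277.PH.holF_of ⟨he.1, hx⟩ (hg.congr ?_)
    filter_upwards [(e.tendsto_symm hx).eventually hfg, e.eventually_right_inverse' hx]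
      with z h1 h2
    exact ((congrArg g h2).symm).trans h1.symm

theorem holAt_chart (he : At e y) : HolAt (XH n W) e.symm (e y) :=
  ⟨e.continuousAt_symm (e.map_source he.2), fun f hf => by
    rw [e.left_inv he.2] at hf
    exact hf e he⟩

end mfd

theorem isCh_chart {W : Type} [TopologicalSpace W] [T2Space W] [CompactSpace W]
    [ChartedSpace (Cm 4) W] [IsManifold 𝓘(ℂ, Cm 4) ω W] {e : Chart 4 W} {y : W} (he : At e y) :
    IsCh (XH 4 W) e.symm (e y) :=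
  ⟨holAt_chart he, e.source, e.target, _, e, e.map_target (e.map_source he.2), model_chart he,
    e.eventually_right_inverse' he.2⟩

theorem kahR_of (w : Pot X) (d : ℕ) (g : Cm d → X.pt) (z : Cm d) {i j : w.ι} (hg : HolAt X g z)
    (hr : IsReg 4 X (g z)) (hi : g z ∈ w.U i) (hj : g z ∈ w.U j) :
    cHess (fun y => w.u i (g y) - w.u j (g y)) z = 0 :=
  ph_hol (u := fun y => w.u i y - w.u j y) hg hr (fun _ _ hc e =>
    (sm_two hc (e ▸ w.sm i _ hi)).sub (sm_two hc (e ▸ w.sm j _ hj))) (w.ph i j _ hi hj)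

end Ka

/-- **KR** -/
theorem kr : StKR := fun _ ⟨w, hw⟩ =>
  ⟨w.ι, w.U, w.u, w.isOpen, w.cover, hw, fun _ _ d g z hg hr hi hj =>
    Ka.kahR_of w d g z hg hr hi hj⟩

end Vale.Agent.P277Z.GH
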