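import Vale.Agent.P277Z.GH.Sk
import Vale.Agent.P277Z.Val.KahL

/-!
# P277, block GH: Kähler manifolds
-/

open scoped Manifold ContDiff ComplexOrder Topology
open Filter Set
open Vale.Agent.P272.K Vale.Agent.P277.PH Vale.Agent.P277Z.Pos Vale.Agent.P277Z.St
open Vale.Agent.P277.H60.Z (XH holAt_iff)

noncomputable section

namespace Vale.Agent.P277Z.GH

open Val.KahL

theorem kman : StKMan := by
  intro W _ _ _ _ _
  constructor
  · rintro ⟨w, hw⟩
    have hp : ∀ i, ∀ y ∈ w.U i, PosAt 4 (Y := W) (w.u i) y := fun i y hy => by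
      obtain ⟨N, k, V, Ω, h, φ, ψ, hV, hM, h1, h2⟩ := hw i y hy
      have h3 := h1 _ (hM.image ▸ mem_image_of_mem φ hV : φ y ∈ {z ∈ Ω | ∀ i, h i z = 0}).1
      obtain ⟨h4, h5⟩ := imm_model (show P277.IsModel (X := W) (HolF 4) V Ω h φ from hM) hV
      exact posAt_vec h4 h5 h3.1 h3.2 (eventually_of_mem (hM.isOpen.mem_nhds hV) h2)
    have hU : ∀ i, IsOpen (X := W) (w.U i) := w.isOpen
    refine (kah 4 W w.ι w.U w.u hU w.cover hp fun i j y hi hj e he =>
      ⟨(hp i y hi e he).1.sub (hp j y hj e he).1, w.ph i j y hi hj (fun z => e.symm z) (e y)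
        ⟨holAt_iff.2 ⟨e.continuousAt_symm he.mem_target, fun e' he' => chg_analyticAt
          (he.left_inv ▸ he') he⟩, _, _, _, e, ?_, model_chart he.1 e.open_target subset_rfl,
        he.nhds_target.mono fun z hz => e.right_inv hz⟩ he.left_inv⟩).imp fun χ h => h.1
    show e.symm (e y) ∈ e.source ∩ e ⁻¹' e.target
    rw [he.left_inv]
    exact ⟨he.2, he.mem_target⟩
  · rintro ⟨χ, hχ⟩
    obtain ⟨B, ρ, h⟩ := exists_pots hχ
    refine ⟨⟨W, cov B, pot ρ, h.open_cov, fun x => ⟨x, h.mem_cov x⟩, fun x y hy =>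
      ⟨4, 0, _, _, _, _, ρ x, hy, h.model x, fun _ _ => (h.smooth x).contDiffAt, fun _ _ => rfl⟩,
      fun i j y hi hj (g : Cm 4 → W) z hg hz => ?_⟩, fun x y hy =>
      ⟨4, 0, _, _, _, _, ρ x, hy, h.model x, fun _ hz =>
        ⟨(h.smooth x).contDiffAt, h.posDef hz⟩, fun _ _ => rfl⟩⟩
    subst hz
    have he := at_chartAt (n := 4) (g z)
    obtain ⟨h1, h2⟩ := holAt_iff.1 hg.1
    obtain ⟨h3, h4⟩ := h.flatAt hi hj _ he
    have h5 := cHess_comp (τ := fun w => chartAt (Cm 4) (g z) (g w)) (h3.of_le two)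
      (h2 _ he).contDiffAt
    rw [h4, Matrix.mul_zero, Matrix.zero_mul] at h5
    exact (cHess_congr (ev_pull h1 he fun w => pot ρ i w - pot ρ j w)).trans h5

end Vale.Agent.P277Z.GH
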