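import Vale.Agent.P277Z.Hl.Posb
import Vale.Agent.P277Z.Hl.Og
import Vale.Agent.P277.A.Basic
import Vale.Agent.P277.H60.Z.XH

/-!
# P277, block GH: the dual of the exceptional divisor is relatively ample
-/

open scoped Manifold ContDiff Topology ComplexOrder
open Set Filter
open Vale.Agent.P272.K (Cm Chart At cHess cHess_add)
open Vale.Agent.P285.H281.FD (Bd IsLB IsSec)
open Vale.Agent.P277 (CSp RelAmple)
open Vale.Agent.P277.H60.Z (XH)
open Vale.Agent.P284Z (Psh levi psh_of_levi)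
open Vale.Agent.P284Y.Lib (levi_sum two_le_inf)
open Vale.Agent.P277Z.Pos (SPshAt FlatAt PosAt nsq rb KOD)

noncomputable section

namespace Vale.Agent.P277Z.GH.Of

open Lo Hl Hl.PosbH

variable {n : ℕ} {Y : Type} [TopologicalSpace Y] [ChartedSpace (Cm n) Y] {X : CSp} {π : Y → X.pt}
  {y : Y} {u w : Y → ℝ}

variable (n) in
/-- of class `C²` and plurisubharmonic near `y` -/
def Lv (w : Y → ℝ) (y : Y) : Prop := ∀ e : Chart n Y, At e y → ∀ᶠ z in 𝓝 (e y),
  ContDiffAt ℝ 2 (fun z => w (e.symm z)) z ∧ ∀ ξ, 0 ≤ levi (fun z => w (e.symm z)) z ξ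

theorem lv_sq {F : Y → ℂ} (hF : Hol n F y) : Lv n (fun x => ‖F x‖ ^ 2) y := fun e he =>
  (hF e he).eventually_analyticAt.mono fun z hz =>
    ⟨(hz.restrictScalars (𝕜 := ℝ)).contDiffAt.norm_sq ℝ, fun ξ => by
      rw [P284Y.Ps.levi_nsq hz]
      positivity⟩

theorem lv_sum {κ : Type} (s : Finset κ) {w : κ → Y → ℝ} (h : ∀ k ∈ s, Lv n (w k) y) :
    Lv n (fun x => ∑ k ∈ s, w k x) y := fun e he => by
  filter_upwards [(eventually_all_finset s).2 fun k hk => h k hk e he] with z hz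
  refine ⟨ContDiffAt.sum fun k hk => (hz k hk).1, fun ξ => ?_⟩
  rw [levi_sum _ fun k hk => (hz k hk).1]
  exact Finset.sum_nonneg fun k hk => (hz k hk).2 ξ

theorem sp_add (h : SPshAt n u y) (hw : Lv n w y) {q : ℝ} (hq : 0 < q) :
    SPshAt n (fun x => q * (u x + w x)) y := by
  obtain ⟨e, he, δ, hδ, N, hN, h1, h2⟩ := h
  have h3 := inter_mem hN (hw e he)
  refine ⟨e, he, q * δ, mul_pos hq hδ, _, h3, continuousOn_const.mul ((h1.mono fun t ht => ht.1).add
    fun t ht => ht.2.1.continuousAt.continuousWithinAt), ?_⟩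
  refine (((h2.mono fun t ht => ht.1).add (psh_of_levi fun t ht => ht.2)
    (.of_cont ((h1.mono fun t ht => ht.1).sub (by unfold nsq; fun_prop)))
    (.of_cont fun t ht => ht.2.1.continuousAt.continuousWithinAt)).const_mul hq.le).congr
      fun t _ => ?_
  ring

theorem pos_add (h : PosAt n u y) (hw : FlatAt n w y) : PosAt n (fun x => u x + w x) y :=
  fun e he => ⟨(h e he).1.add (hw e he).1, by
    rw [cHess_add ((h e he).1.of_le two_le_inf) ((hw e he).1.of_le two_le_inf), (hw e he).2, add_zero]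
    exact (h e he).2⟩

/-- the field `pos` of `Hir.Out` -/
def PosX (π : Y → X.pt) {r : ℕ} (G : Fin r → Set Y) (lab : Y → Fin r → Option (Fin n))
    (c : Fin r → ℚ) (v : Y → ℝ) (y : Y) : Prop :=
  ∃ (m : ℕ) (g : Fin m → X.pt → ℂ) (ε : ℝ) (U : Set (Cm n)) (h : Cm n → ℝ),
    (∀ i, X.Hol (g i) (π y)) ∧ 0 < ε ∧ IsOpen U ∧ chartAt (Cm n) y y ∈ U ∧ ContinuousOn h U ∧
    Psh (fun z => h z - ε * ∑ i, ‖z i‖ ^ 2) U ∧
    ∀ᶠ y' in 𝓝 y, (∀ l, y' ∉ G l) → h (chartAt (Cm n) y y') = v y' + ∑ i, ‖g i (π y')‖ ^ 2 -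
      2 * ∑ l, (c l : ℝ) * (lab y l).elim 0 fun i => Real.log ‖chartAt (Cm n) y y' i‖

variable {r : ℕ} {G : Fin r → Set Y} {lab : Y → Fin r → Option (Fin n)} {c : Fin r → ℚ} {v : Y → ℝ}

/-- the local potentials -/
theorem loc (hπ : Continuous π) (hP : PosX π G lab c v y) :
    ∃ (V : Set Y) (m : ℕ) (g : Fin m → X.pt → ℂ) (H : Y → ℝ), IsOpen V ∧ y ∈ V ∧ ∀ z ∈ V,
      z ∈ (chartAt (Cm n) y).source ∧ (∀ i, X.Hol (g i) (π z)) ∧ SPshAt n H z ∧
      ((∀ l, z ∉ G l) → H z = v z + ∑ i, ‖g i (π z)‖ ^ 2 -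
        2 * ∑ l, c l * Real.log ‖zt lab l y z‖) := by
  obtain ⟨m, g, ε, U, h, a1, a2, a3, a4, a5, a6, a7⟩ := hP
  have he := at_chartAt (n := n) y
  set e := chartAt (Cm n) y with he'
  have hV := ((((e.continuousAt he.2).eventually (a3.mem_nhds a4)).and a7).and
    (e.open_source.mem_nhds he.2)).and ((hπ.tendsto y).eventually
      (eventually_all.2 fun i => P277.hol_eventually (a1 i)))
  refine ⟨interior _, m, g, fun x => h (e x), isOpen_interior,
    mem_interior_iff_mem_nhds.2 hV, fun z hz => ?_⟩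
  obtain ⟨⟨⟨b1, b2⟩, b3⟩, b4⟩ := interior_subset hz
  refine ⟨b3, b4, ⟨e, ⟨he.1, b3⟩, ε, a2, _, inter_mem (a3.mem_nhds b1)
    (e.open_target.mem_nhds (e.map_source b3)), ?_, ?_⟩, fun hE => ?_⟩
  · exact (a5.mono inter_subset_left).congr fun t ht => by simp only [e.right_inv ht.2]
  · exact (a6.mono inter_subset_left).congr fun t ht => by simp only [e.right_inv ht.2, nsq]
  · have h1 : ∀ l, Real.log ‖zt lab l y z‖ =
        (lab y l).elim 0 fun i => Real.log ‖chartAt (Cm n) y z i‖ := fun l => by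
      unfold zt
      cases lab y l <;> simp
    simp only [h1]
    exact b2 hE

variable [T2Space Y] [CompactSpace Y] [IsManifold 𝓘(ℂ, Cm n) ω Y]

/-- a multiple of `- ∑ c l • G l` is relatively ample -/
theorem amp (hK : KOD) (hπ : Continuous π)
    (hh : ∀ y g, X.Hol g (π y) → Hol n (fun z => g (π z)) y) (hS : Sn n G lab)
    (h0 : ∀ l, 0 < c l) (hP : ∀ y, PosX π G lab c v y) :
    ∃ (M : Fin r → ℕ) (P : Bd Y) (a : P.ι → Y), (∀ l, 0 < M l) ∧ IsLB n P ∧
      RelAmple (XH n Y) X π P ∧ (∀ i, P.U i ⊆ (chartAt (Cm n) (a i)).source) ∧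
      IsSec n (P277.Bd.inv P) fun i z => ∏ l, zt lab l (a i) z ^ M l := by
  classical
  have hO := ogAll n Y r G lab hS
  obtain ⟨q, hq, M, hM⟩ := exists_q c h0
  have hq' : (0 : ℝ) < q := Nat.cast_pos.2 hq
  choose V m g H hV hy hz using fun y => loc hπ (hP y)
  let t : Y → Y → Y → ℂ := fun a b z => ∏ l, ((og lab l).g a b z)⁻¹ ^ M l
  let S : Y → Y → ℝ := fun a z => ∑ i, ‖g a i (π z)‖ ^ 2
  let φ : Y → Y → ℝ := fun a z => q * (H a z - S a z)
  have g0 : ∀ a b z, z ∈ V a → z ∈ V b → ∀ l, (og lab l).g a b z ≠ 0 := fun a b z ha hb l =>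
    (hO l).ne_zero _ _ z (hz a z ha).1 (hz b z hb).1
  have g1 : ∀ a b z, z ∈ V a → z ∈ V b → Hol n (t a b) z := fun a b z ha hb =>
    hol_prod _ fun l _ => hol_pow (hol_inv ((hO l).holo _ _ z (hz a z ha).1 (hz b z hb).1)
      (g0 a b z ha hb l)) _
  have g2 : ∀ a b z, z ∈ V a → z ∈ V b → t a b z ≠ 0 := fun a b z ha hb =>
    Finset.prod_ne_zero_iff.2 fun l _ => pow_ne_zero _ (inv_ne_zero (g0 a b z ha hb l))
  have g3 : ∀ a b z, z ∈ V a → z ∈ V b → (∀ l, zt lab l a z ≠ 0) →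
      φ a z - φ b z = Real.log (‖t a b z‖ ^ 2) := fun a b z ha hb hne => by
    have hE : ∀ l, z ∉ G l := fun l hl => by
      obtain ⟨j, h1, h2⟩ := (hS.snc a l z (hz a z ha).1).1 hl
      exact hne l (by simp [zt, h1, h2])
    have h1 := g0 a b z ha hb
    have h2 : ∀ l, Real.log ‖zt lab l a z‖ =
        Real.log ‖(og lab l).g a b z‖ + Real.log ‖zt lab l b z‖ := fun l => by
      have h3 := (hO l).chg _ _ z (hz a z ha).1 (hz b z hb).1
      have h4 := hne l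
      rw [h3] at h4
      rw [h3, norm_mul, Real.log_mul (norm_ne_zero_iff.2 (h1 l))
        (norm_ne_zero_iff.2 (right_ne_zero_of_mul h4))]
    have h3 : ∑ l, (M l : ℝ) * Real.log ‖(og lab l).g a b z‖ =
        q * ∑ l, c l * Real.log ‖(og lab l).g a b z‖ := by
      simp only [hM, Finset.mul_sum, mul_assoc]
    simp only [φ, t, S]
    rw [(hz a z ha).2.2.2 hE, (hz b z hb).2.2.2 hE, Real.log_pow, norm_prod,
      Real.log_prod fun l _ => norm_ne_zero_iff.2 (pow_ne_zero _ (inv_ne_zero (h1 l)))]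
    simp only [h2, norm_pow, norm_inv, Real.log_pow, Real.log_inv, mul_add, mul_neg,
      Finset.sum_add_distrib, Finset.sum_neg_distrib, h3]
    push_cast
    ring
  have hφ : ∀ a, ∀ z ∈ V a, ContinuousAt (φ a) z := fun a z ha =>
    continuousAt_const.mul ((sp_cont (hz a z ha).2.2.1).sub (tendsto_finsetSum _ fun i _ =>
      (hol_cont (hh z _ ((hz a z ha).2.1 i))).norm.pow 2))
  have g4 : ∀ a b z, z ∈ V a → z ∈ V b → φ a z - φ b z = Real.log (‖t a b z‖ ^ 2) :=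
    fun a b z ha hb => by
    refine tendsto_nhds_unique_of_frequently_eq ((hφ a z ha).sub (hφ b z hb))
      (((hol_cont (g1 a b z ha hb)).norm.pow 2).log
        (pow_ne_zero 2 (norm_ne_zero_iff.2 (g2 a b z ha hb)))) (gen_freq' ?_)
    filter_upwards [gen_of_nhds ((hV a).mem_nhds ha), gen_of_nhds ((hV b).mem_nhds hb),
      eventually_all.2 fun l => hol_gen_ne ((hO l).hol _ z (hz a z ha).1)
        ((hO l).nz _ z (hz a z ha).1)] with w h1 h2 h3 using g3 a b w h1 h2 h3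
  have g5 : ∀ a b z, z ∈ V a → z ∈ V b → FlatAt n (fun x => φ a x - φ b x) z :=
    fun a b z ha hb => flat_of (g1 a b z ha hb) (g2 a b z ha hb) (by
      filter_upwards [(hV a).mem_nhds ha, (hV b).mem_nhds hb] with w h1 h2 using g4 a b w h1 h2)
  have g6 : ∀ a b d z, z ∈ V a → z ∈ V b → z ∈ V d → t a b z * t b d z = t a d z :=
    fun a b d z ha hb hd => by
    simp only [t]
    rw [← Finset.prod_mul_distrib]
    refine Finset.prod_congr rfl fun l _ => ?_
    rw [← mul_pow, ← mul_inv, (hO l).cocycle _ _ _ z (hz a z ha).1 (hz b z hb).1 (hz d z hd).1]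
  refine ⟨M, ⟨Y, V, t⟩, id, fun l => ?_, ⟨hV, fun y => ⟨y, hy y⟩,
    fun a b e z he ha hb => (g1 a b z ha hb e he).contDiffAt, g2, g6⟩, ?_,
    fun a z ha => (hz a z ha).1, fun a e z he ha => (hol_prod _ (fun l _ =>
      hol_pow ((hO l).hol _ z (hz a z ha).1) _) e he).contDiffAt, fun a b z ha hb => ?_⟩
  · have h1 : (0 : ℝ) < M l := by
      rw [hM]
      exact mul_pos hq' (Rat.cast_pos.2 (h0 l))
    exact Nat.cast_pos.1 h1
  · refine hK n Y (XH n Y) X id π ⟨Y, V, t⟩ ⟨V, hV, fun y => ⟨y, hy y⟩, t,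
      fun a b e z he ha hb => g1 a b z ha hb e he, g2, g6⟩
      ⟨continuous_id, Function.bijective_id, IsOpenMap.id, fun _ _ => Iff.rfl⟩ hπ hh
      (fun _ => rfl) (fun _ _ _ => rfl) fun x => ?_
    have hF : IsCompact (π ⁻¹' {x}) := (isClosed_singleton.preimage hπ).isCompact
    obtain ⟨T, T1, T2⟩ := hF.elim_nhds_subcover V fun a _ => (hV a).mem_nhds (hy a)
    let O₁ : Set X.pt := ⋂ a ∈ T, ⋂ i, {x | X.Hol (g a i) x}
    have o1 : IsOpen (π ⁻¹' O₁) := (isOpen_biInter_finset fun a _ =>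
      isOpen_iInter_of_finite fun i => P277.isOpen_hol _).preimage hπ
    have o2 : ∀ z, π z = x → π z ∈ O₁ := fun z h => mem_iInter₂.2 fun a ha => mem_iInter.2 fun i =>
      h.symm ▸ (T1 a ha : π a = x) ▸ (hz a a (hy a)).2.1 i
    let ψ : Y → Y → ℝ := fun a z => φ a z + q * ∑ b ∈ T, S b z
    obtain ⟨γ, O, k1, k2, k3⟩ := rb n Y T (fun a => V a ∩ π ⁻¹' O₁) (fun a => ψ a) _ hF
      (fun a => (hV a).inter o1) (fun z h => by
        obtain ⟨a, h1, h2⟩ := mem_iUnion₂.1 (T2 h)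
        exact mem_iUnion.2 ⟨⟨a, h1⟩, h2, o2 z h⟩)
      (fun a z h => by
        have e : ψ a = fun x => q * (H a x + ∑ b ∈ T.erase a, S b x) := funext fun x => by
          simp only [ψ, φ, ← Finset.add_sum_erase T _ a.2]
          ring
        rw [e]
        exact sp_add (hz a z h.1).2.2.1 (lv_sum _ fun b hb => lv_sum _ fun i _ => lv_sq (hh z _
          (mem_iInter.1 (mem_iInter₂.1 h.2 b (Finset.mem_of_mem_erase hb)) i))) hq')
      fun a b z ha hb => by
        simpa only [ψ, add_sub_add_right_eq_sub] using g5 a b z ha.1 hb.1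
    have o3 : IsOpen (O ∩ (π ⁻¹' O₁ ∩ ⋃ a ∈ T, V a)) :=
      k1.inter (o1.inter (isOpen_biUnion fun a _ => hV a))
    refine ⟨(π '' (O ∩ (π ⁻¹' O₁ ∩ ⋃ a ∈ T, V a))ᶜ)ᶜ, fun a z => ψ a z + γ z,
      (o3.isClosed_compl.isCompact.image hπ).isClosed.isOpen_compl,
      fun ⟨z, h1, h2⟩ => h1 ⟨k2 h2, o2 z h2, T2 h2⟩, fun b z h hb => ?_, fun a b z _ ha hb => ?_⟩
    · obtain ⟨h1, h2, h3⟩ : z ∈ O ∩ (π ⁻¹' O₁ ∩ ⋃ a ∈ T, V a) := by_contra fun k => h ⟨z, k, rfl⟩
      obtain ⟨a, a1, a2⟩ := mem_iUnion₂.1 h3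
      have e : (fun z => ψ b z + γ z) = fun z => (ψ a z + γ z) + (φ b z - φ a z) :=
        funext fun x => by
          simp only [ψ]
          ring
      rw [e]
      exact pos_add (k3 ⟨a, a1⟩ z h1 ⟨a2, h2⟩) (g5 b a z hb a2)
    · have := g4 a b z ha hb
      simp only [ψ]
      linarith
  · simp only [P277.Bd.inv, t, inv_pow, Finset.prod_inv_distrib, inv_inv, id]
    rw [← Finset.prod_mul_distrib]
    refine Finset.prod_congr rfl fun l _ => ?_
    rw [← mul_pow, ← (hO l).chg _ _ z (hz a z ha).1 (hz b z hb).1]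

end Vale.Agent.P277Z.GH.Of
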