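import Vale.Agent.P277Z.GH.PreDef
import Vale.Agent.P277Z.GH.OfAmp
import Vale.Agent.P277Z.GH.OfCmp

/-!
# P277, block GH: from the output of the resolution algorithm to models
-/

open scoped Manifold ContDiff Topology
open Vale.Agent.P277 hiding Amin IsFlipR
open Vale.Agent.P272.K Vale.Agent.P285.H281.FD Set Filter
open Vale.Agent.P277.PH (HolF at_chartAt holF_of)
open Vale.Agent.P277Z.Val
open Vale.Agent.P277Z.Hir (Cpb Out OutL Bdy)
open Vale.Agent.P277Z.Hl (Sn zt)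

noncomputable section

namespace Vale.Agent.P277Z.GH

variable {X : CSp}

theorem Fam.mem_Z (I : Fam X) {γ : I.Γ} {x : X.pt} (hx : x ∈ I.O γ) :
    x ∈ I.Z ↔ ∀ k, I.f γ k x = 0 := by
  refine ⟨fun ⟨γ', h1, h2⟩ k => ?_, fun h => ⟨γ, hx, h⟩⟩
  obtain ⟨C, -, h⟩ := I.cpb γ γ' x hx h1
  have := h.self_of_nhds.1
  simp only [h2, norm_zero, Finset.sum_const_zero, mul_zero] at this
  exact norm_le_zero_iff.1 ((Finset.single_le_sum (f := fun k => ‖I.f γ k x‖)
    (fun _ _ => norm_nonneg _) (Finset.mem_univ k)).trans this)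

theorem Fam.closed (I : Fam X) : IsClosed I.Z := by
  refine isOpen_compl_iff.1 (isOpen_iff_mem_nhds.2 fun x hx => ?_)
  obtain ⟨γ, h⟩ := I.cover x
  obtain ⟨k, hk⟩ := not_forall.1 fun e => hx ((I.mem_Z h).2 e)
  filter_upwards [(I.isOpen γ).mem_nhds h, (hol_continuousAt (I.hol γ k x h)).eventually_ne hk]
    with y a b c using b ((I.mem_Z a).1 c k)

theorem Fam.an (I : Fam X) : IsAn X univ I.Z := fun x _ =>
  let ⟨γ, h⟩ := I.cover x
  ⟨_, I.f γ, fun k => I.hol γ k x h, mem_of_superset ((I.isOpen γ).mem_nhds h) fun _ => I.mem_Z⟩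

/-- the base of the resolution -/
abbrev Fam.base (I : Fam X) : Hir.Base where
  X := X.pt
  Hol := X.Hol
  comp _ _ _ _ _ _ h1 h2 h3 := hol_congr (P277.hol_comp h1 h2) h3
  cont _ _ := hol_continuousAt
  ev _ _ := hol_eventually
  Bad := I.Z
  closed := I.closed
  Γ := I.Γ
  XO := I.O
  isOpen := I.isOpen
  cover := I.cover
  m := I.m
  f := I.f
  hol := I.hol
  zero _ _ := I.mem_Z
  cpb := I.cpb

namespace Of

theorem cpb_mul {T : Type} [TopologicalSpace T] {x : T} {f : T → ℝ} {a b u : T → ℂ}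
    (h : Cpb (𝓝 x) f fun y => ‖a y‖) (hu : ContinuousAt u x) (h0 : u x ≠ 0) (hf : ∀ y, 0 ≤ f y)
    (e : ∀ᶠ y in 𝓝 x, a y = u y * b y) : Cpb (𝓝 x) f fun y => ‖b y‖ := by
  obtain ⟨C, hC, h⟩ := h
  have p : 0 < ‖u x‖ := norm_pos_iff.2 h0
  refine ⟨C * (‖u x‖ + 1 + 2 / ‖u x‖), by positivity, ?_⟩
  filter_upwards [h, e, hu.norm.eventually (gt_mem_nhds (lt_add_one ‖u x‖)),
    hu.norm.eventually (lt_mem_nhds (half_lt_self p))] with y ⟨h1, h2⟩ h3 h4 h5
  rw [h3, norm_mul] at h1 h2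
  have q : 0 < 2 / ‖u x‖ := by positivity
  have b0 := norm_nonneg (b y)
  refine ⟨h1.trans ?_, ?_⟩
  · rw [mul_assoc]
    gcongr
    linarith
  · calc ‖b y‖ = 2 / ‖u x‖ * (‖u x‖ / 2 * ‖b y‖) := by field_simp
      _ ≤ 2 / ‖u x‖ * (C * f y) :=
        mul_le_mul_of_nonneg_left ((mul_le_mul_of_nonneg_right h5.le b0).trans h2) q.le
      _ = C * (2 / ‖u x‖) * f y := by ring
      _ ≤ _ := by
        have := hf y
        gcongr
        linarith

theorem prod_lab {r n : ℕ} {lab : Fin r → Option (Fin n)}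
    (h : ∀ l l' i, lab l = some i → lab l' = some i → l = l') {e : Fin n → ℕ}
    (he : ∀ i, e i ≠ 0 → ∃ l, lab l = some i) (w : Fin n → ℂ) :
    ∏ i, w i ^ e i = ∏ l, ((lab l).elim 1 fun i => w i) ^ (lab l).elim 0 e := by
  have h1 : ∀ l, ((lab l).elim 1 fun i => w i) ^ (lab l).elim 0 e =
      ∏ i, if lab l = some i then w i ^ e i else 1 := fun l => by
    cases lab l <;> simp
  simp only [h1]
  rw [Finset.prod_comm]
  refine Finset.prod_congr rfl fun i _ => ?_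
  by_cases k : ∃ l, lab l = some i
  · obtain ⟨l, hl⟩ := k
    rw [Finset.prod_eq_single l (fun l' _ hne => if_neg fun a => hne (h _ _ i a hl)) (by simp),
      if_pos hl]
  · rw [not_not.1 (mt (he i) k), pow_zero]
    simp

end Of

open Of

/-- the conclusion: a model over `X` on which `I` is monomial, with boundary over `I.Z ∪ D` -/
def Mdl (I : Fam X) (D : Set X.pt) : Prop :=
  ∃ (V : Lg) (p : V.W → X.pt) (new : Finset (Fin V.r)), Pre V X p new ∧
    (∀ y, y ∈ ⋃ l ∈ new, V.G l ↔ p y ∈ I.Z) ∧ (∀ y, y ∈ V.E ↔ p y ∈ I.Z ∨ p y ∈ D) ∧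
    ∀ y γ ζ, p y ∈ I.O γ → V.Eq y ζ → ∃ e : Fin V.r → ℕ,
      Cpb (𝓝 y) (fun y' => ∑ k, ‖I.f γ k (p y')‖) fun y' => ‖∏ l, ζ l y' ^ e l‖

theorem ofOut (hK : Pos.KOD) {I : Fam X} (hd : Dense I.Zᶜ) (o : Out I.base 4 univ) {q : ℕ}
    {old : Fin q → Set o.Y} {labo : o.Y → Fin q → Option (Fin 4)} (h1 : Sn 4 old labo)
    (h2 : ∀ y l k i, labo y l = some i → o.lab y k ≠ some i) {D : Set X.pt}
    (h3 : ∀ y, o.π y ∉ I.Z → (o.π y ∈ D ↔ ∃ l, y ∈ old l)) : Mdl I D := by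
  classical
  have : CompactSpace o.Y := ⟨o.proper univ o.sub isCompact_univ⟩
  have hh : ∀ y g, X.Hol g (o.π y) → HolF 4 (fun y => g (o.π y)) y := fun y g hg =>
    holF_of (at_chartAt y) (o.hol y g hg)
  let G : Fin o.r ⊕ Fin q → Set o.Y := Sum.elim o.G old
  let lab : o.Y → Fin o.r ⊕ Fin q → Option (Fin 4) := fun y => Sum.elim (o.lab y) (labo y)
  have s1 : ∀ y l, ∀ x ∈ (chartAt (Cm 4) y).source,
      x ∈ G l ↔ ∃ i, lab y l = some i ∧ chartAt (Cm 4) y x i = 0 := fun y l => by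
    cases l
    exacts [o.snc y _, h1.snc y _]
  have s2 : IsSnc 4 G := fun y => ⟨chartAt (Cm 4) y, lab y, (crd_chart (at_chartAt y)).isCo', by
    rintro (l | l) (k | k) i a b
    exacts [congrArg _ (o.inj y l k i a b), absurd a (h2 y k l i b), absurd b (h2 y l k i a),
      congrArg _ (h1.inj y l k i a b)],
    mem_of_superset (chart_source_mem_nhds (Cm 4) y) fun x hx l => s1 y l x hx⟩
  obtain ⟨r, G', par, hc⟩ := exists_cmp s2
  let V : Lg := ⟨o.Y, r, G', hc.conn, hc.snc s2⟩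
  have mon : ∀ a, ∀ y ∈ (chartAt (Cm 4) a).source, ∀ ζ, V.Eq y ζ → ∀ e : Fin o.r → ℕ,
      ∃ u : o.Y → ℂ, HolF 4 u y ∧ u y ≠ 0 ∧ ∀ᶠ x in 𝓝 y,
        ∏ l, zt o.lab l a x ^ e l = u x * ∏ j, ζ j x ^ Sum.elim e 0 (par j) := fun a y hy ζ hζ e => by
    simpa only [Fintype.prod_sum_type, Sum.elim_inl, Sum.elim_inr, Pi.zero_apply, pow_zero,
      Finset.prod_const_one, mul_one, lab, zt] using Cmp.mon (V := V) hc
      (fun l => leq_crd ⟨chart_mem_atlas _ a, hy⟩ (s1 a l)) hζ (Sum.elim e 0)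
  have hn : ∀ y, y ∈ ⋃ j ∈ Finset.univ.filter fun j => (par j).isLeft, G' j ↔ o.π y ∈ I.Z :=
    fun y => by
    refine Iff.trans ?_ ((hc.mem (p := fun l => l.isLeft) (y := y)).trans ?_)
    · simp
    · exact Iff.trans (by simp [G]) (o.bad y).symm
  have hn' : (⋃ j ∈ Finset.univ.filter fun j => (par j).isLeft, G' j)ᶜ = o.π ⁻¹' I.Zᶜ :=
    Set.ext fun y => (hn y).not
  refine ⟨V, o.π, Finset.univ.filter fun j => (par j).isLeft, ⟨o.cont, hh, fun x => ?_, ?_,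
    fun y y' hy => o.one y y' (mt (hn y).2 hy), ?_⟩, hn, fun y => ?_, fun y γ ζ hy hζ => ?_⟩
  · exact (isCompact_range o.cont).isClosed.closure_subset_iff.2
      (fun z hz => o.surj z (o.sub trivial) hz) (hd x)
  · refine hn' ▸ ⟨I.closed.isOpen_compl.preimage o.cont, o.cont.continuousOn,
      fun y hy y' _ e => (o.one y y' hy e.symm).symm,
      fun W hW Wo => isOpen_iff_mem_nhds.2 ?_, fun y hy e he g => ⟨fun k => hh y g k e he, fun k => ?_⟩⟩
    · rintro _ ⟨y, hy, rfl⟩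
      obtain ⟨σ, a1, a2, a3, -⟩ := o.sec y (hW hy)
      filter_upwards [a3, a1.eventually (Wo.mem_nhds (a2.symm ▸ hy))] with z b1 b2 using ⟨_, b2, b1⟩
    · obtain ⟨σ, a1, a2, a3, a4⟩ := o.sec y hy
      refine I.base.comp (o.π y) (Fin 4) (fun z => chartAt (Cm 4) y (σ z))
        (fun z => g (o.π ((chartAt (Cm 4) y).symm z))) g a4 ?_ ?_
      · rw [a2]
        exact holF_of (g := fun y => g (o.π y)) he k _ (at_chartAt y)
      · filter_upwards [a3, a1.eventually ((chartAt (Cm 4) y).open_source.mem_nhds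
          (by rw [a2]; exact mem_chart_source _ y))] with z b1 b2
        rw [(chartAt (Cm 4) y).left_inv b2, b1]
  · obtain ⟨M, P, a, a1, a2, a3, a4, a5⟩ := amp hK o.cont hh ⟨o.inj, o.snc⟩ o.c0 o.pos
    refine ⟨P, fun j => Sum.elim M 0 (par j), _, a2, a3, fun j => ?_, a5,
      fun y i ζ hy hζ => mon _ y (a4 i hy) ζ hζ M⟩
    rw [Finset.mem_filter]
    beta_reduce
    cases par j <;> simp [a1]
  · have e : y ∈ V.E ↔ o.π y ∈ I.Z ∨ ∃ l, y ∈ old l := by
      refine Iff.trans ?_ ((hc.mem (p := fun _ => True) (y := y)).trans ?_)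
      · simp [Lg.E, V]
      · exact Iff.trans (by simp [G]) (or_congr_left (o.bad y).symm)
    rw [e]
    by_cases k : o.π y ∈ I.Z
    · simp only [k, true_or]
    · rw [h3 y k]
  · obtain ⟨e, e1, e2⟩ := o.prin y γ hy
    obtain ⟨u, u1, u2, u3⟩ := mon y y (mem_chart_source _ y) ζ hζ fun l => (o.lab y l).elim 0 e
    exact ⟨_, cpb_mul e2 (holF_cont u1) u2 (fun _ => Finset.sum_nonneg fun _ _ => norm_nonneg _)
      (u3.mono fun x hx => (prod_lab (o.inj y) e1 _).trans hx)⟩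

theorem ofOut0 (hK : Pos.KOD) {I : Fam X} (hd : Dense I.Zᶜ) (o : Out I.base 4 univ) : Mdl I ∅ :=
  ofOut hK hd o (q := 0) (old := Fin.elim0) (labo := fun _ => Fin.elim0)
    ⟨fun _ l => l.elim0, fun _ l => l.elim0⟩ (fun _ l => l.elim0) (by simp)

theorem ofOutL (hK : Pos.KOD) {I : Fam X} (hd : Dense I.Zᶜ) {q : ℕ} {B : Bdy I.base 4 q}
    (o : OutL I.base 4 univ B) : Mdl I (⋃ l, B.D l) :=
  ofOut hK hd o.toOut ⟨o.injo, o.snco⟩ o.disj fun y hy => mem_iUnion.trans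
    (exists_congr fun l => ⟨o.off l y hy, o.subo l y⟩)

/-- principalization of one family on a model -/
theorem prin1 (hK : Pos.KOD) (h : Hir.StMainL) (V : Lg) (I : Fam V.X) (hd : Dense I.Zᶜ) :
    Mdl I V.E := by
  choose Φ ρ lab hΦ _ using fun y => V.snc.nch y (Eventually.of_forall fun _ => trivial)
  let B : Bdy I.base 4 V.r := ⟨V.G, fun y => (Φ y).source, fun y => (Φ y).target, fun y => Φ y, lab,
    fun y => (hΦ y).src, fun y => ⟨(Φ y).open_source, (Φ y).open_target, fun i => i.elim0,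
      (Φ y).image_source_eq_target.trans
        (Set.ext fun z => ⟨fun h => ⟨h, fun i => i.elim0⟩, fun h => h.1⟩),
    (Φ y).isOpenEmbedding_restrict.isEmbedding, fun x hx f =>
      have c := (hΦ y).crd x hx
      ⟨fun k => ⟨fun z => f ((Φ y).symm z), c.an.hol (c.inv.symm ▸ k),
        c.left.mono fun _ e => congrArg f e.symm⟩,
      fun ⟨g, k, e⟩ => hol_congr (X := V.X) (f := g ∘ Φ y) (c.holF k) e⟩⟩,
    fun y => (hΦ y).inj, fun y l x hx => (hΦ y).iff x hx l⟩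
  obtain ⟨o⟩ := h I.base 4 univ V.r B (by norm_num) hd isCompact_univ
  exact ofOutL hK hd o

end Vale.Agent.P277Z.GH
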