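import Vale.Agent.P277Z.GH.PurC
import Vale.Agent.P277Z.GH.OfOut

/-!
# P277, block GH: principalization on a model
-/

set_option linter.unusedSectionVars false

open scoped Manifold ContDiff Topology
open Vale.Agent.P277 hiding Amin IsFlipR
open Vale.Agent.P272.K Vale.Agent.P285.H281.FD Set Filter
open Vale.Agent.P277.PH (HolF)
open Vale.Agent.P277Z.Val
open Vale.Agent.P277Z.Hir (Cpb)

noncomputable section

namespace Vale.Agent.P277Z.GH

namespace Pn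

open Pur

section cpb
variable {T : Type} {l : Filter T} {f g h : T → ℝ}

theorem symm (a : Cpb l f g) : Cpb l g f := a.imp fun _ b => ⟨b.1, b.2.mono fun _ => And.symm⟩

theorem trans (a : Cpb l f g) (b : Cpb l g h) : Cpb l f h := by
  obtain ⟨C, h1, h2⟩ := a
  obtain ⟨D, h3, h4⟩ := b
  refine ⟨C * D, mul_pos h1 h3, ?_⟩
  filter_upwards [h2, h4] with z e1 e2
  exact ⟨e1.1.trans (by rw [mul_assoc]; exact mul_le_mul_of_nonneg_left e2.1 h1.le),
    e2.2.trans (by rw [mul_comm C, mul_assoc]; exact mul_le_mul_of_nonneg_left e1.2 h3.le)⟩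

theorem comp {S : Type} {l' : Filter S} {p : S → T} (a : Cpb l f g) (hp : Tendsto p l' l) :
    Cpb l' (fun z => f (p z)) fun z => g (p z) := a.imp fun _ b => ⟨b.1, hp.eventually b.2⟩

theorem prod {ι : Type} [Fintype ι] {f g : ι → T → ℝ} (a : ∀ i, Cpb l (f i) (g i))
    (hf : ∀ i z, 0 ≤ f i z) (hg : ∀ i z, 0 ≤ g i z) :
    Cpb l (fun z => ∏ i, f i z) fun z => ∏ i, g i z := by
  choose C h1 h2 using a
  refine ⟨∏ i, C i, Finset.prod_pos fun i _ => h1 i, (eventually_all.2 h2).mono fun z e => ?_⟩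
  simp only [← Finset.prod_mul_distrib]
  exact ⟨Finset.prod_le_prod (fun i _ => hf i z) fun i _ => (e i).1,
    Finset.prod_le_prod (fun i _ => hg i z) fun i _ => (e i).2⟩

end cpb

variable {X : CSp} {q : ℕ}

theorem sum_prod (m : Fin q → ℕ) (a : ∀ j, Fin (m j) → ℂ) :
    ∑ k, ‖∏ j, a j ((Fintype.equivFin (∀ j, Fin (m j))).symm k j)‖ = ∏ j, ∑ k, ‖a j k‖ := by
  rw [Finset.prod_univ_sum, Fintype.piFinset_univ,
    ← (Fintype.equivFin (∀ j, Fin (m j))).symm.sum_comp]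
  simp only [norm_prod]

/-- the product of the families -/
def pr (I : Fin q → Fam X) : Fam X where
  Γ := ∀ j, (I j).Γ
  O γ := ⋂ j, (I j).O (γ j)
  m γ := Fintype.card (∀ j, Fin ((I j).m (γ j)))
  f γ k x := ∏ j, (I j).f (γ j) ((Fintype.equivFin (∀ j, Fin ((I j).m (γ j)))).symm k j) x
  isOpen γ := isOpen_iInter_of_finite fun j => (I j).isOpen _
  cover x := ⟨fun j => ((I j).cover x).choose, mem_iInter.2 fun j => ((I j).cover x).choose_spec⟩
  hol γ k x h := hol_prod _ fun j _ => (I j).hol _ _ x (mem_iInter.1 h j)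
  cpb γ γ' x h h' := by
    simp only [fun γ : ∀ j, (I j).Γ => fun y => sum_prod _ fun j k => (I j).f (γ j) k y]
    exact prod (fun j => (I j).cpb _ _ x (mem_iInter.1 h j) (mem_iInter.1 h' j))
      (fun _ _ => by positivity) fun _ _ => by positivity

theorem pr_Z (I : Fin q → Fam X) (x : X.pt) : x ∈ (pr I).Z ↔ ∃ j, x ∈ (I j).Z := by
  obtain ⟨γ, h⟩ := (pr I).cover x
  have k : ∀ {m : ℕ} (a : Fin m → ℂ), (∀ k, a k = 0) ↔ ∑ k, ‖a k‖ = 0 := fun a => by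
    simp [Finset.sum_eq_zero_iff_of_nonneg]
  rw [(pr I).mem_Z h, k]
  refine (Eq.congr_left (sum_prod _ fun j k => (I j).f (γ j) k x)).trans ?_
  simp only [Finset.prod_eq_zero_iff, Finset.mem_univ, true_and]
  exact exists_congr fun j => (k _).symm.trans ((I j).mem_Z (mem_iInter.1 h j)).symm

variable {V V' : Lg} {y : V.W} {a b M : V.W → ℂ} {κ : Type} [Fintype κ] {φ : κ → V.W → ℂ}

theorem nz (h : ∀ᶠ x in 𝓝 y, x ∉ V.E → a x ≠ 0) : Nz a y := fun k =>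
  let ⟨_, h1, h2, h3⟩ := ((V.freqE y).and_eventually (h.and k)).exists
  h2 h1 h3

theorem dvd_of_le (ha : Hol 4 a y) (hb : Hol 4 b y) (h0 : Nz a y) {C : ℝ}
    (h : ∀ᶠ x in 𝓝 y, ‖b x‖ ≤ C * ‖a x‖) : Dvd 4 a b y := by
  obtain ⟨c, h1, h2⟩ := Hl.Ds.riem (f := fun x => b x / a x) (C := C) ha h0 (by
    filter_upwards [ha.near, hb.near, h] with x e1 e2 e3 e4
    exact ⟨e2.div e1 e4, by rwa [norm_div, div_le_iff₀ (norm_pos_iff.2 e4)]⟩)
  refine ⟨c, h1, ?_⟩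
  filter_upwards [h, h2] with x e1 e2
  by_cases e : a x = 0
  · rw [e, norm_zero, mul_zero] at e1
    rw [e, mul_zero, norm_le_zero_iff.1 e1]
  · rw [e2 e, div_mul_cancel₀ _ e]

/-- a family which is comparable with a function generates the same ideal -/
theorem gen_of (hφ : ∀ k, Hol 4 (φ k) y) (hM : Hol 4 M y) (h0 : Nz M y)
    (h : Cpb (𝓝 y) (fun x => ∑ k, ‖φ k x‖) fun x => ‖M x‖) : ∃ u : κ → V.W → ℂ,
      (∀ k, Hol 4 (u k) y) ∧ (∃ k, u k y ≠ 0) ∧ ∀ᶠ x in 𝓝 y, ∀ k, φ k x = u k x * M x := by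
  obtain ⟨C, -, h⟩ := h
  choose u h1 h2 using fun k => dvd_of_le hM (hφ k) h0 (h.mono fun x e =>
    (Finset.single_le_sum (fun k _ => norm_nonneg (φ k x)) (Finset.mem_univ k)).trans e.1)
  refine ⟨u, h1, by_contra fun e => h0 ?_, eventually_all.2 h2⟩
  have h3 : ContinuousAt (fun x => C * ∑ k, ‖u k x‖) y :=
    continuousAt_const.mul (tendsto_finsetSum _ fun k _ => (h1 k).cont.norm)
  push Not at e
  filter_upwards [h, eventually_all.2 h2, h3.eventually_lt (continuousAt_const (y := 1))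
    (by simp [e])] with x e1 e2 e3
  have e4 := e1.2
  simp only [e2, norm_mul, ← Finset.sum_mul, ← mul_assoc] at e4
  exact norm_le_zero_iff.1 (by nlinarith [norm_nonneg (M x)])

theorem cpb_of (k₀ : κ) (h : ∀ k, Dvd 4 (φ k₀) (φ k) y) :
    Cpb (𝓝 y) (fun x => ∑ k, ‖φ k x‖) fun x => ‖φ k₀ x‖ := by
  choose u h1 h2 using h
  have h3 : ContinuousAt (fun x => ∑ k, ‖u k x‖) y :=
    tendsto_finsetSum _ fun k _ => (h1 k).cont.norm
  have h4 : 0 ≤ ∑ k, ‖u k y‖ := by positivity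
  refine ⟨∑ k, ‖u k y‖ + 1, by positivity, ?_⟩
  filter_upwards [eventually_all.2 h2, h3.eventually_lt continuousAt_const (lt_add_one _)]
    with x e1 e2
  have e3 := Finset.single_le_sum (fun k _ => norm_nonneg (φ k x)) (Finset.mem_univ k₀)
  refine ⟨?_, by nlinarith [norm_nonneg (φ k₀ x)]⟩
  rw [Finset.sum_congr rfl fun k _ => by rw [e1 k, norm_mul], ← Finset.sum_mul]
  exact mul_le_mul_of_nonneg_right e2.le (norm_nonneg _)

theorem mon_ne {n : Fin V.r → ℕ} (h : Mon V y a n) : ∀ᶠ x in 𝓝 y, x ∉ V.E → a x ≠ 0 :=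
  h.eventually.mono fun _ e1 e2 e3 => ((mon_zero e1).1 e3).elim fun l e => e2 (mem_iUnion.2 ⟨l, e.1⟩)

variable {π : V'.W → V.W}

/-- one member of the family is a monomial and generates -/
def Ge (I : Fam V.X) (π : V'.W → V.W) (y : V'.W) (a : Fin V'.r → ℕ) : Prop :=
  ∃ γ k₀, π y ∈ I.O γ ∧ Mon V' y (fun x => I.f γ k₀ (π x)) a ∧
    Cpb (𝓝 y) (fun x => ∑ k, ‖I.f γ k (π x)‖) fun x => ‖I.f γ k₀ (π x)‖

theorem mono_of (hc : Continuous π) (hh : ∀ y g, Hol 4 g (π y) → Hol 4 (fun y => g (π y)) y)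
    {I : Fam V.X} (h : ∀ y, ∃ a, Ge I π y a) : ∃ a, I.Mono V' π a := by
  obtain ⟨a, ha⟩ := exists_glob (Ge I π) h (fun y n ⟨γ, k, e1, e2, C, e3, e4⟩ => by
      filter_upwards [hc.continuousAt.eventually ((I.isOpen γ).mem_nhds e1), e2.eventually,
        e4.eventually_nhds] with x b1 b2 b3 using ⟨γ, k, b1, b2, C, e3, b3⟩)
    (fun y n n' l hl ⟨γ, k, e1, e2, e3⟩ ⟨γ', k', d1, d2, d3⟩ => by
      obtain ⟨u, b1, ⟨_, b2⟩, b3⟩ := gen_of (φ := fun (_ : Unit) x => I.f γ k (π x))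
        (fun _ => hh y _ (I.hol γ k _ e1)) (hh y _ (I.hol γ' k' _ d1)) (nz (mon_ne d2)) (by
          simpa using trans (symm e3) (trans (comp (p := π) (I.cpb γ γ' _ e1 d1) (hc.tendsto y)) d3))
      exact e2.unique (d2.unit (b1 _) b2 (b3.mono fun _ e => e _)) hl)
    fun y n n' ⟨γ, k, e1, e2, e3⟩ e => ⟨γ, k, e1, e2.change e, e3⟩
  refine ⟨a, fun y γ' ζ d1 hζ => ?_⟩
  obtain ⟨γ, k, e1, e2, e3⟩ := ha y
  obtain ⟨u, b1, ⟨k', b2⟩, b3⟩ := gen_of (fun k => hh y _ (I.hol γ' k _ d1))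
    (hh y _ (I.hol γ k _ e1)) (nz (mon_ne e2))
    (trans (comp (p := π) (I.cpb γ' γ _ d1 e1) (hc.tendsto y)) e3)
  obtain ⟨w, c1, c2, c3⟩ := e2 ζ hζ
  refine ⟨fun k x => u k x * w x, fun k => (b1 k).mul c1, ⟨k', mul_ne_zero b2 c2⟩, ?_⟩
  filter_upwards [b3, c3] with x f1 f2 k using by rw [f1, f2, mul_assoc]

theorem ge_of (hh : ∀ y g, Hol 4 g (π y) → Hol 4 (fun y => g (π y)) y) {I : Fin q → Fam V.X}
    {y : V'.W} {γ : (pr I).Γ} (h1 : π y ∈ (pr I).O γ) {ζ} (hζ : V'.Eq y ζ) {e : Fin V'.r → ℕ}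
    (h : Cpb (𝓝 y) (fun x => ∑ k, ‖(pr I).f γ k (π x)‖) fun x => ‖∏ l, ζ l x ^ e l‖) (j : Fin q) :
    ∃ a, Ge (I j) π y a := by
  have h2 := hζ.ne.mono fun x a b =>
    Finset.prod_ne_zero_iff.2 fun l (_ : l ∈ Finset.univ) => pow_ne_zero (e l) (a b l)
  obtain ⟨u, b1, ⟨K, b2⟩, b3⟩ := gen_of (M := fun x => ∏ l, ζ l x ^ e l)
    (fun k => hh y _ ((pr I).hol γ k _ h1)) (holF_prod (fun l _ => hζ.hol l) e) (nz h2) h
  have h3 : ∀ i k, Hol 4 (fun x => (I i).f (γ i) k (π x)) y := fun i k =>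
    hh y _ ((I i).hol _ k _ (mem_iInter.1 h1 i))
  set E := Fintype.equivFin (∀ j, Fin ((I j).m (γ j)))
  have h4 : ∀ᶠ x in 𝓝 y, x ∉ V'.E → ∀ i, (I i).f (γ i) (E.symm K i) (π x) ≠ 0 := by
    filter_upwards [h2, b3, (b1 K).ne_near b2] with x c1 c2 c3 c4 i
    have c5 : ∏ i, (I i).f (γ i) (E.symm K i) (π x) = _ := c2 K
    exact Finset.prod_ne_zero_iff.1 (c5 ▸ mul_ne_zero c3 (c1 c4)) i (Finset.mem_univ _)
  obtain ⟨a, ha⟩ := exists_mon (V := V') (f := fun x => (I j).f (γ j) (E.symm K j) (π x))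
    (h3 j (E.symm K j)) (h4.mono fun _ c d => c d j)
  refine ⟨a, γ j, _, mem_iInter.1 h1 j, ha, cpb_of (φ := fun k x => (I j).f (γ j) k (π x)) _
    fun k => ⟨_, (b1 (E (Function.update (E.symm K) j k))).div (b1 K) b2, cancel (h3 j k)
      (((b1 _).div (b1 K) b2).mul (h3 j _)) (Hol.prod (Finset.univ.erase j) fun i _ =>
        h3 i (E.symm K i)) (nz (h4.mono fun x c d => Finset.prod_ne_zero_iff.2 fun i _ => c d i))
      ?_⟩⟩
  filter_upwards [b3, (b1 K).ne_near b2] with x c1 c2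
  have c3 : ∏ i, (I i).f (γ i) (E.symm K i) (π x) = _ := c1 K
  have c4 : ∏ i, (I i).f (γ i) (E.symm (E (Function.update (E.symm K) j k)) i) (π x) = _ := c1 _
  rw [← Finset.mul_prod_erase _ _ (Finset.mem_univ j)] at c3 c4
  rw [E.symm_apply_apply, Function.update_self, Finset.prod_congr rfl fun i hi => by
    rw [Function.update_of_ne (Finset.ne_of_mem_erase hi)]] at c4
  rw [mul_comm, c4, mul_left_comm, mul_comm _ ((I j).f (γ j) (E.symm K j) (π x)), c3]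
  field_simp

end Pn

open Pn

/-- **PRIN** -/
theorem prin_of (hK : Pos.KOD) (h : Hir.StMainL) : StPrin := by
  intro V _ q I hd
  have h0 : Dense (pr I).Zᶜ := (dense_iInter_of_isOpen (fun j => (I j).closed.isOpen_compl) hd).mono
    fun x a b => ((pr_Z I x).1 b).elim fun j c => (mem_iInter.1 a j : x ∉ (I j).Z) c
  obtain ⟨V', π, new, h1, h2, h3, h4⟩ := prin1 hK h V (pr I) h0
  obtain ⟨exc, h5, h6⟩ := h1.purify fun z => by
    obtain ⟨γ, a⟩ := (pr I).cover z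
    have b := ((pr I).isOpen γ).mem_nhds a
    obtain ⟨k, hk⟩ : ∃ k, Nz ((pr I).f γ k) z := by_contra fun e =>
      mem_closure_iff_frequently.1 (h0 z) (by
        filter_upwards [b, eventually_all.2 fun k => not_not.1 (not_exists.1 e k)] with w c d
          using not_not.2 (((pr I).mem_Z c).2 d))
    exact ⟨_, (pr I).hol γ k z a, hk, mem_of_superset b fun w c ⟨y, d1, d2⟩ =>
      ((pr I).mem_Z c).1 (d2 ▸ (h2 y).1 d1) k⟩
  refine ⟨V', π, exc, h6, fun y => (h3 y).trans (or_comm.trans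
    (or_congr_right (pr_Z I _))), fun l hl y hy =>
    (pr_Z I _).1 ((h2 y).1 (mem_biUnion (h5 hl) hy)), fun j => mono_of h1.cont h1.hol fun y => ?_⟩
  obtain ⟨γ, a⟩ := (pr I).cover (π y)
  obtain ⟨ζ, hζ⟩ := V'.exEq y
  obtain ⟨e, he⟩ := h4 y γ ζ a hζ
  exact ge_of h1.hol a hζ he j

end Vale.Agent.P277Z.GH
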