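import Vale.Agent.P277Z.GH.Sk
import Vale.Agent.P277Z.Val.Comp

/-!
# P277, block GH: composition of log resolutions
-/

namespace Vale.Agent.P277Z.GH

theorem comp_of (h1 : Val.StAmpC) (h2 : Val.StAn) : StComp :=
  fun _ _ _ _ _ _ _ hX r' r pre => Val.comp0 h1 h2 hX r' r pre

end Vale.Agent.P277Z.GH
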