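import Vale.Agent.P277Z.GH.KahA
import Vale.Agent.P277Z.Pos.Kah
import Vale.Agent.P272.K.QN.H527.Tools

/-!
# P277, block GH: the pull back of a nef line bundle is nef
-/

open scoped Manifold ContDiff Topology ComplexOrder
open Vale.Agent.P277 hiding Amin IsFlipR
open Vale.Agent.P272.K Vale.Agent.P285.H281.FD Vale.Agent.P277.HD Set Filter
open Vale.Agent.P277.H60.Z (XH)
open Vale.Agent.P277Z.St
open Vale.Agent.P284Y.Lib (two_le_inf)

set_option linter.unusedSectionVars false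

noncomputable section

namespace Vale.Agent.P277Z.GH

namespace NefA

open Ka

theorem psd_smul {M : Matrix (Fin 4) (Fin 4) ℂ} (h : M.PosSemidef) {c : ℝ} (hc : 0 ≤ c) :
    ((c : ℂ) • M).PosSemidef := h.smul (Complex.zero_le_real.2 hc)

theorem cHess_lin {α : Type} (s : Finset α) (c : α → ℝ) {f : α → Cm 4 → ℝ} {z : Cm 4}
    (hf : ∀ a, ContDiffAt ℝ 2 (f a) z) :
    cHess (fun w => ∑ a ∈ s, c a * f a w) z = ∑ a ∈ s, (c a : ℂ) • cHess (f a) z := by
  classical
  induction s using Finset.induction_on with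
  | empty => exact C2.cHess_const 0
  | insert a s ha ih =>
    simp only [Finset.sum_insert ha]
    rw [C2.cHess_add (contDiffAt_const.mul (hf a))
      (ContDiffAt.sum fun a _ => contDiffAt_const.mul (hf a)), C2.cHess_const_mul _ (hf a), ih]

variable {W : Type} [TopologicalSpace W] [T2Space W] [CompactSpace W] [ChartedSpace (Cm 4) W]
  [IsManifold 𝓘(ℂ, Cm 4) ω W] {χ : Chart 4 W → Cm 4 → Matrix (Fin 4) (Fin 4) ℂ}

theorem lb_lin {k : ℕ} {L : Fin k → Bd W} (hL : ∀ a, IsLB 4 (L a)) (n : Fin k → ℤ) :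
    IsLB 4 (HD.Bd.lin L n) where
  isOpen i := by
    change IsOpen {x | ∀ e, x ∈ (L e).U (i e)}
    rw [ofPred_forall]
    exact isOpen_iInter_of_finite fun a => (hL a).isOpen _
  cover x := by
    choose j hj using fun a => (hL a).cover x
    exact ⟨j, hj⟩
  holo i j e x hx hi hj := (Finset.analyticAt_fun_prod Finset.univ fun a _ =>
    ((hL a).holo _ _ e x hx (hi a) (hj a)).analyticAt.fun_zpow (n := n a) (by
      rw [hx.left_inv]; exact (hL a).ne_zero _ _ x (hi a) (hj a))).contDiffAt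
  ne_zero i j x hi hj := (Finset.prod_ne_zero_iff (s := Finset.univ)).2 fun a _ =>
    zpow_ne_zero (n a) ((hL a).ne_zero _ _ x (hi a) (hj a))
  cocycle i j l x hi hj hl := by
    simp only [HD.Bd.lin]
    rw [← Finset.prod_mul_distrib]
    exact Finset.prod_congr rfl fun a _ => by
      rw [← mul_zpow, (hL a).cocycle _ _ _ x (hi a) (hj a) (hl a)]

theorem nef_lin (hχ : IsHermitian χ) {k : ℕ} {L : Fin k → Bd W} (hL : ∀ a, IsLB 4 (L a))
    (hn : ∀ a, Nef χ (L a)) (ν : Fin k → ℕ) : Nef χ (HD.Bd.lin L fun a => ν a) := by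
  intro δ hδ
  have h0 : (0 : ℝ) < ∑ a, (ν a : ℝ) + 1 := by positivity
  choose ψ hψ hp using fun a => hn a _ (div_pos hδ h0)
  refine ⟨fun i y => ∑ a, ν a * ψ a (i a) y, ⟨fun i e y he hi => ContDiffAt.sum fun a _ =>
    contDiffAt_const.mul ((hψ a).smooth _ e y he (hi a)), fun i j y hi hj => ?_⟩,
    fun i e y he hi => ?_⟩
  · simp only [HD.Bd.lin, zpow_natCast, norm_prod, norm_pow]
    rw [← Finset.prod_pow, Real.log_prod fun a _ => pow_ne_zero _ (pow_ne_zero _
      (norm_ne_zero_iff.2 ((hL a).ne_zero _ _ y (hi a) (hj a)))), ← Finset.sum_add_distrib]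
    refine Finset.sum_congr rfl fun a _ => ?_
    rw [(hψ a).change _ _ y (hi a) (hj a), ← pow_mul, mul_comm (ν a) 2, pow_mul, Real.log_pow _ (ν a),
      mul_add]
  · have h1 := (Matrix.posSemidef_sum Finset.univ fun a _ =>
      psd_smul (hp a (i a) e y he (hi a)) (Nat.cast_nonneg (ν a))).add
      (psd_smul (hχ.posDef e y he).posSemidef (div_pos hδ h0).le)
    have h2 : (δ : ℂ) = ∑ a, ((ν a : ℝ) : ℂ) * (δ / (∑ a, (ν a : ℝ) + 1) : ℝ) +
        (δ / (∑ a, (ν a : ℝ) + 1) : ℝ) := by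
      rw [← Finset.sum_mul, ← add_one_mul]
      exact_mod_cast (mul_div_cancel₀ δ h0.ne').symm
    rw [cHess_lin _ _ fun a => ((hψ a).smooth _ e y he (hi a)).of_le two_le_inf, h2, add_smul,
      Finset.sum_smul, ← add_assoc, ← Finset.sum_add_distrib]
    simpa only [smul_add, smul_smul] using h1

variable {X : CSp} {q : W → X.pt} {e : Chart 4 W} {y : W}

theorem hol_q (hq : ∀ y, HolMap (XH 4 W) X q y) (he : At e y) :
    HolAt X (fun z => q (e.symm z)) (e y) := (holAt_chart he).holMap (hq _)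

theorem lb_pull (hq : ∀ y, HolMap (XH 4 W) X q y) {N : Bd X.pt} (hN : IsLBx X N) :
    IsLB 4 (pull q N) :=
  ⟨fun i => (hN.isOpen i).preimage (continuous_iff_continuousAt.2 fun y => (hq y).1),
    fun y => hN.cover (q y),
    fun i j e y he hi hj => ((hq y).2 _ (hN.holo i j _ hi hj) e he).contDiffAt,
    fun i j _ => hN.ne_zero i j _, fun i j l _ => hN.cocycle i j l _⟩

theorem sm_q (hq : ∀ y, HolMap (XH 4 W) X q y) (he : At e y) {u : X.pt → ℝ} (hu : Sm X u (q y)) :
    ContDiffAt ℝ ∞ (fun z => u (q (e.symm z))) (e y) :=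
  (sm_comp (hol_q hq he) (by rwa [he.left_inv])).self_of_nhds

theorem flat_q (hq : ∀ y, HolMap (XH 4 W) X q y) (hD : Dense (q ⁻¹' {x | IsReg 4 X x}))
    {U : Set X.pt} (hU : IsOpen U) {u : X.pt → ℝ} (hs : ∀ (c : Cm 4 → X.pt) w, HolAt X c w →
      c w ∈ U → ContDiffAt ℝ 2 (fun w => u (c w)) w) (hp : ∀ x ∈ U, Ph X u x) (he : At e y)
    (hy : q y ∈ U) : cHess (fun z => u (q (e.symm z))) (e y) = 0 :=
  have h : q (e.symm (e y)) ∈ U := by rwa [he.left_inv]
  ph_pull (Y := XH 4 W) hq hD hU (fun _ _ hγ hr hz =>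
    ph_hol hγ hr (fun c w hc k => hs c w hc (k ▸ hz)) (hp _ hz)) (isCh_chart he) h
    (hs _ _ (hol_q hq he) h)

theorem bound (hχ : IsHermitian χ) (hq : ∀ y, HolMap (XH 4 W) X q y)
    (hD : Dense (q ⁻¹' {x | IsReg 4 X x})) (η : Pot X) : ∃ C : ℝ, 0 < C ∧
      ∀ (e : Chart 4 W) y b (t δ : ℝ), At e y → q y ∈ η.U b → |t| ≤ δ → (((δ * C : ℝ) : ℂ) •
        χ e (e y) - (t : ℂ) • cHess (fun z => η.u b (q (e.symm z))) (e y)).PosSemidef := by
  choose k hk using fun y => η.cover (q y)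
  set B : Chart 4 W → Cm 4 → Matrix (Fin 4) (Fin 4) ℂ :=
    fun e w => cHess (fun z => η.u (k (e.symm w)) (q (e.symm z))) w
  have h2 : ∀ b (e : Chart 4 W) y, At e y → q y ∈ η.U b →
      ContDiffAt ℝ 2 (fun z => η.u b (q (e.symm z))) (e y) := fun b e y he hy =>
    (sm_q hq he (η.sm b _ hy)).of_le two_le_inf
  have key : ∀ b (e : Chart 4 W) y, At e y → q y ∈ η.U b →
      B e (e y) = cHess (fun z => η.u b (q (e.symm z))) (e y) := fun b e y he hy => by
    simp only [B]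
    rw [he.left_inv, ← sub_eq_zero, ← C2.cHess_sub (h2 _ e y he (hk y)) (h2 b e y he hy)]
    exact flat_q hq hD ((η.isOpen (k y)).inter (η.isOpen b)) (u := fun x => η.u (k y) x - η.u b x)
      (fun c w hc h => (sm_two hc (η.sm _ _ h.1)).sub (sm_two hc (η.sm _ _ h.2)))
      (fun x h => η.ph _ _ x h.1 h.2) he ⟨hk y, hy⟩
  have hs : ∀ e y, At e y → ∀ i j, ContDiffAt ℝ ∞ (fun z => B e z i j) (e y) := by
    intro e y he i j
    refine (INT.smooth_cHess (sm_q hq he (η.sm _ _ (hk y))) i j).congr_of_eventuallyEq ?_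
    filter_upwards [he.nhds_target, (e.tendsto_symm he.2).eventually
      ((hq y).1.eventually ((η.isOpen _).mem_nhds (hk y)))] with w h1 h3
    have := key (k y) e _ (At.of_target he.1 h1) h3
    rw [e.right_inv h1] at this
    rw [this]
  have hH : ∀ e y, At e y → (B e (e y)).IsHermitian := fun e y he => by
    rw [key _ e y he (hk y)]
    exact C2.cHess_isHermitian (h2 _ e y he (hk y))
  have hf : IsForm B := fun e e' y he he' => by
    rw [key _ e y he (hk y), key _ e' y he' (hk y)]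
    exact Pos.cHess_chart (u := fun x => η.u (k y) (q x)) he he' (h2 _ e' y he' (hk y))
  obtain ⟨C, hC, h3⟩ := QN.exists_comparison_form hχ hs hH hf
  obtain ⟨C', hC', h4⟩ := QN.exists_comparison_form (b := fun e z => (-1 : ℂ) • B e z) hχ
    (fun e y he i j => (hs e y he i j).const_smul (-1 : ℂ))
    (fun e y he => by rw [neg_one_smul]; exact (hH e y he).neg) (hf.smul _)
  refine ⟨C + C', add_pos hC hC', fun e y b t δ he hy ht => ?_⟩
  have h5 := abs_le.1 ht
  have h6 := (hχ.posDef e y he).posSemidef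
  have h7 := ((psd_smul (h3 e y he) (c := (δ + t) / 2) (by linarith [h5.1])).add
    (psd_smul (h4 e y he) (c := (δ - t) / 2) (by linarith [h5.2]))).add
    (psd_smul h6 (c := (δ - t) / 2 * C + (δ + t) / 2 * C') (add_nonneg
      (mul_nonneg (by linarith [h5.2]) hC.le) (mul_nonneg (by linarith [h5.1]) hC'.le)))
  rw [← key b e y he hy]
  refine (congrArg Matrix.PosSemidef ?_).mp h7
  push_cast
  module

theorem nef_pull (hχ : IsHermitian χ) (hq : ∀ y, HolMap (XH 4 W) X q y)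
    (hD : Dense (q ⁻¹' {x | IsReg 4 X x})) {N : Bd X.pt} (hN : IsLBx X N) (hn : NefX X N) :
    Nef χ (pull q N) := by
  intro δ hδ
  obtain ⟨m, η, h⟩ := hn
  choose C hC hb using fun a => bound hχ hq hD (η a)
  have h0 : (0 : ℝ) < ∑ a, C a + 1 :=
    add_pos_of_nonneg_of_pos (Finset.sum_nonneg fun a _ => (hC a).le) one_pos
  obtain ⟨t, ψ, w, ht, hw, hs, hc, hp⟩ := h _ (div_pos hδ h0)
  refine ⟨fun i y => ψ i (q y), ⟨fun i e y he hi => sm_q hq he (hs i _ hi),
    fun i j y hi hj => hc i j _ hi hj⟩, fun i e y he hi => ?_⟩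
  choose b hb' using fun a => (η a).cover (q y)
  obtain ⟨c, hc'⟩ := w.cover (q y)
  have h1 := flat_q hq hD (((hN.isOpen i).inter
    (isOpen_iInter_of_finite fun a => (η a).isOpen (b a))).inter (w.isOpen c))
    (u := fun x => ψ i x + ∑ a, t a * (η a).u (b a) x - w.u c x)
    (fun γ z hγ k => ((sm_two hγ (hs i _ k.1.1)).add (ContDiffAt.sum fun a _ => contDiffAt_const.mul
      (sm_two hγ ((η a).sm _ _ (mem_iInter.1 k.1.2 a))))).sub (sm_two hγ (w.sm c _ k.2)))
    (fun x k => hp i b c x k.1.1 (mem_iInter.1 k.1.2) k.2) he ⟨⟨hi, mem_iInter.2 hb'⟩, hc'⟩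
  have h2 := (sm_q hq he (hs i _ hi)).of_le two_le_inf
  have h3 := fun a => (sm_q hq he ((η a).sm _ _ (hb' a))).of_le two_le_inf
  have h4 := ContDiffAt.sum (s := Finset.univ) fun a _ => (contDiffAt_const (c := t a)).mul (h3 a)
  rw [C2.cHess_sub (h2.add h4) ((sm_q hq he (w.sm c _ hc')).of_le two_le_inf), C2.cHess_add h2 h4,
    cHess_lin _ _ h3, sub_eq_zero, ← eq_sub_iff_add_eq] at h1
  have h5 := ((psd_comp (hol_q hq he) (u := w.u c) (hw c _ (by rwa [he.left_inv]))).add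
    (Matrix.posSemidef_sum Finset.univ fun a _ => hb a e y (b a) _ _ he (hb' a) (ht a).le)).add
    (psd_smul (hχ.posDef e y he).posSemidef (div_pos hδ h0).le)
  have h6 : (δ : ℂ) = ∑ a, ((δ / (∑ a, C a + 1) * C a : ℝ) : ℂ) + (δ / (∑ a, C a + 1) : ℝ) := by
    rw [← Complex.ofReal_sum, ← Finset.mul_sum, ← Complex.ofReal_add, ← mul_add_one,
      div_mul_cancel₀ δ h0.ne']
  refine (congrArg Matrix.PosSemidef ?_).mp h5
  rw [h1, h6, add_smul, Finset.sum_smul, Finset.sum_sub_distrib]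
  abel

end NefA

/-- **NEF** -/
theorem nef : StNef := fun _ _ _ _ _ _ _ _ _ _ _ ν hχ hq hD hN hn =>
  ⟨NefA.lb_lin (fun j => NefA.lb_pull hq (hN j)) _,
    NefA.nef_lin hχ.toIsHermitian (fun j => NefA.lb_pull hq (hN j))
      (fun j => NefA.nef_pull hχ.toIsHermitian hq hD (hN j) (hn j)) ν⟩

end Vale.Agent.P277Z.GH
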