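import Vale.Agent.P277Z.GH.ToVal
import Vale.Agent.P277Z.GH.Comp
import Vale.Agent.P277Z.Val.Dom
import Vale.Agent.P277Z.Val.CmpS
import Vale.Agent.P277Z.Val.ResF
import Vale.Agent.P277.H615.Step

/-!
# P277, block GH: resolution of a flip
-/

open scoped Manifold ContDiff Topology
open Vale.Agent.P272.K Vale.Agent.P285.H281.FD Vale.Agent.P277 Set Filter
open Vale.Agent.P277.PH (HolF)
open Vale.Agent.P277.T3 (ThinM)
open Vale.Agent.P277.HD (pull)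
open Vale.Agent.P277.H615 (FlipD comb tr VA)
open Vale.Agent.P277Z.Hir (Cpb)
open Vale.Agent.P277Z.Val

noncomputable section

namespace Vale.Agent.P277Z.GH

/-- the hypotheses of `Val.StDom` -/
structure DomH (V : Lg) (X' Z : CSp) (f' : X'.pt → Z.pt) (Λ' : Bd X'.pt) (q : V.W → Z.pt)
    (B : Set Z.pt) (Λ : Bd V.W) (u : V.W → X'.pt) (T : Λ.ι → Λ'.ι → V.W → ℂ) : Prop where
  hf : ∀ x, HolMap X' Z f' x
  lb' : IsLBx X' Λ'
  amp : RelAmple X' Z f' Λ'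
  hq : HolTo V Z q
  closed : IsClosed B
  dense : Dense (q ⁻¹' B)ᶜ
  thin : ThinM 4 2 (q ⁻¹' B \ V.E)
  lb : IsLB 4 Λ
  hu : ∀ y, q y ∉ B → HolMap V.X X' u y ∧ f' (u y) = q y
  iso : IsIsoY (q ⁻¹' B)ᶜ u Λ' Λ fun j i => T i j
  ext : ∀ (O : Set Z.pt) (k : ℕ) (s' : Λ'.ι → X'.pt → ℂ), IsOpen O → 1 ≤ k →
    IsSecx X' (f' ⁻¹' O) (Λ'.pow k) s' → ∃ σ : Λ.ι → V.W → ℂ,
      (∀ i, ∀ y ∈ Λ.U i, q y ∈ O → HolF 4 (σ i) y ∧ (q y ∈ B → σ i y = 0)) ∧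
      ∀ i j, ∀ y ∈ Λ.U i, q y ∈ O → q y ∉ B → u y ∈ Λ'.U j → σ i y = T i j y ^ k * s' j (u y)

namespace Gr

variable {X Z X' : CSp} {f : X.pt → Z.pt} {f' : X'.pt → Z.pt} {V : Lg} {p : V.W → X.pt}
  {exc : Finset (Fin V.r)}

/-- all sections of the powers of `L` vanish over `Amin f` -/
theorem vanish {L : Bd X.pt} {L' : Bd X'.pt} {A : Set Z.pt} (h : IsFlip X Z X' f f' A L L')
    {O : Set Z.pt} (hO : IsOpen O) {k : ℕ} (hk : 1 ≤ k) {σ : L.ι → X.pt → ℂ}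
    (hσ : IsSecx X (f ⁻¹' O) (L.pow k) σ) {x : X.pt} {i : L.ι} (hx : f x ∈ O)
    (hA : f x ∈ Amin f) (hi : x ∈ L.U i) : σ i x = 0 := by
  obtain ⟨O₁, K, κ, _, s, h1, h2, h3, h4⟩ := VA.of_relAmple h.ample (f x)
  have a1 : VA X Z f (Bd.inv ((L.pow k).pow K)) O₁ (κ × κ) (H615.powF k s) :=
    VA.congr (ι := L.ι) (U := L.U) (g := fun i j x => ((L.g i j x)⁻¹ ^ K) ^ k) (VA.pow h4 hk)
      (by funext i j x; rw [← pow_mul, mul_comm, pow_mul, inv_pow, inv_pow]; rfl)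
  have a2 : IsSecx X (f ⁻¹' (O₁ ∩ O)) ((L.pow k).pow K) fun i x => σ i x ^ K :=
    ⟨fun i x hx hi => hol_pow (hσ.holo i x hx.2 hi) K, fun i j x hx hi hj => by
      rw [hσ.change i j x hx.2 hi hj, mul_pow]
      rfl⟩
  exact pow_eq_zero_iff (Nat.one_le_iff_ne_zero.1 h3) |>.1
    (H615.vanish h.normalZ h.normal h.small (H615.IsLBx.pow (H615.IsLBx.pow h.lb k) K)
      (h1.inter hO) (a1.mono inter_subset_left) a2 ⟨h2, hx⟩ hA x i rfl hi)

theorem dense_pre (hp : Res V X p exc) {S : Set X.pt} (hS : Dense Sᶜ) : Dense (p ⁻¹' S)ᶜ := by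
  refine dense_iff_inter_open.2 fun N hN hne => ?_
  obtain ⟨y, h1, h2⟩ := V.dense.inter_open_nonempty N hN hne
  obtain ⟨_, ⟨y', h3, rfl⟩, h4⟩ := hS.inter_open_nonempty _
    (hp.emb.isOpenMap _ inter_subset_right (hN.inter hp.emb.isOpen))
    ⟨p y, y, ⟨h1, fun e => h2 (Lf.sub_E V exc e)⟩, rfl⟩
  exact ⟨y', h3.1, h4⟩

theorem lb_pull (hp : Res V X p exc) {L : Bd X.pt} (h : IsLBx X L) : IsLB 4 (pull p L) where
  isOpen i := (h.isOpen i).preimage hp.cont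
  cover y := h.cover (p y)
  holo i j e y he hi hj := (hp.hol y _ (h.holo i j _ hi hj) e he).contDiffAt
  ne_zero i j _ hi hj := h.ne_zero i j _ hi hj
  cocycle i j l _ hi hj hl := h.cocycle i j l _ hi hj hl

/-- a log resolution of `X` satisfies the hypotheses of `StDom` for the flip -/
theorem dom_hyp {L : Bd X.pt} {L' : Bd X'.pt} (h : IsFlip X Z X' f f' (Amin f) L L')
    {t : L.ι → L'.ι → Z.pt → ℂ} (ht : IsIso f f' (Amin f) L L' t) (hp : Res V X p exc) :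
    DomH V X' Z f' L' (fun y => f (p y)) (Amin f) (pull p L) (fun y => tr f h.small' (p y))
      fun i j y => (t i j (f (p y)))⁻¹ where
  hf := h.small'.holMap
  lb' := h.lb'
  amp := h.ample'
  hq := ⟨h.small.cont.comp hp.cont, fun y g hg => hp.hol y _ (h.small.holo _ g hg)⟩
  closed := h.small.isClosed
  dense := dense_pre hp (H615.dense_pre h.normal h.small)
  thin := by
    obtain ⟨x⟩ := h.small.dim.nonempty
    obtain ⟨y, -⟩ := hp.surj x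
    have : Nonempty V.W := ⟨y⟩
    exact U.thinM_mono (H60.Z.thinM_of_emb hp.emb h.small.dim)
      fun y hy => ⟨fun e => hy.2 (Lf.sub_E V exc e), hy.1⟩
  lb := lb_pull hp h.lb
  hu y hy := ⟨⟨(H615.tr_continuousAt h.small h.small' hy).comp hp.cont.continuousAt,
    fun g hg => hp.hol y _ (H615.tr_hol h.small h.small' hy hg)⟩, H615.f'_tr _ _⟩
  iso := by
    refine ⟨fun y hy j i e he hj hi => ?_, fun y hy j j₁ i i₁ hj hj₁ hi hi₁ => ?_⟩
    · have h1 := ht.holo (p y) _ i j hy (H615.f'_tr h.small' _) hi hj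
      exact ⟨hp.hol y _ (hol_inv (h.small.holo _ _ h1.1) h1.2) e he, inv_ne_zero h1.2⟩
    · have h1 := (H615.IsIso.symm h.lb h.lb' ht).change (tr f h.small' (p y)) (p y) j j₁ i i₁
        (by rw [H615.f'_tr h.small']; exact hy) (H615.f'_tr h.small' _).symm hj hj₁ hi hi₁
      rwa [H615.f'_tr h.small'] at h1
  ext O k s' hO hk hs := by
    obtain ⟨σ, h1, h2⟩ := H615.transport h.normal h.small h.small' (H615.IsLBx.pow h.lb k)
      (H615.IsLBx.pow h.lb' k) (H615.IsIso.pow ht k) hO hs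
    refine ⟨fun i y => σ i (p y), fun i y hi hy => ⟨hp.hol y _ (h1.holo i _ hy hi),
      fun hA => vanish h hO hk h1 hy hA hi⟩, fun i j y hi hy hA hj => ?_⟩
    have h3 := (ht.holo (p y) _ i j hA (H615.f'_tr h.small' _) hi hj).2
    rw [h2 (p y) _ i j hy hA (H615.f'_tr h.small' _) hi hj, ← mul_assoc, ← mul_pow,
      inv_mul_cancel₀ h3, one_pow, one_mul]

theorem one_le {k : ℕ} {L : Fin k → Bd X.pt} {L' : Fin k → Bd X'.pt} {p₁ q₁ : Fin k → ℕ} {s a}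
    (h : FlipD f f' L L' p₁ q₁ s a) : 1 ≤ k := by
  refine Nat.pos_of_ne_zero fun hk => ?_
  subst hk
  have h0 := h.flip none
  obtain ⟨x, x', e1, e2⟩ := Function.not_injective_iff.1 h0.ninj
  obtain ⟨i, hi⟩ := h0.lb.cover x
  refine one_ne_zero (vanish h0 isOpen_univ le_rfl (σ := fun _ _ => 1)
    ⟨fun _ _ _ _ => hol_const 1 _, fun _ _ _ _ _ _ => ?_⟩ trivial ⟨x, x', rfl, e1.symm, e2⟩ hi)
  simp [Bd.pow, Bd.lin]

end Gr

theorem graph_of (h1 : StGHn) (h2 : StAmpC) (h3 : StAn) : StGraph := by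
  intro k X Z X' f f' A L L' c c' ρ hc _ h V p exc hp
  obtain ⟨p₁, q₁, s, -, a, -, -, hF, -⟩ := H615.exists_flipD (A := A) (c' := c') (ρ := ρ)
    ⟨h.normal, h.normalZ, h.normal', h.small, h.small', h.ninj, h.ninj', h.lb, h.lb', h.iso,
      h.ample, h.ample'⟩ hc
  obtain ⟨t, ht⟩ := (hF.flip none).iso
  have hd := Gr.dom_hyp (hF.flip none) ht hp
  obtain ⟨Γ, U, nm, hI, hcore⟩ := Dom.core hd.hf hd.lb' hd.amp hd.hq hd.dense hd.lb hd.hu hd.iso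
    hd.ext
  obtain ⟨V', π, new, ex, a1, a2, a3, a4, a5⟩ := h1 V Γ U nm _ hI hd.thin
  obtain ⟨p', b1, b2, -⟩ := hcore V' π ex a1 (fun y e => (a3 y).2 (Or.inr e)) a5
  obtain ⟨exc', c1, -⟩ := GH.comp_of h2 h3 V' V X π p new exc h.normal a2 hp a1.pre
  have hcm : Cmn V' f f' (fun y => p (π y)) p' :=
    ⟨⟨c1.cont, c1.hol⟩, b1, b2, fun y e => (a3 y).2 (Or.inr e)⟩
  obtain ⟨μ, hμ⟩ := cmpS V' X Z X' f f' k L L' p₁ q₁ s a hF (Gr.one_le hF) _ _ hcm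
  exact ⟨V', π, p', new, exc', a2, a1, a3, fun l hl y hy => a4 l hl ⟨y, hy, rfl⟩, b2, c1,
    (resF_of h2 h3 V' X Z X' f f' k L L' p₁ q₁ s a hF _ _ μ exc' hcm hμ c1).2⟩

end Vale.Agent.P277Z.GH
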