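import Vale.Agent.P277Z.GH.Sk
import Vale.Agent.P277Z.Val.USk2
import Vale.Agent.P277Z.Val.LiftsB
import Vale.Agent.P277Z.Val.Jz0

/-!
# P277, block GH: principalization in the form of block VAL
-/

open scoped Manifold ContDiff Topology
open Vale.Agent.P272.K Vale.Agent.P285.H281.FD Vale.Agent.P277 Set Filter
open Vale.Agent.P277.PH (HolF)
open Vale.Agent.P277.T3 (ThinM)
open Vale.Agent.P277Z.Hir (Cpb)
open Vale.Agent.P277Z.Val

noncomputable section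

namespace Vale.Agent.P277Z.GH

/-- (GH) without Kähler forms -/
def StGHn : Prop :=
  ∀ (V : Lg) (Γ : Type) (U : Γ → Set V.W) (nm : Γ → V.W → ℝ) (Z₀ : Set V.W), Idl V U nm Z₀ →
    ThinM 4 2 (Z₀ \ V.E) →
    ∃ (V' : Lg) (π : V'.W → V.W) (exc : Finset (Fin V'.r)) (ex : Fin V'.r → ℕ),
      Hom V' V π ∧ Res V' V.X π exc ∧ (∀ y, y ∈ V'.E ↔ π y ∈ V.E ∨ π y ∈ Z₀) ∧
      (∀ k ∈ exc, π '' V'.G k ⊆ Z₀) ∧ ∀ y γ ζ, π y ∈ U γ → V'.Eq y ζ →
        Cpb (𝓝 y) (fun y' => nm γ (π y')) fun y' => ∏ k, ‖ζ k y'‖ ^ ex k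

namespace TV

section cpb
variable {T T' : Type} {l : Filter T} {f g h : T → ℝ}

theorem symm (a : Cpb l f g) : Cpb l g f :=
  let ⟨C, h1, h2⟩ := a
  ⟨C, h1, h2.mono fun _ e => ⟨e.2, e.1⟩⟩

theorem trans (a : Cpb l f g) (b : Cpb l g h) : Cpb l f h := by
  obtain ⟨C, h1, h2⟩ := a
  obtain ⟨D, k1, k2⟩ := b
  refine ⟨C * D, mul_pos h1 k1, ?_⟩
  filter_upwards [h2, k2] with z e1 e2
  constructor
  · calc f z ≤ C * g z := e1.1
      _ ≤ C * (D * h z) := mul_le_mul_of_nonneg_left e2.1 h1.le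
      _ = C * D * h z := by ring
  · calc h z ≤ D * g z := e2.2
      _ ≤ D * (C * f z) := mul_le_mul_of_nonneg_left e1.2 k1.le
      _ = C * D * f z := by ring

theorem comp (a : Cpb l f g) {l' : Filter T'} {φ : T' → T} (hφ : Tendsto φ l' l) :
    Cpb l' (fun y => f (φ y)) fun y => g (φ y) :=
  let ⟨C, h1, h2⟩ := a
  ⟨C, h1, hφ.eventually h2⟩

theorem unit [TopologicalSpace T] {x : T} {u : T → ℝ} (hu : ContinuousAt u x) (h0 : 0 < u x)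
    (hg : ∀ y, 0 ≤ g y) (e : ∀ᶠ y in 𝓝 x, f y = u y * g y) : Cpb (𝓝 x) f g := by
  refine ⟨2 * u x + 2 / u x, by positivity, ?_⟩
  filter_upwards [e, hu.eventually (Ioo_mem_nhds (half_lt_self h0) (lt_two_mul_self h0))]
    with y e1 e2
  have a1 : 0 < 2 / u x := by positivity
  have a2 : 1 ≤ 2 / u x * u y := by
    rw [div_mul_eq_mul_div, le_div_iff₀ h0]
    linarith [e2.1]
  have a3 : 0 ≤ u y := by linarith [e2.1]
  rw [e1]
  constructor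
  · exact mul_le_mul_of_nonneg_right (by linarith [e2.2]) (hg y)
  · have a4 : 0 ≤ 2 * u x * (u y * g y) := mul_nonneg (by positivity) (mul_nonneg a3 (hg y))
    have a5 : 1 * g y ≤ 2 / u x * u y * g y := mul_le_mul_of_nonneg_right a2 (hg y)
    nlinarith

end cpb

variable {V V' : Lg}

theorem thin_union {S S' : Set V.W} (h : ThinM 4 2 S) (h' : ThinM 4 2 S') : ThinM 4 2 (S ∪ S') :=
  H60.Z.thinM_iff.2 ((H60.Z.thinM_iff.1 h).union (H60.Z.thinM_iff.1 h'))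

/-- a component which is not exceptional does not lie over a small set -/
theorem sub_of_dim {X : CSp} {p : V.W → X.pt} {exc : Finset (Fin V.r)}
    (h : IsOpenEmb X (⋃ l ∈ exc, V.G l)ᶜ p) {B : Set X.pt} (hB : DimLe X 2 B) {C : Set V.W}
    (hC : IsClosed C) {k : Fin V.r} (hk : k ∉ exc) (hs : ∀ y ∈ V.G k, y ∈ C ∨ p y ∈ B) :
    V.G k ⊆ C := by
  intro z hz
  have : Nonempty V.W := ⟨z⟩
  refine hC.mem_of_frequently_of_tendsto (f := id) (b := 𝓝 z) ?_ tendsto_id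
  refine (U.not_thin hz (thin_union (H60.Z.thinM_of_emb h hB) (U.thin_notGen V k))).mono ?_
  rintro y ⟨e1, e2⟩
  refine (hs y e1).elim id fun e3 => (e2 ?_).elim
  by_cases e4 : y ∈ ⋃ l ∈ exc, V.G l
  · obtain ⟨l, e5, e6⟩ := mem_iUnion₂.1 e4
    exact Or.inr ⟨e1, fun e7 => e7.2 l (fun e8 => hk (e8 ▸ e5)) e6⟩
  · exact Or.inl ⟨e4, e3⟩

theorem mem_exc {X : CSp} {p : V.W → X.pt} {exc : Finset (Fin V.r)}
    (h : IsOpenEmb X (⋃ l ∈ exc, V.G l)ᶜ p) {B : Set X.pt} (hB : DimLe X 2 B) {k : Fin V.r}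
    (hs : ∀ y ∈ V.G k, p y ∈ B) : k ∈ exc := by
  by_contra hk
  obtain ⟨y, hy⟩ := (V.conn k).nonempty
  exact sub_of_dim h hB isClosed_empty hk (fun y e => Or.inr (hs y e)) hy

theorem lbx {P : Bd V.W} (hP : IsLB 4 P) : IsLBx V.X P :=
  ⟨hP.isOpen, hP.cover, fun i j x hi hj e he => (hP.holo i j e x he hi hj).analyticAt,
    hP.ne_zero, hP.cocycle⟩

theorem res_id (V : Lg) [Nonempty V.W] : Res V V.X id ∅ := by
  have e : (⋃ l ∈ (∅ : Finset (Fin V.r)), V.G l) = ∅ := by simp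
  have : Nonempty V.X.pt := ‹Nonempty V.W›
  refine ⟨continuous_id, fun _ _ hg => hg, Function.surjective_id, ?_, fun _ _ _ h => h, ?_, ?_,
    triv V.W, 0, fun _ _ => 1, ⟨fun _ => isOpen_univ, fun _ => ⟨(), trivial⟩,
      fun _ _ _ _ _ _ _ => contDiffAt_const, fun _ _ _ _ _ => one_ne_zero,
      fun _ _ _ _ _ _ _ => one_mul _⟩, fun z => ?_, by simp,
    ⟨fun _ _ _ _ _ => contDiffAt_const, fun _ _ _ _ _ => by simp [Bd.inv, triv]⟩,
    fun y _ ζ _ _ => ⟨fun _ => 1, fun _ _ => analyticAt_const, one_ne_zero, by simp⟩⟩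
  · rw [e, compl_empty]
    exact Lf.emb_id V
  · rw [e]
    exact fun x _ => ⟨1, fun _ _ => 1, fun _ _ _ => analyticAt_const,
      Eventually.of_forall fun _ => ⟨fun ⟨_, h, _⟩ => h.elim, fun h => (one_ne_zero (h 0)).elim⟩⟩
  · rw [e]
    exact dimLe_empty.mono fun _ ⟨_, h, _⟩ => h
  · refine ⟨univ, 1, 0, fun _ _ _ => 1, isOpen_univ, trivial, le_rfl,
      fun _ => ⟨fun _ _ _ _ _ _ => analyticAt_const, fun _ _ _ _ _ _ => by simp [Bd.pow, triv]⟩,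
      fun _ _ _ _ => ⟨0, one_ne_zero⟩, fun x x' _ _ _ h1 h2 => (h2 h1).elim,
      fun x _ _ _ _ _ h hh => ⟨1, fun _ => h, fun w => w.1 0, fun _ => hh, ?_,
        Eventually.of_forall fun _ => rfl⟩⟩
    exact ((ContinuousLinearMap.proj (R := ℂ) (φ := fun _ : Fin 1 => ℂ) 0).analyticAt _).comp
      analyticAt_fst

theorem res_hol {π : V'.W → V.W} {exc : Finset (Fin V'.r)} (h : Res V' V.X π exc) (y : V'.W)
    (e' : Chart 4 V'.W) (e : Chart 4 V.W) (he' : At e' y) (he : At e (π y)) :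
    AnalyticAt ℂ (fun z => e (π (e'.symm z))) (e' y) :=
  analyticAt_pi_iff.2 fun i => h.hol y (fun x => e x i) (holF_chart he i) e' he'

theorem exists_fam {Γ : Type} {U : Γ → Set V.W} {nm : Γ → V.W → ℝ} {Z₀ : Set V.W}
    (h : Idl V U nm Z₀) : ∃ I : Fam V.X, I.Z = Z₀ ∧ ∀ y, ∃ δ, y ∈ I.O δ ∧ ∀ γ, y ∈ U γ →
      Cpb (𝓝 y) (nm γ) fun x => ∑ k, ‖I.f δ k x‖ := by
  choose m f hf using h.loc
  choose O h1 h2 h3 using fun y => _root_.eventually_nhds_iff.1 (hf y)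
  refine ⟨⟨V.W, O, m, f, h2, fun y => ⟨y, h3 y⟩, fun y k x hx => (h1 y x hx).1 k,
    fun y y' x hx hx' => ?_⟩, ?_, fun y => ⟨y, h3 y, (h1 y y (h3 y)).2.2⟩⟩
  · obtain ⟨γ, hγ⟩ := h.cover x
    exact trans (symm ((h1 y x hx).2.2 γ hγ)) ((h1 y' x hx').2.2 γ hγ)
  · ext x
    exact ⟨fun ⟨y, e1, e2⟩ => (h1 y x e1).2.1.2 e2, fun e => ⟨x, h3 x, (h1 x x (h3 x)).2.1.1 e⟩⟩

end TV

theorem ghn_of (hP : StPrin) (hN : StNX) : StGHn := by
  intro V Γ U nm Z₀ hI hthin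
  have hne : Nonempty V.W := (H60.Z.thinM_iff.1 hthin).nonempty
  obtain ⟨I, hZ, hc⟩ := TV.exists_fam hI
  obtain ⟨V', π, exc, hr, hE, hexc, hm⟩ := hP V hne 1 (fun _ => I) fun _ => hZ ▸ hI.dense
  obtain ⟨a, ha⟩ := hm 0
  have hE' : ∀ y, y ∈ V'.E ↔ π y ∈ V.E ∨ π y ∈ Z₀ := fun y => by
    rw [hE y, hZ, exists_const]
    rfl
  refine ⟨V', π, exc, a, stHom V' V V.X id π ∅ exc (hN V hne) (TV.res_id V) hr hr.cont
    (TV.res_hol hr) (fun y e => (hE' y).2 (Or.inl e)) fun k hk => image_subset_iff.2 ?_, hr, hE',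
    fun k hk => ?_, fun y γ ζ hy hζ => ?_⟩
  · refine TV.sub_of_dim hr.emb (H60.Z.thinM_iff.1 hthin) (V.closedE.preimage hr.cont) hk
      fun y e => ?_
    by_cases e1 : π y ∈ V.E
    · exact Or.inl e1
    · exact Or.inr ⟨((hE' y).1 (mem_iUnion.2 ⟨k, e⟩)).resolve_left e1, e1⟩
  · rintro _ ⟨y, e, rfl⟩
    obtain ⟨_, e1⟩ := hexc k hk y e
    exact hZ ▸ e1
  · obtain ⟨δ, e1, e2⟩ := hc (π y)
    obtain ⟨u, u1, ⟨k₀, u2⟩, u3⟩ := ha y δ ζ e1 hζ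
    refine TV.trans (TV.comp (e2 γ hy) hr.cont.continuousAt) (TV.unit (u := fun y' => ∑ k, ‖u k y'‖)
      (tendsto_finsetSum _ fun k _ => (holF_cont (u1 k)).norm)
      (Finset.sum_pos' (fun _ _ => norm_nonneg _) ⟨k₀, Finset.mem_univ _, norm_pos_iff.2 u2⟩)
      (fun _ => Finset.prod_nonneg fun _ _ => pow_nonneg (norm_nonneg _) _) ?_)
    filter_upwards [u3] with y' e3
    rw [Finset.sum_mul]
    refine Finset.sum_congr rfl fun k _ => ?_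
    rw [e3 k, norm_mul, norm_prod]
    simp only [norm_pow]

theorem gh_of (h : StGHn) (h1 : StKB) : StGH := by
  intro V χ hχ Γ U nm Z₀ hI hthin
  obtain ⟨V', π, exc, ex, a1, a2, a3, a4, a5⟩ := h V Γ U nm Z₀ hI hthin
  obtain ⟨χ', hχ'⟩ := h1 V' V π exc χ hχ a2
  exact ⟨V', π, χ', exc, ex, ⟨hχ', a1, a2, a4, fun y e => (a3 y).2 (Or.inr e)⟩, a5⟩

theorem gh0_of (h : StRes0) : StGH0 := by
  intro Y hY
  obtain ⟨V, μ, h1, h2⟩ := h Y hY
  exact ⟨V, μ, h1, fun k y e => (h2 y).1 (mem_iUnion.2 ⟨k, e⟩)⟩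

end Vale.Agent.P277Z.GH
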