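import Vale.Agent.P277Z.GH.DomSk
import Vale.Agent.P277Z.Luf.Hol

/-!
# P277, block GH: comparison of primitive families
-/

open scoped Manifold ContDiff Topology
open Vale.Agent.P272.K Set Filter

set_option linter.unusedSectionVars false

noncomputable section

namespace Vale.Agent.P277Z.GH.Dom

namespace CpbH

variable {W κ κ' : Type} [TopologicalSpace W] [ChartedSpace (Cm 4) W]
  [IsManifold 𝓘(ℂ, Cm 4) ω W] [Fintype κ] [Fintype κ'] {F H : κ → W → ℂ} {F' : κ' → W → ℂ}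
  {a b : W → ℂ} {x : W} {C : ℝ}

theorem le_of_gen {f g : W → ℝ} (hf : ∀ᶠ y in 𝓝 x, ContinuousAt f y)
    (hg : ∀ᶠ y in 𝓝 x, ContinuousAt g y) (h : ∀ᶠ y in gen {x}, f y ≤ g y) :
    ∀ᶠ y in 𝓝 x, f y ≤ g y := by
  filter_upwards [hf, hg, gen_near h] with y h1 h2 h3 using le_of_tendsto_of_tendsto
    (h1.tendsto.mono_left (gen_le_nhds y)) (h2.tendsto.mono_left (gen_le_nhds y)) h3

theorem cont_sum (hF : ∀ l, Hol 4 (F l) x) :
    ∀ᶠ y in 𝓝 x, ContinuousAt (fun y => ∑ l, ‖F l y‖) y :=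
  (eventually_all.2 fun l => (hF l).near).mono fun _ h =>
    tendsto_finsetSum _ fun l _ => (h l).cont.norm

theorem bdd {f : W → ℝ} (hf : ContinuousAt f x) : ∃ M, 0 < M ∧ ∀ᶠ y in 𝓝 x, f y ≤ M :=
  ⟨|f x| + 1, by positivity, (hf.eventually_lt continuousAt_const
    ((le_abs_self _).trans_lt (lt_add_one _))).mono fun _ => le_of_lt⟩

theorem dvd (ha : Hol 4 a x) (hb : Hol 4 b x) (h0 : Nz a x) (hF : ∀ l, Hol 4 (F l) x)
    (hP : Prim F x) (h : ∀ᶠ y in 𝓝 x, ‖b y‖ * ∑ l, ‖F l y‖ ≤ C * ‖a y‖) : Dvd 4 a b x := by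
  have he := at_chart (n := 4) x
  obtain ⟨d, b', a', hd, hb', ha', e⟩ := (luf 4 W x).gcd b a hb ha h0
  by_cases k : a' x = 0
  swap
  · refine ⟨_, hb'.div ha' k, ?_⟩
    filter_upwards [e, ha'.ne_near k] with y y1 y2
    rw [y1.1, y1.2.1]
    field_simp
  have h1 : Nz a' x := fun k => h0 (by
    filter_upwards [k, e] with y y1 y2 using by rw [y2.2.1, y1, mul_zero])
  have h2 : ∀ᶠ y in 𝓝 x, ‖b' y‖ * ∑ l, ‖F l y‖ ≤ C * ‖a' y‖ := by
    refine le_of_gen ?_ (ha'.near.mono fun _ y1 => y1.cont.norm.const_mul C) ?_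
    · filter_upwards [hb'.near, cont_sum hF] with y y1 y2 using y1.cont.norm.mul y2
    · filter_upwards [h0.gen ha, gen_of_nhds h, gen_of_nhds e] with y y1 y2 y3
      rw [y3.2.1] at y1
      rw [y3.1, y3.2.1, norm_mul, norm_mul, mul_assoc, mul_left_comm C] at y2
      exact le_of_mul_le_mul_left y2 (norm_pos_iff.2 (left_ne_zero_of_mul y1))
  obtain ⟨p, hp, hd⟩ := WfDvdMonoid.exists_irreducible_factor
    (fun u => (isUnit_gW he ha').1 u k) ((gW_ne_zero he ha').2 h1)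
  obtain ⟨p, hp', rfl⟩ := gW_surj he p
  obtain ⟨c, -, hc⟩ := (gW_dvd he hp' ha').1 hd
  have hr := (red_near he hp' hp.prime.isRadical).self_of_nhds
  have h3 : ∀ l, Dvd 4 p (F l) x := fun l => by
    have h4 := (gW_dvd he hp' (hb'.mul (hF l))).2 (hr _ (hb'.mul (hF l)) (by
      filter_upwards [h2, hc] with y y1 y2 y3
      rw [y2, y3, mul_zero, norm_zero, mul_zero] at y1
      refine norm_le_zero_iff.1 (le_trans ?_ y1)
      rw [norm_mul]
      exact mul_le_mul_of_nonneg_left (Finset.single_le_sum (f := fun l => ‖F l y‖)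
        (fun _ _ => norm_nonneg _) (Finset.mem_univ l)) (norm_nonneg _)))
    rw [gW_mul he hb' (hF l)] at h4
    exact (gW_dvd he hp' (hF l)).1 ((hp.prime.dvd_or_dvd h4).resolve_left fun h5 =>
      hp.not_isUnit ((cop_iff he hb' ha' h1).1 e.self_of_nhds.2.2 hd h5))
  choose q _ hq using h3
  refine (hP p hp' (by_contra fun h5 => hp.not_isUnit ((isUnit_gW he hp').2 h5)) ?_).elim
  filter_upwards [eventually_all.2 hq] with y y1 y2 l
  rw [y1 l, y2, mul_zero]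

theorem half (ha : Hol 4 a x) (hb : Hol 4 b x) (h0 : Nz a x) (hF : ∀ l, Hol 4 (F l) x)
    (hF' : ∀ l, Hol 4 (F' l) x) (hP : Prim F' x) (hC : 0 < C)
    (h : ∀ᶠ y in 𝓝 x, ‖a y‖ * ∑ l, ‖F l y‖ ≤ C * (‖b y‖ * ∑ l, ‖F' l y‖) ∧
      ‖b y‖ * ∑ l, ‖F' l y‖ ≤ C * (‖a y‖ * ∑ l, ‖F l y‖)) :
    ∃ C', 0 < C' ∧ ∀ᶠ y in 𝓝 x, ∑ l, ‖F l y‖ ≤ C' * ∑ l, ‖F' l y‖ := by
  obtain ⟨M, -, hM⟩ := bdd (cont_sum hF).self_of_nhds
  obtain ⟨c, hc, e⟩ := dvd ha hb h0 hF' hP (C := C * M) (by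
    filter_upwards [h, hM] with y y1 y2
    refine y1.2.trans ?_
    rw [mul_assoc, mul_comm M]
    gcongr)
  obtain ⟨M', h1, h2⟩ := bdd hc.cont.norm
  refine ⟨C * M', mul_pos hC h1, le_of_gen (cont_sum hF)
    ((cont_sum hF').mono fun _ y1 => y1.const_mul _) ?_⟩
  filter_upwards [h0.gen ha, gen_of_nhds h, gen_of_nhds e, gen_of_nhds h2] with y y1 y2 y3 y4
  refine le_of_mul_le_mul_left (y2.1.trans ?_) (norm_pos_iff.2 y1)
  rw [y3, norm_mul]
  calc _ ≤ C * (M' * ‖a y‖ * ∑ l, ‖F' l y‖) := by gcongr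
    _ = _ := by ring

theorem pick (hP : Prim F x) (hF : ∀ l, Hol 4 (F l) x) (hH : ∀ l, Hol 4 (H l) x)
    (h : ∀ᶠ y in 𝓝 x, Par (fun l => F l y) fun l => H l y) (h0 : ¬ ∀ᶠ y in 𝓝 x, ∀ l, H l y = 0) :
    ∃ m, Nz (H m) x ∧ Nz (F m) x ∧
      ∀ᶠ y in 𝓝 x, ‖H m y‖ * ∑ l, ‖F l y‖ = ‖F m y‖ * ∑ l, ‖H l y‖ := by
  obtain ⟨m, hm⟩ := not_forall.1 (mt eventually_all.2 h0)
  refine ⟨m, hm, fun k => hP (fun _ => 0) (hol_const (n := 4) 0 x) rfl ?_, h.mono fun y y1 => ?_⟩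
  · filter_upwards [eventually_all.2 fun l => (hF l).eq_of_gen (hol_const 0 x) (by
      filter_upwards [Nz.gen hm (hH m), gen_of_nhds h, gen_of_nhds k] with y y1 y2 y3
      exact (mul_eq_zero.1 ((y2 l m).trans (mul_eq_zero_of_left y3 _))).resolve_right y1)]
      with y y1 _ using y1
  · rw [Finset.mul_sum, Finset.mul_sum]
    exact Finset.sum_congr rfl fun l _ => by rw [← norm_mul, ← norm_mul, mul_comm, y1 l m]

end CpbH

open CpbH

theorem stCpb : StCpb := by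
  intro W _ _ _ κ κ' _ _ F H F' H' x hF hH hF' hH' hP hP' h h' h0 ⟨C, hC, hc⟩
  obtain ⟨m, a1, a2, a3⟩ := pick hP hF hH h h0
  obtain ⟨m', b1, b2, b3⟩ := pick hP' hF' hH' h' fun k => h0 (by
    filter_upwards [k, hc] with y y1 y2 l
    have := y2.1
    simp only [y1, norm_zero, Finset.sum_const_zero, mul_zero] at this
    exact norm_le_zero_iff.1 ((Finset.single_le_sum (f := fun l => ‖H l y‖)
      (fun _ _ => norm_nonneg _) (Finset.mem_univ l)).trans this))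
  have ha : Hol 4 (fun y => H m y * F' m' y) x := Hol.mul (hH m) (hF' m')
  have hb : Hol 4 (fun y => H' m' y * F m y) x := Hol.mul (hH' m') (hF m)
  have k : ∀ᶠ y in 𝓝 x,
      ‖H m y * F' m' y‖ * ∑ l, ‖F l y‖ ≤ C * (‖H' m' y * F m y‖ * ∑ l, ‖F' l y‖) ∧
      ‖H' m' y * F m y‖ * ∑ l, ‖F' l y‖ ≤ C * (‖H m y * F' m' y‖ * ∑ l, ‖F l y‖) := by
    filter_upwards [a3, b3, hc] with y y1 y2 y3
    rw [norm_mul, norm_mul, mul_right_comm, y1, mul_right_comm ‖H' m' y‖, y2]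
    have y4 : 0 ≤ ‖F m y‖ * ‖F' m' y‖ := by positivity
    constructor
    · linarith [mul_le_mul_of_nonneg_left y3.1 y4]
    · linarith [mul_le_mul_of_nonneg_left y3.2 y4]
  obtain ⟨C₁, c1, c2⟩ := half ha hb (Nz.mul (hH m) (hF' m') a1 b2) hF hF' hP' hC k
  obtain ⟨C₂, d1, d2⟩ := half hb ha (Nz.mul (hH' m') (hF m) b1 a2) hF' hF hP hC
    (k.mono fun _ => And.symm)
  refine ⟨max C₁ C₂, lt_max_of_lt_left c1, ?_⟩
  filter_upwards [c2, d2] with y y1 y2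
  exact ⟨y1.trans (by gcongr; exact le_max_left _ _), y2.trans (by gcongr; exact le_max_right _ _)⟩

end Vale.Agent.P277Z.GH.Dom
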