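import Vale.Agent.P277Z.GH.DomSk

/-!
# P277, block GH: the family of the base ideal
-/

open scoped Manifold ContDiff Topology
open Vale.Agent.P277 hiding Amin IsFlipR
open Vale.Agent.P272.K Vale.Agent.P285.H281.FD Set Filter
open Vale.Agent.P277.PH (HolF)
open Vale.Agent.P277Z.Val Vale.Agent.P277Z.St

noncomputable section

namespace Vale.Agent.P277Z.GH.Dom

namespace FamH

theorem ev_le {W : Type} [TopologicalSpace W] {D : Set W} (hD : Dense D) {y : W} {u v : W → ℝ}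
    (h : ∀ᶠ z in 𝓝 y, ContinuousAt u z ∧ ContinuousAt v z ∧ (z ∈ D → u z ≤ v z)) :
    ∀ᶠ z in 𝓝 y, u z ≤ v z := by
  filter_upwards [h.eventually_nhds] with z hz
  have : (𝓝[D] z).NeBot := mem_closure_iff_nhdsWithin_neBot.1 (hD z)
  refine le_of_tendsto_of_tendsto (b := 𝓝[D] z) hz.self_of_nhds.1.continuousWithinAt
    hz.self_of_nhds.2.1.continuousWithinAt ?_
  filter_upwards [mem_nhdsWithin_of_mem_nhds hz, self_mem_nhdsWithin] with w h1 h2 using h1.2.2 h2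

theorem ev_par {W κ : Type} [TopologicalSpace W] {D : Set W} (hD : Dense D) {y : W}
    {F H : κ → W → ℂ} (h : ∀ᶠ z in 𝓝 y, (∀ l, ContinuousAt (F l) z) ∧ (∀ l, ContinuousAt (H l) z) ∧
      (z ∈ D → Par (fun l => F l z) fun l => H l z)) :
    ∀ᶠ z in 𝓝 y, Par (fun l => F l z) fun l => H l z := by
  filter_upwards [h.eventually_nhds] with z hz l m
  have : (𝓝[D] z).NeBot := mem_closure_iff_nhdsWithin_neBot.1 (hD z)
  obtain ⟨a, b, -⟩ := hz.self_of_nhds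
  refine tendsto_nhds_unique_of_eventuallyEq (l := 𝓝[D] z)
    ((a l).mul (b m)).continuousWithinAt ((a m).mul (b l)).continuousWithinAt ?_
  filter_upwards [mem_nhdsWithin_of_mem_nhds hz, self_mem_nhdsWithin] with w h1 h2 using
    h1.2.2 h2 l m

theorem scal {κ : Type} {a b : κ → ℂ} (h : Par a b) {k : κ} (hk : b k ≠ 0) :
    ∃ θ : ℂ, ∀ l, a l = θ * b l :=
  ⟨a k / b k, fun l => by rw [div_mul_eq_mul_div, eq_div_iff hk, h l k]⟩

theorem par_of {κ : Type} {a b c : κ → ℂ} {θ : ℂ} (h : Par a b) (h' : ∀ l, c l = θ * b l) :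
    Par a c := fun l m => by
  rw [h', h', mul_left_comm, h l m, mul_left_comm]

theorem sum_le {κ κ' : Type} [Fintype κ] [Fintype κ'] {a b : κ → ℂ} {a' b' : κ' → ℂ} {θ : ℂ}
    {C : ℝ} (h : ∀ l, a l = θ * b l) (h' : ∀ l, a' l = θ * b' l)
    (k : ∑ l, ‖b l‖ ≤ C * ∑ l, ‖b' l‖) : ∑ l, ‖a l‖ ≤ C * ∑ l, ‖a' l‖ := by
  simp only [h, h', norm_mul, ← Finset.mul_sum]
  rw [mul_left_comm]
  exact mul_le_mul_of_nonneg_left k (norm_nonneg _)

variable {X X' : CSp} {g : X'.pt → X.pt} {A : Set X.pt} {L : Bd X'.pt} {U U' : Set X.pt}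

theorem mono {κ : Type} {s : κ → L.ι → X'.pt → ℂ} (h : FSys X X' g L U s) (h1 : IsOpen U')
    (h2 : U' ⊆ U) : FSys X X' g L U' s :=
  ⟨h1, fun l => ⟨fun i x hx => (h.sec l).holo i x (h2 hx), fun i j x hx =>
    (h.sec l).change i j x (h2 hx)⟩, fun x i hx => h.nz x i (h2 hx)⟩

theorem elim {κ κ' : Type} {s : κ → L.ι → X'.pt → ℂ} {s' : κ' → L.ι → X'.pt → ℂ}
    (h : FSys X X' g L U s) (h' : FSys X X' g L U s') : FSys X X' g L U (Sum.elim s s') :=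
  ⟨h.isOpen, fun l => l.rec h.sec h'.sec, fun x i a b =>
    have ⟨l, hl⟩ := h.nz x i a b
    ⟨.inl l, hl⟩⟩

variable {V : Lg} {p : V.W → X.pt}

/-- the conclusion of the row PRT -/
def Gd (g : X'.pt → X.pt) (A : Set X.pt) (L : Bd X'.pt) (p : V.W → X.pt) {κ : Type}
    (s : κ → L.ι → X'.pt → ℂ) (F : κ → V.W → ℂ) (y : V.W) : Prop :=
  (∀ l, HolF 4 (F l) y) ∧ Prim F y ∧
    ∀ x' i, g x' = p y → p y ∉ A → x' ∈ L.U i → Par (fun l => F l y) fun l => s l i x'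

theorem Gd.cont {κ : Type} {s : κ → L.ι → X'.pt → ℂ} {F : κ → V.W → ℂ} {y : V.W}
    (h : Gd g A L p s F y) (l : κ) : ContinuousAt (F l) y :=
  hol_continuousAt (X := V.X) (h.1 l)

theorem cpb (h2 : StPrt) (h3 : StCmp) (h4 : StCpb) (hN : IsNormal 4 X') (hb : IsBim X' X g A)
    (hL : IsLBx X' L) (hp : ∀ y, HolMap V.X X p y) (hd : Dense (p ⁻¹' Aᶜ)) {κ κ' : Type}
    [Fintype κ] [Fintype κ'] {s : κ → L.ι → X'.pt → ℂ} {s' : κ' → L.ι → X'.pt → ℂ}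
    (hs : FSys X X' g L U s) (hs' : FSys X X' g L U s') {F : κ → V.W → ℂ} {F' : κ' → V.W → ℂ}
    {y : V.W} (hy : p y ∈ U) (hF : ∀ᶠ z in 𝓝 y, Gd g A L p s F z)
    (hF' : ∀ᶠ z in 𝓝 y, Gd g A L p s' F' z) :
    Hir.Cpb (𝓝 y) (fun z => ∑ l, ‖F l z‖) fun z => ∑ l, ‖F' l z‖ := by
  obtain ⟨H, hH⟩ : ∃ H, ∀ᶠ z in 𝓝 y, Gd g A L p (Sum.elim s s') H z :=
    h2 X X' g A L U _ _ hN hb hL (elim hs hs') V p hp hd y hy
  obtain ⟨C, c1, c2⟩ := h3 X X' g L U _ _ s s' hb.cont hL hs hs' _ hy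
  obtain ⟨C', c3, c4⟩ := h3 X X' g L U _ _ s' s hb.cont hL hs' hs _ hy
  have k : ∀ᶠ z in 𝓝 y, z ∈ p ⁻¹' Aᶜ → Par (fun l => F l z) (fun l => H (.inl l) z) ∧
      Par (fun l => F' l z) (fun l => H (.inr l) z) ∧
      ∑ l, ‖H (.inl l) z‖ ≤ (C + C') * ∑ l, ‖H (.inr l) z‖ ∧
      ∑ l, ‖H (.inr l) z‖ ≤ (C + C') * ∑ l, ‖H (.inl l) z‖ := by
    filter_upwards [hH, hF, hF', (hp y).1.eventually c2, (hp y).1.eventually c4,
      (hp y).1.eventually (hs.isOpen.mem_nhds hy)] with z a1 a2 a3 a4 a5 a6 hz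
    obtain ⟨x, hx⟩ := hb.surj (p z)
    obtain ⟨i, hi⟩ := hL.cover x
    obtain ⟨l, hl⟩ := hs.nz x i (hx ▸ a6) hi
    obtain ⟨θ, hθ⟩ := scal (a1.2.2 x i hx hz hi) (k := .inl l) hl
    refine ⟨par_of (a2.2.2 x i hx hz hi) fun l => hθ (.inl l),
      par_of (a3.2.2 x i hx hz hi) fun l => hθ (.inr l),
      sum_le (fun l => hθ (.inl l)) (fun l => hθ (.inr l)) ((a4 x i hx hi).trans ?_),
      sum_le (fun l => hθ (.inr l)) (fun l => hθ (.inl l)) ((a5 x i hx hi).trans ?_)⟩ <;>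
    exact mul_le_mul_of_nonneg_right (by linarith) (Finset.sum_nonneg fun _ _ => norm_nonneg _)
  have n1 : ∀ᶠ z in 𝓝 y, ContinuousAt (fun z => ∑ l, ‖H (.inl l) z‖) z ∧
      ContinuousAt (fun z => ∑ l, ‖H (.inr l) z‖) z := hH.mono fun z hz =>
    ⟨tendsto_finsetSum _ fun l _ => (hz.cont _).norm, tendsto_finsetSum _ fun l _ => (hz.cont _).norm⟩
  have b1 := ev_le hd ((n1.and k).mono fun z h =>
    ⟨h.1.1, continuousAt_const.mul h.1.2, fun hz => (h.2 hz).2.2.1⟩)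
  have b2 := ev_le hd ((n1.and k).mono fun z h =>
    ⟨h.1.2, continuousAt_const.mul h.1.1, fun hz => (h.2 hz).2.2.2⟩)
  refine h4 V.W κ κ' F (fun l => H (.inl l)) F' (fun l => H (.inr l)) y hF.self_of_nhds.1
    (fun l => hH.self_of_nhds.1 _) hF'.self_of_nhds.1 (fun l => hH.self_of_nhds.1 _)
    hF.self_of_nhds.2.1 hF'.self_of_nhds.2.1
    (ev_par hd (((hF.and hH).and k).mono fun z h =>
      ⟨h.1.1.cont, fun l => h.1.2.cont _, fun hz => (h.2 hz).1⟩))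
    (ev_par hd (((hF'.and hH).and k).mono fun z h =>
      ⟨h.1.1.cont, fun l => h.1.2.cont _, fun hz => (h.2 hz).2.1⟩))
    (fun h0 => hH.self_of_nhds.2.1 0 (fun _ _ => analyticAt_const) rfl ?_)
    ⟨C + C', add_pos c1 c3, b1.and b2⟩
  filter_upwards [h0, b2] with z h1 h5 _ l
  rcases l with l | l
  · exact h1 l
  · replace h5 : ∑ l, ‖H (.inr l) z‖ ≤ (C + C') * ∑ l, ‖H (.inl l) z‖ := h5
    simp only [h1, norm_zero, Finset.sum_const_zero, mul_zero] at h5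
    exact norm_le_zero_iff.1 ((Finset.single_le_sum (f := fun l => ‖H (.inr l) z‖)
      (fun _ _ => norm_nonneg _) (Finset.mem_univ l)).trans h5)

theorem sub (hb : IsBim X' X g A) (hL : IsLBx X' L) (hp : ∀ y, HolMap V.X X p y) {κ : Type}
    {s : κ → L.ι → X'.pt → ℂ} (hs : FSys X X' g L U s) {F : κ → V.W → ℂ} {y : V.W}
    (hy : p y ∈ U) (hF : ∀ᶠ z in 𝓝 y, Gd g A L p s F z) (h0 : ∀ l, F l y = 0) : p y ∈ A := by
  by_contra hA
  obtain ⟨x, hx⟩ := hb.surj (p y)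
  obtain ⟨i, hi⟩ := hL.cover x
  obtain ⟨m, hm⟩ := hs.nz x i (hx ▸ hy) hi
  have h1 : ∀ᶠ x' in 𝓝 x, x' ∈ L.U i ∧ s m i x' ≠ 0 := ((hL.isOpen i).eventually_mem hi).and
    ((hol_continuousAt ((hs.sec m).holo i x (show g x ∈ U from hx ▸ hy) hi)).eventually_ne hm)
  obtain ⟨O, o1, o2, o3⟩ := exists_nhds_preimage_subset hb.cont (z := p y) isOpen_interior
    fun x' h => (hb.inj x x' (hx ▸ hA) (h.trans hx.symm)).symm ▸ mem_interior_iff_mem_nhds.2 h1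
  refine hF.self_of_nhds.2.1 (F m) (hF.self_of_nhds.1 m) (h0 m) ?_
  filter_upwards [hF, (hp y).1.eventually (o1.mem_nhds o2), (hp y).1.eventually
    ((isClosed_of_isAn hb.an).isOpen_compl.mem_nhds hA)] with z a1 a2 a3 a4 l
  obtain ⟨x', hx'⟩ := hb.surj (p z)
  obtain ⟨b1, b2⟩ := interior_subset (o3 (show g x' ∈ O from hx' ▸ a2))
  have := a1.2.2 x' i hx' a3 b1 l m
  simp only [a4, zero_mul] at this
  exact (mul_eq_zero.1 this).resolve_right b2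

end FamH

open FamH in
theorem famD_of (h1 : StUni) (h2 : StPrt) (h3 : StCmp) (h4 : StCpb) : StFamD := by
  intro X X' g A P hN hb hP ha V p hp hd
  obtain ⟨L, hL, k⟩ := h1 X X' g P hP ha
  choose U m s k1 k2 k3 using fun y : V.W => k (p y)
  choose F hF using fun y => h2 X X' g A L (U y) _ (s y) hN hb hL (k2 y) V p hp hd y (k1 y)
  set O : V.W → Set V.W := fun y => interior {z | Gd g A L p (s y) (F y) z ∧ p z ∈ U y}
  have e : ∀ y, ∀ z ∈ O y, ∀ᶠ w in 𝓝 z, Gd g A L p (s y) (F y) w ∧ p w ∈ U y := fun y z hz =>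
    mem_interior_iff_mem_nhds.1 hz
  refine ⟨L, ⟨V.W, O, m, F, fun _ => isOpen_interior, fun y => ⟨y, mem_interior_iff_mem_nhds.2
    ((hF y).and ((hp y).1.eventually ((k2 y).isOpen.mem_nhds (k1 y))))⟩,
    fun y l z hz => (interior_subset hz).1.1 l, fun y y' z hz hz' => ?_⟩, hL,
    fun y z hz => (interior_subset hz).1.2.1, fun z hz => ?_,
    fun y => ⟨U y, s y, k2 y, k3 y, fun z hz => ⟨(interior_subset hz).2,
      (interior_subset hz).1.2.2⟩⟩⟩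
  · have o := (k2 y).isOpen.inter (k2 y').isOpen
    exact cpb h2 h3 h4 hN hb hL hp hd (mono (k2 y) o inter_subset_left)
      (mono (k2 y') o inter_subset_right) ⟨(interior_subset hz).2, (interior_subset hz').2⟩
      ((e y z hz).mono fun _ h => h.1) ((e y' z hz').mono fun _ h => h.1)
  · obtain ⟨y, hz, h0⟩ := hz
    exact sub hb hL hp (k2 y) (interior_subset hz).2 ((e y z hz).mono fun _ h => h.1) h0

end Vale.Agent.P277Z.GH.Dom
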