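import Vale.Agent.P277Z.GH.DomSk
import Vale.Agent.P277Z.Lbd.Cop
import Mathlib.Algebra.Module.Submodule.Union
import Mathlib.RingTheory.UniqueFactorizationDomain.GCDMonoid

/-!
# P277, block GH: division by the greatest common divisor
-/

open scoped Manifold ContDiff Topology
open Vale.Agent.P272.K Set Filter UniqueFactorizationMonoid

noncomputable section

namespace Vale.Agent.P277Z.GH.Dom

theorem Gcd.alg {R κ : Type} [CommRing R] [IsDomain R] [UniqueFactorizationMonoid R] [Algebra ℂ R]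
    [Fintype κ] (g : κ → R) {l₁ : κ} (h : g l₁ ≠ 0) : ∃ (d : R) (g' : κ → R) (c : κ → ℂ),
      (∀ l, g l = d * g' l) ∧ IsRelPrime (g' l₁) (∑ l, algebraMap ℂ R (c l) * g' l) := by
  classical
  let _ : StrongNormalizationMonoid R := UniqueFactorizationMonoid.strongNormalizationMonoid
  let _ := toNormalizedGCDMonoid R
  obtain ⟨g', h1, h2⟩ := Finset.extract_gcd g (s := Finset.univ) ⟨l₁, Finset.mem_univ _⟩
  have h3 : g' l₁ ≠ 0 := fun e => h (by rw [h1 l₁ (Finset.mem_univ _), e, mul_zero])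
  obtain ⟨c, hc⟩ := Submodule.exists_forall_notMem_of_forall_ne_top
    (fun p : (factors (g' l₁)).toFinset => ((Ideal.span {p.1}).restrictScalars ℂ).comap
      (Fintype.linearCombination ℂ g')) fun p e => by
    refine (prime_of_factor _ (Multiset.mem_toFinset.1 p.2)).not_dvd_one
      (h2 ▸ Finset.dvd_gcd fun l _ => Ideal.mem_span_singleton.1 ?_)
    simpa using Submodule.eq_top_iff'.1 e (Pi.single l 1)
  refine ⟨_, g', c, fun l => h1 l (Finset.mem_univ _),
    (isRelPrime_iff_no_prime_factors h3).2 fun p a b hp => ?_⟩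
  obtain ⟨q, hq, e⟩ := exists_mem_factors_of_dvd h3 hp.irreducible a
  refine hc ⟨q, Multiset.mem_toFinset.2 hq⟩ (Ideal.mem_span_singleton.2 (e.symm.dvd.trans ?_))
  simpa only [Fintype.linearCombination_apply, Algebra.smul_def] using b

theorem Gcd.gW_sum {W κ : Type} [TopologicalSpace W] [ChartedSpace (Cm 4) W] {e : Chart 4 W} {x : W}
    (he : At e x) (s : Finset κ) {f : κ → W → ℂ} (h : ∀ l, Hol 4 (f l) x) :
    gW e x (fun y => ∑ l ∈ s, f l y) = ∑ l ∈ s, gW e x (f l) := by
  classical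
  induction s using Finset.induction_on with
  | empty => simpa using gW_const e x 0
  | insert a s ha ih =>
    simp only [Finset.sum_insert ha]
    rw [gW_add he (h a) (Hol.sum s fun l _ => h l), ih]

theorem stGcd : StGcd := by
  intro W _ _ _ κ _ f y hf h0
  have he := at_chart (n := 4) y
  obtain ⟨l₁, h1⟩ : ∃ l, Nz (f l) y := not_forall.1 fun e => h0 (eventually_all.2 e)
  obtain ⟨d, g, c, h2, h3⟩ := Gcd.alg (fun l => gW (chartAt (Cm 4) y) y (f l))
    ((gW_ne_zero he (hf l₁)).2 h1)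
  obtain ⟨d, hd, rfl⟩ := gW_surj he d
  choose f' hf' e using fun l => gW_surj he (g l)
  have h4 : ∀ᶠ x in 𝓝 y, ∀ l, f l x = d x * f' l x := eventually_all.2 fun l =>
    (gW_eq_iff he (hf l) (hd.mul (hf' l))).1 (by rw [gW_mul he hd (hf' l), e, h2])
  have h5 : Nz (f' l₁) y := fun k => h1 (by
    filter_upwards [k, h4] with x a b using by rw [b, a, mul_zero])
  have h6 : Hol 4 (fun x => ∑ l, c l * f' l x) y :=
    Hol.sum _ fun l _ => (hol_const _ y).mul (hf' l)
  have h7 : Cop 4 (fun x => ∑ l, c l * f' l x) (f' l₁) y := (cop_iff he h6 (hf' l₁) h5).2 (by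
    simpa only [Gcd.gW_sum he _ fun l => (hol_const (c l) y).mul (hf' l),
      fun l => gW_mul he (hol_const (c l) y) (hf' l), gW_const, e] using h3)
  refine ⟨d, f', hd, hf', ?_⟩
  filter_upwards [h4, h7.near h6 (hf' l₁) h5, h6.near, (hf' l₁).near, h5.near (hf' l₁)]
    with x a1 a2 a3 a4 a5
  exact ⟨a1, fun b hb b0 k => a2.not_zero a3 a4 a5 hb b0
    (k.mono fun z hz c => ⟨hz c l₁, by simp [hz c]⟩)⟩

end Vale.Agent.P277Z.GH.Dom
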