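import Vale.Agent.P277Z.GH.DomSk
import Vale.Agent.P277Z.Glc.NLift
import Vale.Agent.P277Z.Val.Snc
import Vale.Agent.P277Z.Pj.Nrm
import Vale.Agent.P277Z.Pj.Stb

/-!
# P277, block GH: the lift of a principalization to a projective modification
-/

open scoped Manifold ContDiff Topology
open Vale.Agent.P277 hiding Amin IsFlipR
open Vale.Agent.P272.K Vale.Agent.P285.H281.FD Set Filter
open Vale.Agent.P277.PH (HolF)
open Vale.Agent.P277Z.Val Vale.Agent.P277Z.St
open Vale.Agent.P277Z.Val.U (exists_ch eqs freq_notE closed_E)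

noncomputable section

namespace Vale.Agent.P277Z.GH.Dom

/-- compact manifolds are normal -/
theorem normal_X (V : Lg) (h : Nonempty V.W) : IsNormal 4 V.X := by
  have h1 : Pj.Stein 4 V.X (fun w : V.W => w) :=
    ⟨⟨continuous_id, fun _ _ hg => hg⟩, fun y => ⟨y, rfl⟩, fun y f hf =>
      ⟨f, hf y rfl, fun _ _ => .of_forall fun _ => rfl⟩⟩
  have h2 : ∀ w, Pj.ImmTo 4 V.X (fun w : V.W => w) w := fun w => by
    have he : At (chartAt (Cm 4) w) w := ⟨chart_mem_atlas _ _, mem_chart_source _ _⟩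
    exact ⟨4, chartAt (Cm 4) w, fun a e' he' => analyticAt_pi_iff.1 (Pj.holV_chart he e' he') a,
      Pj.imm_chart he⟩
  exact (@Pj.nrm_of Pj.stb 2 V.W V.top V.t2 V.cpt V.ch V.mf h V.X _ h1
    fun w => subset_closure (h2 w)).1

namespace Lf

theorem isAn_union (V : Lg) {B : Set V.W} (hB : IsAn V.X univ B) : IsAn V.X univ (B ∪ V.E) := by
  intro y hy
  obtain ⟨k, f, h1, h2⟩ := hB y hy
  obtain ⟨c, ξ, lab, h⟩ := exists_ch V y
  refine ⟨k, fun i y' => f i y' * ∏ l, eqs c lab l y', fun i =>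
    hol_mul (h1 i) (hol_prod (X := V.X) _ fun l _ => h.holF l), ?_⟩
  filter_upwards [h2, h.eqs_zero] with y' e1 e2
  have e3 : y' ∈ V.E ↔ ∏ l, eqs c lab l y' = 0 := mem_iUnion.trans <| by
    simp only [Finset.prod_eq_zero_iff, Finset.mem_univ, true_and]
    exact exists_congr fun l => (e2 l).symm
  refine (or_congr e1 e3).trans ?_
  by_cases e4 : ∏ l, eqs c lab l y' = 0 <;> simp [e4]

/-- a section of a bimeromorphic map is holomorphic off the exceptional set -/
theorem holMap_sec {X X' Y : CSp} {g : X'.pt → X.pt} {A : Set X.pt} (H : IsBim X' X g A)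
    {h : Y.pt → X.pt} {σ : Y.pt → X'.pt} (hσ : ∀ y, g (σ y) = h y) {y : Y.pt}
    (hh : HolMap Y X h y) (hy : h y ∉ A) : HolMap Y X' σ y := by
  have hy' : g (σ y) ∉ A := (hσ y).symm ▸ hy
  have h1 : ContinuousAt σ y := fun U hU => by
    obtain ⟨U', a, b, c⟩ := mem_nhds_iff.1 hU
    obtain ⟨T, hT, d, e⟩ := exists_nhds_preimage_subset H.cont b (z := h y) fun v hv =>
      H.inj _ v hy' (hv.trans (hσ y).symm) ▸ c
    exact mem_map.2 <| mem_of_superset (hh.1 (hT.mem_nhds d)) fun w hw =>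
      a (e (show g (σ w) ∈ T from (hσ w).symm ▸ hw))
  refine ⟨h1, fun f hf => ?_⟩
  obtain ⟨k, hk, e⟩ := H.iso _ f hy' hf
  exact hol_congr (hh.2 k (hσ y ▸ hk)) ((h1.eventually e).mono fun w hw =>
    hw.trans (congrArg k (hσ w)))

end Lf

theorem stLift : StLift := by
  intro X X' g A L V V' p π I a H hL hG hne hπ hh hd hM
  have hc : Continuous fun y => p (π y) := continuous_iff_continuousAt.2 fun y => (hh y).1
  choose σ hσ using fun y : V'.W => H.surj (p (π y))
  have hA : IsAn V'.X univ ((fun y => p (π y)) ⁻¹' A) := H.an.preimage hh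
  have hdE : Dense ((fun y => p (π y)) ⁻¹' A ∪ V'.E)ᶜ := by
    rw [compl_union]
    exact hd.inter_of_isOpen_right (fun y => mem_closure_iff_frequently.2 (freq_notE V' y))
      (closed_E V').isOpen_compl
  obtain ⟨q, hq, e⟩ := Glc.holMap_ext (Y := V'.X) (normal_X V' hne) (Lf.isAn_union V' hA) hdE
    (g := σ) (fun y hy => Lf.holMap_sec H hσ (hh y) fun h => hy (Or.inl h)) fun y : V'.W => by
      obtain ⟨γ, hγ⟩ := I.cover (π y)
      obtain ⟨c, ξ, lab, hch⟩ := exists_ch V' y
      obtain ⟨u, hu, ⟨k, hk⟩, hu'⟩ := hM y γ _ hγ hch.eq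
      obtain ⟨U, s, hs, hfin, hpar⟩ := hG.sys γ
      refine (hfin _ (hpar _ hγ).1 (fun k => u k y) fun h => hk (congrFun h k)).subset
        fun x hx => ?_
      have hgx : g x = p (π y) := by
        have h1 := MapClusterPt.continuousAt_comp (f := g) H.cont.continuousAt hx
        exact eq_of_nhds_neBot (ClusterPt.mono h1
          (hc.continuousWithinAt.tendsto.congr fun w => (hσ w).symm))
      obtain ⟨i, hi⟩ := hL.cover x
      refine ⟨hgx, i, hi, fun l m => ?_⟩
      set F := 𝓝[((fun y => p (π y)) ⁻¹' A ∪ V'.E)ᶜ] y ⊓ comap σ (𝓝 x) with hF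
      have hb : NeBot F := neBot_inf_comap_iff_map.2 (by rw [inf_comm]; exact hx)
      have t1 : F ≤ 𝓝 y := inf_le_left.trans nhdsWithin_le_nhds
      have t2 : Tendsto σ F (𝓝 x) := tendsto_iff_comap.2 inf_le_right
      have t3 : ∀ l m, Tendsto (fun y' => u l y' * s m i (σ y')) F (𝓝 (u l y * s m i x)) :=
        fun l m => ((holF_cont (hu l)).mono_left t1).mul
          ((hol_continuousAt ((hs.sec m).1 i x (show g x ∈ U from hgx ▸ (hpar _ hγ).1)
            hi)).tendsto.comp t2)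
      refine tendsto_nhds_unique_of_eventuallyEq (t3 l m) (t3 m l) ?_
      have t4 : ∀ᶠ y' in F, y' ∈ ((fun y => p (π y)) ⁻¹' A ∪ V'.E)ᶜ :=
        eventually_mem_nhdsWithin.filter_mono inf_le_left
      filter_upwards [t4, t1 hu', t1 hch.eqs_zero,
        t1 (hπ.continuousAt.eventually ((I.isOpen γ).mem_nhds hγ)),
        t2.eventually ((hL.isOpen i).mem_nhds hi)] with y' e1 e2 e3 e4 e5
      have e6 : ∏ j, eqs c lab j y' ^ a j ≠ 0 := Finset.prod_ne_zero_iff.2 fun j _ =>
        pow_ne_zero _ fun h => e1 (Or.inr (mem_iUnion.2 ⟨j, (e3 j).1 h⟩))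
      have e7 := (hpar _ e4).2 (σ y') i (hσ y') (fun h => e1 (Or.inl h)) e5 l m
      simp only [e2 l, e2 m] at e7
      refine mul_left_cancel₀ e6 ?_
      linear_combination e7
  refine ⟨q, hq, fun v => congrFun (Continuous.ext_on hdE
    (H.cont.comp (continuous_iff_continuousAt.2 fun v => (hq v).1)) hc fun y hy => ?_) v⟩
  exact (congrArg g (e y hy)).trans (hσ y)

end Vale.Agent.P277Z.GH.Dom
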