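import Vale.Agent.P277Z.GH.DomSk
import Vale.Agent.P277Z.Luf.Hol
import Vale.Agent.P277.A.Dim

/-!
# P277, block GH: primitive families which are proportional to a system of sections
-/

set_option linter.all false

open scoped Manifold ContDiff Topology
open Vale.Agent.P277 hiding Amin IsFlipR
open Vale.Agent.P272.K Vale.Agent.P285.H281.FD Set Filter
open Vale.Agent.P277.PH (HolF)
open Vale.Agent.P277Z.Val Vale.Agent.P277Z.St

noncomputable section

namespace Vale.Agent.P277Z.GH.Dom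

theorem PrtH.nz_ball {n : ℕ} {W : Type} [TopologicalSpace W] [ChartedSpace (Cm n) W] {y : W}
    {O : Set W} (hO : O ∈ 𝓝 y) :
    ∀ᶠ y₁ in 𝓝 y, ∀ a : W → ℂ, (∀ z ∈ O, Hol n a z) → a y₁ ≠ 0 → Nz a y := by
  have he := at_chart (n := n) y
  set e := chartAt (Cm n) y
  obtain ⟨r, hr, hb⟩ := Metric.eventually_nhds_iff_ball.1 (((At.tendsto_symm he).eventually
    (show ∀ᶠ z in 𝓝 y, z ∈ O from hO)).and (e.open_target.eventually_mem (e.map_source he.2)))
  filter_upwards [At.left he, (e.continuousAt he.2).eventually (Metric.ball_mem_nhds _ hr)]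
    with y₁ h1 h2 a ha h3 h4
  refine h3 (h1 ▸ AnalyticOnNhd.eqOn_zero_of_preconnected_of_eventuallyEq_zero
    (𝕜 := ℂ) (f := fun z => a (e.symm z)) (fun z hz => ?_) (convex_ball _ _).isPreconnected
    (Metric.mem_ball_self hr) ((At.ev he (p := fun y => a y = 0)).2 h4) h2)
  have := ha _ (hb z hz).1 e ⟨he.1, e.map_target (hb z hz).2⟩
  rwa [e.right_inv (hb z hz).2] at this

/-- ROW PRT -/
theorem prt_of (h1 : StMer) (h2 : StGcd) : StPrt := by
  intro X X' g A L U κ _ s hN hB hL hS V p hp hd y hy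
  obtain ⟨U₀, u1, u2, u3⟩ := h1 X X' g A L U κ s hN hB hL hS _ hy
  have pc : Continuous p := continuous_iff_continuousAt.2 fun y => (hp y).1
  have hO : p ⁻¹' (U₀ ∩ U) ∈ 𝓝 y := ((u1.inter hS.isOpen).preimage pc).mem_nhds ⟨u2, hy⟩
  obtain ⟨y₁, k1, k2, k3⟩ := ((mem_closure_iff_frequently.1 (hd y)).and_eventually
    ((PrtH.nz_ball (n := 4) hO).and hO)).exists
  obtain ⟨D, f, m, d1, d2, d3⟩ := u3 _ k3.1 k1
  have a1 : ∀ z ∈ p ⁻¹' (U₀ ∩ U), Hol 4 (D ∘ p) z := fun z hz => (hp z).2 _ (d1 _ hz.1).1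
  have a2 := k2 _ a1 d2
  have a3 := a1 y (mem_of_mem_nhds hO)
  obtain ⟨d, F, -, f1, f2⟩ := h2 V.W κ (fun l => f l ∘ p) y
    (fun l => (hp y).2 _ ((d1 _ u2).2 l)) fun h => by
      obtain ⟨z, z1, z2, z3⟩ := ((a2.gen a3).and (gen_of_nhds (h.and hO))).exists
      obtain ⟨x, hx⟩ := hB.surj (p z)
      obtain ⟨i, hi⟩ := hL.cover x
      obtain ⟨l, hl⟩ := hS.nz x i (hx ▸ z3.2) hi
      have := d3 x i l (hx ▸ z3.1) hi
      rw [hx, show f l (p z) = 0 from z2 l, mul_zero] at this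
      exact mul_ne_zero z1 hl this
  refine ⟨F, ?_⟩
  filter_upwards [eventually_all.2 fun l => Hol.near (n := 4) (f1 l), f2, f2.eventually_nhds,
    a2.near a3, eventually_mem_nhds_iff.2 hO] with z z1 z2 z3 z4 z5
  refine ⟨z1, z2.2, fun x i hx hA hi l l' => ?_⟩
  have z6 := mem_of_mem_nhds z5
  let σ : V.W → X'.pt := fun w => Function.surjInv hB.surj (p w)
  have s1 : ∀ w, g (σ w) = p w := fun w => Function.surjInv_eq _ _
  have s2 : σ z = x := hB.inj x _ (hx ▸ hA) ((s1 z).trans hx.symm)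
  have s3 : ContinuousAt σ z := by
    rw [ContinuousAt, s2]
    refine (nhds_basis_opens x).tendsto_right_iff.2 fun O hO => ?_
    obtain ⟨O', o1, o2, o3⟩ := exists_nhds_preimage_subset hB.cont (z := p z) hO.2 fun x' h =>
      hB.inj x x' (hx ▸ hA) ((show g x' = p z from h).trans hx.symm) ▸ hO.1
    filter_upwards [(o1.preimage pc).mem_nhds o2] with w hw
    exact o3 (show g (σ w) ∈ O' by rw [s1]; exact hw)
  have s4 : ∀ l, ContinuousAt (fun w => s l i (σ w)) z := fun l =>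
    ContinuousAt.comp_of_eq (hol_continuousAt ((hS.sec l).holo i x
      (show g x ∈ U from hx ▸ z6.2) hi)) s3 s2
  rw [← s2]
  refine eq_of_gen (a := fun w => F l w * s l' i (σ w)) (b := fun w => F l' w * s l i (σ w))
    ((z1 l).cont.mul (s4 l')) ((z1 l').cont.mul (s4 l)) ?_
  filter_upwards [z4.gen (a1 z z6), gen_of_nhds (z3.and (Eventually.and z5
    (s3.eventually ((hL.isOpen i).eventually_mem (s2 ▸ hi)))))] with w w1 ⟨w2, w3, w4⟩
  have e1 := d3 (σ w) i l (s1 w ▸ w3.1) w4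
  have e2 := d3 (σ w) i l' (s1 w ▸ w3.1) w4
  rw [s1, show f _ (p w) = _ from w2.1 _] at e1 e2
  refine mul_left_cancel₀ (show D (p w) ≠ 0 from w1) ?_
  linear_combination F l w * e2 - F l' w * e1

end Vale.Agent.P277Z.GH.Dom
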