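import Vale.Agent.P277Z.GH.DomSk

/-!
# P277, block GH: finite systems of sections, comparison of their norms
-/

open scoped Manifold ContDiff Topology
open Vale.Agent.P277 hiding Amin IsFlipR
open Vale.Agent.P272.K Vale.Agent.P285.H281.FD Set Filter

noncomputable section

namespace Vale.Agent.P277Z.GH.Dom

/-- ROW UNI -/
theorem stUni : StUni := by
  intro X X' g P hP hA
  choose V k N s hV hz hk hs h0 hsep _ using hA
  obtain ⟨t, ht⟩ := isCompact_univ.elim_finite_subcover V hV fun z _ => mem_iUnion.2 ⟨z, hz z⟩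
  refine ⟨P.pow (∏ z ∈ t, k z), ⟨hP.isOpen, hP.cover, fun i j x hi hj =>
    hol_pow (hP.holo i j x hi hj) _, fun i j x hi hj => pow_ne_zero _ (hP.ne_zero i j x hi hj),
    fun i j l x hi hj hl => (mul_pow _ _ _).symm.trans
      (congrArg (· ^ _) (hP.cocycle i j l x hi hj hl))⟩, fun x => ?_⟩
  obtain ⟨z, hzt, hx⟩ := mem_iUnion₂.1 (ht (mem_univ x))
  obtain ⟨e, he⟩ := Finset.dvd_prod_of_mem k hzt
  have he0 : 0 < e := Nat.pos_of_ne_zero fun h =>
    (Finset.prod_ne_zero_iff.2 fun z _ => Nat.one_le_iff_ne_zero.1 (hk z)) (by rw [he, h, mul_zero])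
  refine ⟨V z, N z + 1, fun l i y => s z l i y ^ e, hx, ⟨hV z, fun l =>
    ⟨fun i y hy hi => hol_pow ((hs z l).holo i y hy hi) e, fun i j y hy hi hj => ?_⟩,
    fun y i hy hi => (h0 z y i hy hi).imp fun l hl => pow_ne_zero _ hl⟩, fun x hx c hc => ?_⟩
  · show s z l i y ^ e = P.g i j y ^ (∏ z ∈ t, k z) * s z l j y ^ e
    rw [(hs z l).change i j y hy hi hj, he, pow_mul, mul_pow]
    rfl
  · obtain ⟨m, hm⟩ := Function.ne_iff.1 hc
    have hm' : c m ≠ 0 := hm
    choose ι hι using hP.cover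
    have h1 : ∀ x', g x' = x → (∃ i, x' ∈ P.U i ∧ Par c fun l => s z l i x' ^ e) →
        s z m (ι x') x' ≠ 0 ∧ ∀ l, (s z l (ι x') x' / s z m (ι x') x') ^ e = c l / c m := by
      rintro x' rfl ⟨i, hi, h2⟩
      obtain ⟨l₀, h3⟩ := h0 z x' i hx hi
      have h4 : s z m i x' ≠ 0 := fun h => mul_ne_zero hm' (pow_ne_zero e h3) (by
        rw [← h2 l₀ m]
        simp [h, he0.ne'])
      have h5 := pow_ne_zero (k z) (hP.ne_zero _ i x' (hι x') hi)
      refine ⟨by rw [(hs z m).change _ i x' hx (hι x') hi]; exact mul_ne_zero h5 h4, fun l => ?_⟩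
      rw [(hs z m).change _ i x' hx (hι x') hi, (hs z l).change _ i x' hx (hι x') hi]
      refine (congrArg (· ^ e) (mul_div_mul_left _ _ h5)).trans ?_
      rw [div_pow, div_eq_div_iff (pow_ne_zero e h4) hm', mul_comm]
      exact (h2 l m).symm
    refine Set.Finite.of_injOn (f := fun x' l => s z l (ι x') x' / s z m (ι x') x')
      (t := {a | ∀ l, a l ∈ {b : ℂ | b ^ e = c l / c m}}) (fun x' hx' => (h1 x' hx'.1 hx'.2).2)
      (fun x₁ h₁ x₂ h₂ h => ?_) (Set.Finite.pi' fun l =>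
        (Polynomial.nthRoots e (c l / c m)).toFinset.finite_toSet.subset fun b hb => by
          simpa [Polynomial.mem_nthRoots he0] using hb)
    by_contra hne
    obtain ⟨l, l', h2⟩ := hsep z x₁ x₂ _ _ (h₁.1 ▸ hx) (h₂.1.trans h₁.1.symm) (Ne.symm hne)
      (hι x₁) (hι x₂)
    have h3 := (h1 x₁ h₁.1 h₁.2).1
    have h4 := (h1 x₂ h₂.1 h₂.2).1
    have h5 := (div_eq_div_iff h3 h4).1 (congrFun h l)
    have h6 := (div_eq_div_iff h3 h4).1 (congrFun h l')
    refine h2 (mul_left_cancel₀ (mul_ne_zero h3 h4) ?_)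
    linear_combination (s z m (ι x₁) x₁ * s z l' (ι x₂) x₂) * h5 -
      (s z m (ι x₁) x₁ * s z l (ι x₂) x₂) * h6

/-- ROW CMP -/
theorem stCmp : StCmp := by
  intro X X' g L U κ κ' _ _ s s' hg hL hs hs' x hx
  have hF : IsCompact (g ⁻¹' {x}) := (isClosed_singleton.preimage hg).isCompact
  let T : ℕ → Set X'.pt := fun C =>
    {y | ∀ i, y ∈ L.U i → ∑ l, ‖s l i y‖ ≤ C * ∑ l, ‖s' l i y‖}
  have hT : Monotone fun C => interior (T C) := fun C C' h => interior_mono fun y hy i hi =>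
    (hy i hi).trans (mul_le_mul_of_nonneg_right (Nat.cast_le.2 h)
      (Finset.sum_nonneg fun _ _ => norm_nonneg _))
  obtain ⟨C, hC⟩ := hF.elim_directed_cover (fun C => interior (T C)) (fun _ => isOpen_interior)
    (fun y hy => by
      have hy' : g y ∈ U := by rw [show g y = x from hy]; exact hx
      obtain ⟨i, hi⟩ := hL.cover y
      obtain ⟨l₀, h0⟩ := hs'.nz y i hy' hi
      have h1 : 0 < ∑ l, ‖s' l i y‖ := Finset.sum_pos' (fun _ _ => norm_nonneg _)
        ⟨l₀, Finset.mem_univ _, norm_pos_iff.2 h0⟩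
      obtain ⟨C, hC⟩ := exists_nat_gt ((∑ l, ‖s l i y‖) / ∑ l, ‖s' l i y‖)
      rw [div_lt_iff₀ h1] at hC
      have h2 : ContinuousAt (fun y => ∑ l, ‖s l i y‖) y := tendsto_finsetSum _ fun l _ =>
        (hol_continuousAt ((hs.sec l).holo i y hy' hi)).norm
      have h3 : ContinuousAt (fun y => ∑ l, ‖s' l i y‖) y := tendsto_finsetSum _ fun l _ =>
        (hol_continuousAt ((hs'.sec l).holo i y hy' hi)).norm
      refine mem_iUnion.2 ⟨C, mem_interior_iff_mem_nhds.2 ?_⟩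
      filter_upwards [h2.eventually_lt (continuousAt_const.mul h3) hC, (hL.isOpen i).mem_nhds hi,
        hg.continuousAt.eventually (hs.isOpen.mem_nhds hy')] with y' h4 h5 h6 j hj
      simp only [fun l => (hs.sec l).change j i y' h6 hj h5,
        fun l => (hs'.sec l).change j i y' h6 hj h5, norm_mul, ← Finset.mul_sum]
      rw [mul_left_comm]
      exact mul_le_mul_of_nonneg_left h4.le (norm_nonneg _)) hT.directed_le
  refine ⟨((C + 1 : ℕ) : ℝ), Nat.cast_pos.2 C.succ_pos, ?_⟩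
  filter_upwards [hg.isClosedMap.eventually_nhds_fiber (p := fun y => y ∈ T (C + 1)) x fun y hy =>
    mem_interior_iff_mem_nhds.1 (hT C.le_succ (hC hy))] with x₂ h1 x' i h2 h3
  exact h1 x' h2 i h3

end Vale.Agent.P277Z.GH.Dom
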