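import Vale.Agent.P277Z.GH.DomAs
import Vale.Agent.P277Z.GH.DomCpb
import Vale.Agent.P277Z.GH.DomFam
import Vale.Agent.P277Z.GH.DomGcd
import Vale.Agent.P277Z.GH.DomLift
import Vale.Agent.P277Z.GH.DomPrt
import Vale.Agent.P277Z.GH.DomUni

/-!
# P277, block GH: domination of a projective modification
-/

namespace Vale.Agent.P277Z.GH

open Dom in
theorem dom_of (h1 : StRes0) (h2 : StPrin) (h3 : StComp) (h4 : Val.StHom) : StDom :=
  dom_as (famD_of stUni (prt_of (mer_of h1) stGcd) stCmp stCpb) stLift h2 h3 h4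

end Vale.Agent.P277Z.GH
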