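import Vale.Agent.P277Z.GH.DomMer

/-!
# P277, block GH: domination of a projective modification (assembly)
-/

open scoped Manifold ContDiff Topology
open Vale.Agent.P277 hiding Amin IsFlipR
open Vale.Agent.P272.K Vale.Agent.P285.H281.FD Set Filter
open Vale.Agent.P277.PH (HolF)
open Vale.Agent.P277Z.Val Vale.Agent.P277Z.St

noncomputable section

namespace Vale.Agent.P277Z.GH.Dom

theorem zero_of_mem {X : CSp} {I : Fam X} {x : X.pt} (h : x ∈ I.Z) {γ} (hγ : x ∈ I.O γ) (l) :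
    I.f γ l x = 0 := by
  obtain ⟨γ', h1, h2⟩ := h
  obtain ⟨C, -, h3⟩ := I.cpb γ γ' x hγ h1
  have h4 := h3.self_of_nhds.1
  simp only [h2, norm_zero, Finset.sum_const_zero, mul_zero] at h4
  exact norm_le_zero_iff.1
    ((Finset.single_le_sum (fun k _ => norm_nonneg (I.f γ k x)) (Finset.mem_univ l)).trans h4)

/-- the old components are mapped to the old divisor -/
theorem img_old {V V' : Lg} {π : V'.W → V.W} {new : Finset (Fin V'.r)} {I : Fam V.X}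
    (hπ : Res V' V.X π new) (hI : ∀ γ, ∀ y ∈ I.O γ, Prim (W := V.W) (I.f γ) y)
    (hE : ∀ y ∈ V'.E, π y ∈ V.E ∨ π y ∈ I.Z) {k : Fin V'.r} (hk : k ∉ new) :
    π '' V'.G k ⊆ V.E := by
  rintro _ ⟨y, hy, rfl⟩
  by_contra h
  have hc : Continuous π := hπ.cont
  have ho := (U.closed_E V).isOpen_compl.preimage hc
  obtain ⟨y₁, h1, h2⟩ := ((U.freq_gen hy).and_eventually (ho.mem_nhds h)).exists
  have h3 : y₁ ∈ (⋃ l ∈ new, V'.G l)ᶜ := fun e =>
    let ⟨l, a, b⟩ := mem_iUnion₂.1 e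
    h1.2 l (fun e => hk (e ▸ a)) b
  obtain ⟨c, ξ, lab, hc'⟩ := U.exists_ch V' y₁
  obtain ⟨ζ, h4, h5⟩ := Mer.emb_desc hπ.emb h3 (hc'.holF k)
  obtain ⟨γ, hγ⟩ := I.cover (π y₁)
  refine hI γ _ hγ ζ h4 (h5.self_of_nhds.symm.trans ((hc'.eqs_zero.self_of_nhds k).2 h1.1)) ?_
  refine (hπ.emb.map_nhds h3).ge (eventually_map.2 ?_)
  filter_upwards [h5, hc'.eqs_zero, ho.mem_nhds h2, ((I.isOpen γ).preimage hc).mem_nhds hγ]
    with y' e1 e2 e3 e4 e5
  exact zero_of_mem ((hE y' (mem_iUnion.2 ⟨k, (e2 k).1 (e1.trans e5)⟩)).resolve_left e3) e4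

theorem dense_res {V : Lg} {X : CSp} {p : V.W → X.pt} {exc} (h : Res V X p exc) {S : Set X.pt}
    (hS : Dense S) : Dense (p ⁻¹' S) :=
  (Mer.dense_pre h.emb (Mer.dense_exc V exc) hS).mono inter_subset_right

/-- the lift is bimeromorphic -/
theorem bim_lift {V : Lg} {X X' : CSp} {g : X'.pt → X.pt} {A : Set X.pt} {p : V.W → X.pt} {exc}
    {q : V.W → X'.pt} (hg : IsBim X' X g A) (hp : Res V X p exc) (hq : ∀ y, HolMap V.X X' q y)
    (e : ∀ y, g (q y) = p y) : IsBim V.X X' q (g ⁻¹' (p '' ⋃ l ∈ exc, V.G l)) := by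
  have hc : Continuous q := continuous_iff_continuousAt.2 fun y => (hq y).1
  have h1 : ∀ y, q y ∉ g ⁻¹' (p '' ⋃ l ∈ exc, V.G l) → y ∈ (⋃ l ∈ exc, V.G l)ᶜ :=
    fun y h k => h ⟨y, k, (e y).symm⟩
  refine ⟨hc, fun x => (hq x).2, fun x => ?_,
    IsAn.preimage (fun x => ⟨hg.cont.continuousAt, hg.holo x⟩) hp.an,
    (Mer.dense_exc V exc).mono (compl_subset_compl.2 fun y ⟨y', k1, k2⟩ =>
      by_contra fun hy => hy (hp.inj y y' hy (k2.trans (e y)) ▸ k1)),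
    fun x x' k1 k2 => hp.inj x x' (h1 x k1) (((e x').symm.trans (congrArg g k2)).trans (e x)),
    fun x h k1 k2 => ?_⟩
  · refine (isCompact_range hc).isClosed.closure_subset_iff.2 (fun x hx => ?_) (hg.dense x)
    obtain ⟨y, hy⟩ := hp.surj (g x)
    exact ⟨y, hg.inj x _ hx ((e y).trans hy)⟩
  · obtain ⟨h', k3, k4⟩ := Mer.emb_desc hp.emb (h1 x k1) k2
    exact ⟨h' ∘ g, hg.holo _ _ ((e x).symm ▸ k3),
      k4.mono fun y k => k.trans (congrArg h' (e y).symm)⟩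

theorem dom_as (h1 : StFamD) (h2 : StLift) (h3 : StPrin) (h4 : StComp) (h5 : Val.StHom) :
    StDom := by
  intro X X' g A P hX hX' hg hP hA V p exc hp
  have hd : Dense Aᶜ := hg.surj.denseRange.dense_of_mapsTo hg.cont hg.dense fun _ h => h
  obtain ⟨L, I, hL, hI⟩ := h1 X X' g A P hX' hg hP hA V p
    (fun y => ⟨hp.cont.continuousAt, hp.hol y⟩) (dense_res hp hd)
  obtain ⟨V', π, new, hπ, hE, hn, hm⟩ := h3 V (res_ne hp) 1 (fun _ => I)
    fun _ => (dense_res hp hd).mono (compl_subset_compl.2 hI.sub)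
  obtain ⟨exc', hp', he⟩ := h4 V' V X π p new exc hX hπ hp fun y k => (hE y).2 (.inl k)
  obtain ⟨a, ha⟩ := hm 0
  obtain ⟨q, hq, e⟩ := h2 X X' g A L V V' p π I a hg hL hI (res_ne hπ) hπ.cont
    (fun y => ⟨hp'.cont.continuousAt, hp'.hol y⟩) (dense_res hp' hd) ha
  refine ⟨V', π, q, new, exc', hπ, h5 V' V X p π exc exc' hX hp hp' hπ.cont
    (fun y e' e k1 k2 => analyticAt_pi_iff.2 fun i =>
      hπ.hol y (fun z => e z i) (holF_chart k2 i) e' k1)
    (fun y k => (hE y).2 (.inl k)) fun k hk => img_old hπ hI.prim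
      (fun y k => ((hE y).1 k).imp_right fun ⟨_, k⟩ => k) fun k' => hk ((he k).2 (.inl k')),
    hp', hq, e, fun l k y k' => .inl ?_, bim_lift hg hp' hq e⟩
  obtain ⟨_, k1⟩ := hn l k y k'
  exact hI.sub k1

end Vale.Agent.P277Z.GH.Dom
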