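import Vale.Agent.P277Z.Oka.All

/-!
# P277, block GH: analytic cones whose general fibres are lines
-/

open Filter Topology Set Matrix

noncomputable section

namespace Vale.Agent.P277Z.GH.Dom.MerA

open Vale.Agent.P277Z.Oka

variable {E : Type} [NormedAddCommGroup E] [NormedSpace ℂ E] {κ : Type} [Fintype κ]
  [DecidableEq κ]

theorem an_det {A : E → Matrix κ κ ℂ} {x : E} (h : ∀ i j, AnalyticAt ℂ (fun y => A y i j) x) :
    AnalyticAt ℂ (fun y => (A y).det) x := by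
  simp only [Matrix.det_apply']
  exact Finset.analyticAt_fun_sum _ fun σ _ => analyticAt_const.mul
    (Finset.analyticAt_fun_prod _ fun i _ => h _ _)

omit [DecidableEq κ] in
theorem line_deriv {g : E × (κ → ℂ) → ℂ} {y : E} (hg : DifferentiableAt ℂ g (y, 0)) (η : κ → ℂ) :
    HasDerivAt (fun c : ℂ => g (y, c • η)) (fderiv ℂ g (y, 0) (0, η)) 0 := by
  have h1 : HasDerivAt (fun c : ℂ => (y, c • η)) ((0 : E), η) 0 := by
    simpa using (hasDerivAt_const (0 : ℂ) y).prodMk ((hasDerivAt_id (0 : ℂ)).smul_const η)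
  exact HasFDerivAt.comp_hasDerivAt_of_eq 0 hg.hasFDerivAt h1 (by simp)

theorem lin_sum (L : E × (κ → ℂ) →L[ℂ] ℂ) (η : κ → ℂ) :
    ∑ l, L (0, Pi.single l 1) * η l = L (0, η) := by
  have h : ((0 : E), η) = ∑ l, η l • ((0 : E), (Pi.single l 1 : κ → ℂ)) := by
    refine Prod.ext (by simp [Prod.fst_sum]) ?_
    simp only [Prod.snd_sum, Prod.smul_snd]
    exact pi_eq_sum_univ' η
  rw [h, map_sum]
  exact Finset.sum_congr rfl fun l _ => by rw [map_smul, smul_eq_mul, mul_comm]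

theorem cone [FiniteDimensional ℂ E] {C : Set (E × (κ → ℂ))} {z : E} {m : ℕ}
    {h : Fin m → E × (κ → ℂ) → ℂ} (hh : ∀ i, AnalyticAt ℂ (h i) (z, 0))
    (hC : ∀ᶠ p in 𝓝 (z, (0 : κ → ℂ)), p ∈ C ↔ ∀ i, h i p = 0)
    (hc : ∀ y η (c : ℂ), (y, η) ∈ C → (y, c • η) ∈ C) :
    ∃ Ω : Set E, IsOpen Ω ∧ z ∈ Ω ∧ ∀ y₁ ∈ Ω, (y₁, 0) ∈ C → ∀ (k : κ) (n : κ → E → ℂ),
      (∀ l, AnalyticAt ℂ (n l) y₁) →
      (∀ᶠ p in 𝓝 (y₁, (0 : κ → ℂ)), p ∈ C → ∀ l, p.2 l = n l p.1 * p.2 k) →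
      ∃ (D : E → ℂ) (f : κ → E → ℂ), (∀ y ∈ Ω, AnalyticAt ℂ D y ∧ ∀ l, AnalyticAt ℂ (f l) y) ∧
        D y₁ ≠ 0 ∧ ∀ y ∈ Ω, ∀ η, (y, η) ∈ C → ∀ l, D y * η l = η k * f l y := by
  obtain ⟨q, g, h1, h2, h3⟩ := car_all (E × (κ → ℂ)) (Fin m) (z, 0) h hh
  have h4 := (eventually_all.2 fun i => (h1 i).eventually_analyticAt).and
    ((eventually_all.2 h2).and (hC.and h3))
  obtain ⟨T, hT, hTo, hzT⟩ := eventually_nhds_iff.1 h4
  have hι : Continuous fun y : E => (y, (0 : κ → ℂ)) := by fun_prop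
  have ha : ∀ y η, (y, 0) ∈ T → (y, η) ∈ C → ∀ i, fderiv ℂ (g i) (y, 0) (0, η) = 0 := by
    intro y η hy hη i
    have k1 : Tendsto (fun c : ℂ => (y, c • η)) (𝓝 0) (𝓝 (y, 0)) :=
      (show Continuous fun c : ℂ => (y, c • η) by fun_prop).tendsto' 0 _ (by simp)
    refine (line_deriv ((hT _ hy).1 i).differentiableAt η).unique
      ((hasDerivAt_const (0 : ℂ) (0 : ℂ)).congr_of_eventuallyEq ?_)
    filter_upwards [k1.eventually (hTo.mem_nhds hy)] with c k2
    exact (hT _ k2).2.1 i ((hT _ k2).2.2.1.1 (hc _ _ c hη))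
  refine ⟨_, hTo.preimage hι, hzT, fun y₁ hy₁ h0 k n hn hv => ?_⟩
  have hF : ∀ l, AnalyticAt ℂ (fun p : E × (κ → ℂ) => p.2 l - n l p.1 * p.2 k) (y₁, 0) := fun l =>
    (analyticAt_pi_iff.1 analyticAt_snd l).sub
      (((hn l).comp_of_eq analyticAt_fst rfl).mul (analyticAt_pi_iff.1 analyticAt_snd k))
  choose c hc1 hc2 using fun l => (hT _ hy₁).2.2.2 _ (hF l) (by
    filter_upwards [hv, hTo.mem_nhds hy₁] with p k1 k2 k3
    exact sub_eq_zero.2 (k1 ((hT _ k2).2.2.1.2 k3) l))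
  have hb : ∀ l η, ∑ i, c l i (y₁, 0) * fderiv ℂ (g i) (y₁, 0) (0, η) = η l - n l y₁ * η k := by
    intro l η
    have k1 : Tendsto (fun c : ℂ => (y₁, c • η)) (𝓝 0) (𝓝 (y₁, 0)) :=
      (show Continuous fun c : ℂ => (y₁, c • η) by fun_prop).tendsto' 0 _ (by simp)
    have k2 := HasDerivAt.fun_sum (u := Finset.univ) fun i _ =>
      (line_deriv (hc1 l i).differentiableAt η).mul
        (line_deriv ((hT _ hy₁).1 i).differentiableAt η)
    have k3 : HasDerivAt (fun c : ℂ => c * η l - n l y₁ * (c * η k)) (η l - n l y₁ * η k) 0 := by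
      simpa using ((hasDerivAt_id (0 : ℂ)).mul_const (η l)).fun_sub
        (((hasDerivAt_id (0 : ℂ)).mul_const (η k)).const_mul (n l y₁))
    have k4 : ∀ i, g i (y₁, 0) = 0 := fun i => (hT _ hy₁).2.1 i ((hT _ hy₁).2.2.1.1 h0)
    have k5 := (k2.congr_of_eventuallyEq (k1.eventually (hc2 l))).unique k3
    simpa only [zero_smul, k4, mul_zero, zero_add] using k5
  set M : E → Matrix κ κ ℂ := fun y => Matrix.of fun l l' => if l = k then
    (Pi.single k 1 : κ → ℂ) l' else ∑ i, c l i (y₁, 0) * fderiv ℂ (g i) (y, 0) (0, Pi.single l' 1)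
    with hM
  have hMv : ∀ y η l, (M y *ᵥ η) l =
      if l = k then η k else ∑ i, c l i (y₁, 0) * fderiv ℂ (g i) (y, 0) (0, η) := by
    intro y η l
    simp only [hM, mulVec, dotProduct, of_apply]
    split_ifs with e
    · simp [Pi.single_apply]
    · simp only [Finset.sum_mul, mul_assoc]
      rw [Finset.sum_comm]
      exact Finset.sum_congr rfl fun i _ => by rw [← Finset.mul_sum, lin_sum]
  have hMa : ∀ y, (y, 0) ∈ T → ∀ l l', AnalyticAt ℂ (fun y => M y l l') y := by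
    intro y hy l l'
    simp only [hM, of_apply]
    split_ifs
    · exact analyticAt_const
    · refine Finset.analyticAt_fun_sum _ fun i _ => analyticAt_const.mul ?_
      exact ((ContinuousLinearMap.apply ℂ ℂ ((0 : E), (Pi.single l' 1 : κ → ℂ))).analyticAt _).comp
        (((hT _ hy).1 i).fderiv.comp_of_eq (analyticAt_id.prod analyticAt_const) rfl)
  refine ⟨fun y => (M y).det, fun l y => (M y).adjugate l k, fun y hy =>
    ⟨an_det (hMa y hy), fun l => ?_⟩, fun e => ?_, fun y hy η hη l => ?_⟩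
  · simp only [adjugate_apply]
    refine an_det fun a b => ?_
    simp only [updateRow_apply]
    split_ifs
    exacts [analyticAt_const, hMa y hy a b]
  · obtain ⟨η, k1, k2⟩ := Matrix.exists_mulVec_eq_zero_iff.2 e
    have k3 : η k = 0 := by simpa only [hMv, if_true, Pi.zero_apply] using congrFun k2 k
    refine k1 (funext fun l => ?_)
    by_cases k4 : l = k
    · rw [k4, k3]; rfl
    · have k5 := congrFun k2 l
      rw [hMv, if_neg k4, hb, k3, mul_zero, sub_zero] at k5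
      exact k5
  · have k1 : M y *ᵥ η = Pi.single k (η k) := funext fun a => by
      rw [hMv, Pi.single_apply]
      split_ifs
      · rfl
      · exact Finset.sum_eq_zero fun i _ => by rw [ha y η hy hη i, mul_zero]
    have k2 := congrFun (congrArg ((M y).adjugate *ᵥ ·) k1) l
    simp only [mulVec_mulVec, adjugate_mul, smul_mulVec, one_mulVec, Pi.smul_apply, smul_eq_mul,
      mulVec_single] at k2
    simpa [mul_comm] using k2

end Vale.Agent.P277Z.GH.Dom.MerA
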