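import Vale.Agent.P277Z.GH.DomSk
import Vale.Agent.P277Z.GH.DomMerA
import Vale.Agent.P277Z.Pj.Tot
import Vale.Agent.P277Z.Pj.TotP
import Vale.Agent.P277Z.Pj.LocQA
import Vale.Agent.P277Z.Pj.Rem
import Vale.Agent.P277Z.Pj.Prj
import Vale.Agent.P277Z.Glc.Loc
import Vale.Agent.P277Z.Val.Snc

/-!
# P277, block GH: the ratios of sections on a modification are meromorphic on the base
-/

open scoped Manifold ContDiff Topology
open Vale.Agent.P277 hiding Amin IsFlipR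
open Vale.Agent.P272.K Vale.Agent.P285.H281.FD Set Filter
open Vale.Agent.P277.PH (HolF at_chartAt)
open Vale.Agent.P277.HD (pull)
open Vale.Agent.P277Z.Val Vale.Agent.P277Z.St
open Vale.Agent.P277Z.Pj (HolTo Prp Gfin Imm PMap Tot FreeOn cone cyl cfst csnd HolV holV_pi)

noncomputable section

namespace Vale.Agent.P277Z.GH.Dom

namespace Mer

section emb

variable {Y : Type} [TopologicalSpace Y] [ChartedSpace (Cm 4) Y] {X : CSp} {O : Set Y}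
  {v : Y → X.pt}

theorem emb_desc (hv : IsOpenEmb X O v) {y : Y} (hy : y ∈ O) {h : Y → ℂ} (hh : HolF 4 h y) :
    ∃ h', X.Hol h' (v y) ∧ ∀ᶠ y' in 𝓝 y, h y' = h' (v y') :=
  ⟨_, hv.hol_of_analyticAt y hy (at_chartAt y) (hh _ (at_chartAt y)),
    (hv.isOpen.eventually_mem hy).mono fun _ k => by rw [hv.inv_apply y k]⟩

theorem dense_pre (hv : IsOpenEmb X O v) (hO : Dense O) {S : Set X.pt} (hS : Dense S) :
    Dense (O ∩ v ⁻¹' S) := by
  refine dense_iff_inter_open.2 fun U hU hne => ?_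
  obtain ⟨_, ⟨y, hy, rfl⟩, h⟩ := hS.inter_open_nonempty _
    (hv.isOpenMap _ inter_subset_right (hU.inter hv.isOpen))
    ((hO.inter_open_nonempty U hU hne).image v)
  exact ⟨y, hy.1, hy.2, h⟩

end emb

theorem dense_exc (V : Lg) (exc : Finset (Fin V.r)) : Dense (⋃ l ∈ exc, V.G l)ᶜ := fun y =>
  mem_closure_iff_frequently.2 ((U.freq_notE V y).mono fun _ h k =>
    let ⟨l, _, hl⟩ := mem_iUnion₂.1 k
    h (mem_iUnion.2 ⟨l, hl⟩))

theorem prp_model {n : ℕ} {W : Type} [TopologicalSpace W] [T2Space W] [CompactSpace W]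
    [ChartedSpace (Cm n) W] {X : CSp} {p : W → X.pt} (hp : HolTo n X p) {N k : ℕ} {V : Set X.pt}
    {Ω : Set (Cm N)} {h : Fin k → Cm N → ℂ} {ψ : X.pt → Cm N} (M : IsModel X.Hol V Ω h ψ) :
    Prp n (p ⁻¹' V) (fun w => ψ (p w)) Ω := by
  have h4 : ∀ y ∈ V, ψ y ∈ Ω ∧ ∀ i, h i (ψ y) = 0 := fun y hy =>
    (Set.ext_iff.1 M.image _).1 (mem_image_of_mem ψ hy)
  refine ⟨M.isOpen.preimage hp.cont, M.isOpen', fun w hw i => hp.hol w _ (M.isCoord.hol i _ hw),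
    fun w hw => (h4 _ hw).1, fun K hK hK' => ?_⟩
  have k1 : IsCompact (K ∩ (fun z i => h i z) ⁻¹' {0}) := hK'.of_isClosed_subset
    (ContinuousOn.preimage_isClosed_of_isClosed (continuousOn_pi.2 fun i z hz =>
      (M.holo i z (hK hz)).continuousAt.continuousWithinAt) hK'.isClosed isClosed_singleton)
    inter_subset_left
  have k2 := (M.emb.isInducing.isCompact_preimage' k1 fun z hz => by
    obtain ⟨y, hy, e⟩ := (Set.ext_iff.1 M.image z).2 ⟨hK hz.1, fun i => congrFun hz.2 i⟩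
    exact ⟨⟨y, hy⟩, e⟩).image continuous_subtype_val
  refine (congrArg IsCompact (Set.ext fun w => ?_)).mp (k2.isClosed.preimage hp.cont).isCompact
  exact ⟨fun ⟨y, k, e⟩ => ⟨(show p w ∈ V from e ▸ y.2), show ψ (p w) ∈ K from e ▸ k.1⟩,
    fun k => ⟨⟨p w, k.1⟩, ⟨k.2, funext (h4 _ k.1).2⟩, rfl⟩⟩

/-- the cone over a generically finite map is generically finite -/
theorem gfin_cone {n r N : ℕ} {W T : Type} [TopologicalSpace W] [T2Space W]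
    [ChartedSpace (Cm (n + 1)) W] [IsManifold 𝓘(ℂ, Cm (n + 1)) ω W] [TopologicalSpace T]
    [ChartedSpace (Cm (n + 1 + 1)) T] [IsManifold 𝓘(ℂ, Cm (n + 1 + 1)) ω T] {O : Set W}
    {D : Fin (r + 1) → Set W} {ν : Fin (r + 1) → W → Cm (r + 1)} {pr : T → W}
    {ζ : T → Cm (r + 1)} {pt : Fin (r + 1) → W → ℂ → T} (hP : PMap (n + 1) O D ν)
    (hT : Tot (n + 1) D ν pr ζ pt) {t : W → Cm N} {Ω : Set (Cm N)} (ht : Gfin (n + 1) O t Ω) :
    Gfin (n + 1 + 1) univ (cone t pr ζ) (cyl Ω (r + 1)) := by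
  obtain ⟨-, -, a3, -, -⟩ := Pj.toth n W T r O D ν pr ζ pt hP hT
  have h1 := (Pj.totp_of Pj.toth n W T r O D ν pr ζ pt hP hT N t Ω ht.toPrp).1
  refine ⟨h1, fun u _ => ?_⟩
  obtain ⟨m, hm⟩ := hT.mem u
  have h2 : ContinuousAt (fun w => pt m w (ζ u m)) (pr u) :=
    (a3 m _ hm (ζ u m)).comp (f := fun w => (w, ζ u m)) (by fun_prop)
  rw [← hT.pt_eq m u hm]
  refine mem_closure_iff_frequently.2 (h2.tendsto.frequently
    (((mem_closure_iff_frequently.1 (ht.imm ((hP.cover _).2 ⟨m, hm⟩))).and_eventually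
      ((hP.isOpen m).mem_nhds hm)).mono fun w ⟨⟨k1, k2⟩, k3⟩ => ⟨trivial, ?_⟩))
  have k4 := hT.pr_pt m w k3 (ζ u m)
  set u' := pt m w (ζ u m)
  have he := at_chartAt (n := n + 1) w
  obtain ⟨e', b1, b2, b3, -⟩ := hT.chart m _ he.1
  obtain ⟨G, b4, b5⟩ := k2.chart_eq (holV_pi.2 (ht.hol _ k1)) he
  refine Pj.imm_of_left_inv (e := e') ⟨b1, b2 ▸ ⟨k4.symm ▸ k3, k4.symm ▸ he.2⟩⟩
    (holV_pi.2 (h1.hol u' trivial))
    (G := fun y => Fin.cons (csnd N (r + 1) y m) (G (cfst N (r + 1) y)))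
    (analyticAt_pi_iff.2 fun i => ?_) ?_
  · refine Fin.cases ?_ (fun i => ?_) i
    · exact analyticAt_pi_iff.1 ((csnd N (r + 1)).analyticAt _) m
    · exact analyticAt_pi_iff.1 (AnalyticAt.fun_comp (g := G) (f := fun y => cfst N (r + 1) y)
        (by rwa [Pj.cfst_cone, k4]) ((cfst N (r + 1)).analyticAt _)) i
  · filter_upwards [((hT.cont_pr.tendsto' u' w k4).eventually b5)] with v hv
    rw [b3, hv, Pj.cfst_cone, Pj.csnd_cone]

/-- the product as a space of tuples -/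
def app (N r : ℕ) (p : Cm N × Cm r) : Cm (N + r) := Fin.append p.1 p.2

theorem an_app (N r : ℕ) (p : Cm N × Cm r) : AnalyticAt ℂ (app N r) p :=
  analyticAt_pi_iff.2 fun i => by
    refine Fin.addCases (fun i => ?_) (fun i => ?_) i
    · simpa only [app, Fin.append_left] using analyticAt_pi_iff.1 analyticAt_fst i
    · simpa only [app, Fin.append_right] using analyticAt_pi_iff.1 analyticAt_snd i

theorem an_cone0 {n r N : ℕ} {W : Type} [TopologicalSpace W] [T2Space W]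
    [SecondCountableTopology W] [ChartedSpace (Cm (n + 1)) W] [IsManifold 𝓘(ℂ, Cm (n + 1)) ω W]
    {O : Set W} {D : Fin (r + 1) → Set W} {ν : Fin (r + 1) → W → Cm (r + 1)}
    (hP : PMap (n + 1) O D ν) {t : W → Cm N} {Ω : Set (Cm N)} (ht : Gfin (n + 1) O t Ω) {w₀ : W}
    (h₀ : w₀ ∈ O) : ∃ (m : ℕ) (F : Fin m → Cm N × Cm (r + 1) → ℂ),
      (∀ i, AnalyticAt ℂ (F i) (t w₀, 0)) ∧ ∀ᶠ p in 𝓝 (t w₀, (0 : Cm (r + 1))),
        (∃ l, ∃ w ∈ D l, ∃ c : ℂ, t w = p.1 ∧ p.2 = c • ν l w) ↔ ∀ i, F i p = 0 := by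
  obtain ⟨T, _, _, _, _, _, pr, ζ, pt, hT⟩ := Pj.tot_thm n W O r D ν hP ⟨w₀, h₀⟩
  obtain ⟨m, F, h3, h4⟩ := Pj.rem_of Pj.br Pj.prj (n + 1) T _ univ _ _ (gfin_cone hP hT ht)
    (app N (r + 1) (t w₀, 0)) (by
      rw [Pj.mem_cyl]
      exact (congrArg (· ∈ Ω) (funext fun i => Fin.append_left _ _ i)).mpr (ht.maps h₀))
  refine ⟨m, fun i p => F i (app N (r + 1) p), fun i => (h3 i).comp (an_app _ _ _), ?_⟩
  filter_upwards [(an_app _ _ _).continuousAt.eventually h4] with p hp'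
  rw [← hp']
  constructor
  · rintro ⟨l, w, k1, c, k2, k3⟩
    exact ⟨pt l w c, trivial, by rw [cone, hT.pr_pt l w k1, hT.ζ_pt l w k1, k2, app, k3]⟩
  · rintro ⟨u, -, hu⟩
    obtain ⟨l, hl⟩ := hT.mem u
    refine ⟨l, pr u, hl, ζ u l, funext fun a => ?_, (funext fun a => ?_ : _ = ζ u).trans
      (hT.ζ_eq hl)⟩
    · simpa only [cone, app, Fin.append_left] using congrFun hu (Fin.castAdd _ a)
    · simpa only [cone, app, Fin.append_right] using (congrFun hu (Fin.natAdd _ a)).symm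

variable {X X' : CSp} {g : X'.pt → X.pt} {A : Set X.pt} {L : Bd X'.pt} {U : Set X.pt}

/-- the cone over the image of `X'` -/
def Cn (g : X'.pt → X.pt) (L : Bd X'.pt) {κ : Type} (s : κ → L.ι → X'.pt → ℂ) (V : Set X.pt)
    {N : ℕ} (φ : X.pt → Cm N) : Set (Cm N × (κ → ℂ)) :=
  {p | ∃ (x : X'.pt) (i : L.ι) (c : ℂ), g x ∈ V ∧ x ∈ L.U i ∧ φ (g x) = p.1 ∧
    p.2 = c • fun l => s l i x}

/-- the cone is analytic -/
theorem an_cone (H : StRes0) (hN : IsNormal 4 X') (hg : IsBim X' X g A) (hL : IsLBx X' L) {n : ℕ}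
    {s : Fin (n + 1) → L.ι → X'.pt → ℂ} (hs : FSys X X' g L U s) {N k : ℕ} {V : Set X.pt}
    {Ω : Set (Cm N)} {h : Fin k → Cm N → ℂ} {φ : X.pt → Cm N} (M : IsModel X.Hol V Ω h φ)
    (hV : V ⊆ U) {x : X.pt} (hx : x ∈ V) : ∃ (m : ℕ) (F : Fin m → Cm N × Cm (n + 1) → ℂ),
      (∀ i, AnalyticAt ℂ (F i) (φ x, 0)) ∧
      ∀ᶠ p in 𝓝 (φ x, (0 : Cm (n + 1))), p ∈ Cn g L s V φ ↔ ∀ i, F i p = 0 := by
  obtain ⟨R, r, hr, -⟩ := H X' hN
  have hp : HolTo 4 X fun w => g (r w) :=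
    ⟨hg.cont.comp hr.cont, fun w f hf => hr.hol w _ (hg.holo _ f hf)⟩
  have h1 := prp_model hp M
  set O := (fun w => g (r w)) ⁻¹' V with hO
  have h2 : Gfin 4 O (fun w => φ (g (r w))) Ω := by
    refine ⟨h1, fun w hw => mem_closure_iff_frequently.2
      (((mem_closure_iff_frequently.1 (dense_pre hr.emb (dense_exc R _) hg.dense w)).and_eventually
        (h1.isOpen.mem_nhds hw)).mono fun w ⟨⟨k1, k2⟩, k3⟩ => ⟨k3, ?_⟩)⟩
    have he := at_chartAt (n := 4) w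
    choose a ha1 ha2 using fun i => emb_desc hr.emb k1 (holF_chart he i)
    choose b hb1 hb2 using fun i => hg.iso _ _ k2 (ha1 i)
    choose c hc1 hc2 using fun i => (M.hol _ k3 _).1 (hb1 i)
    refine Pj.imm_of_left_inv he (holV_pi.2 (h1.hol w k3)) (G := fun z i => c i z)
      (analyticAt_pi_iff.2 hc1) ?_
    filter_upwards [eventually_all.2 ha2,
      hr.cont.continuousAt.eventually (eventually_all.2 hb2),
      hp.cont.continuousAt.eventually (eventually_all.2 hc2)] with v e1 e2 e3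
    exact funext fun i => (e1 i).trans ((e2 i).trans (e3 i))
  have hM : IsLB 4 (pull r L) :=
    ⟨fun i => (hL.isOpen i).preimage hr.cont, fun w => hL.cover _,
      fun i j e w he hi hj => (hr.hol w _ (hL.holo i j _ hi hj) e he).contDiffAt,
      fun i j w => hL.ne_zero i j _, fun i j k w => hL.cocycle i j k _⟩
  obtain ⟨D, ν, hP, hD⟩ := Pj.LocQ.exists_pmap (τ := fun l i w => s l i (r w)) hM h1.isOpen
    ⟨fun l w hw i hi => ⟨hr.hol w _ ((hs.sec l).holo i _ (hV hw) hi),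
      fun j hj => (hs.sec l).change i j _ (hV hw) hi hj⟩, fun w hw i hi => hs.nz _ i (hV hw) hi⟩
  obtain ⟨x', rfl⟩ := hg.surj x
  obtain ⟨w₀, rfl⟩ := hr.surj x'
  have := ChartedSpace.secondCountable_of_sigmaCompact (Cm 4) R.W
  obtain ⟨m, F, h3, h4⟩ := @an_cone0 3 n N R.W _ _ _ R.ch R.mf _ _ _ hP _ _ h2 w₀ hx
  refine ⟨m, F, h3, h4.mono fun p hp' => Iff.trans ⟨?_, ?_⟩ hp'⟩
  · rintro ⟨x', i, c, k1, k2, k3, k4⟩
    obtain ⟨w, rfl⟩ := hr.surj x'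
    obtain ⟨l, hl⟩ := hs.nz _ i (hV k1) k2
    refine ⟨l, w, (hD l i w k1 k2).1.2 hl, c * s l i (r w), k3, k4.trans (funext fun a => ?_)⟩
    rw [Pi.smul_apply, Pi.smul_apply, (hD l i w k1 k2).2 a, smul_eq_mul, smul_eq_mul, mul_assoc,
      mul_div_cancel₀ _ hl]
  · rintro ⟨l, w, hl, c, k2, k3⟩
    obtain ⟨i, hi⟩ := hL.cover (r w)
    have k1 : w ∈ O := (hP.cover _).2 ⟨l, hl⟩
    refine ⟨r w, i, c / s l i (r w), k1, hi, k2, k3.trans (funext fun a => ?_)⟩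
    rw [Pi.smul_apply, Pi.smul_apply, (hD l i _ k1 hi).2 a, smul_eq_mul, smul_eq_mul]
    ring

theorem core (H : StRes0) (hN : IsNormal 4 X') (hg : IsBim X' X g A) (hL : IsLBx X' L) {n : ℕ}
    {s : Fin (n + 1) → L.ι → X'.pt → ℂ} (hs : FSys X X' g L U s) {x : X.pt} (hx : x ∈ U) :
    ∃ U₀, IsOpen U₀ ∧ x ∈ U₀ ∧ ∀ x₁ ∈ U₀, x₁ ∉ A →
      ∃ (D : X.pt → ℂ) (f : Fin (n + 1) → X.pt → ℂ) (m : Fin (n + 1)),
      (∀ y ∈ U₀, X.Hol D y ∧ ∀ l, X.Hol (f l) y) ∧ D x₁ ≠ 0 ∧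
      ∀ x' i l, g x' ∈ U₀ → x' ∈ L.U i → D (g x') * s l i x' = s m i x' * f l (g x') := by
  obtain ⟨N, k, V₀, Ω₀, h, φ, hx₀, M₀⟩ := X.model x
  obtain ⟨Ω, M⟩ := Glc.isModel_mono M₀ (M₀.isOpen.inter hs.isOpen) inter_subset_left
  set V := V₀ ∩ U with hV
  obtain ⟨m, F, h1, h2⟩ := an_cone H hN hg hL hs M inter_subset_right ⟨hx₀, hx⟩
  obtain ⟨Ω₁, h3, h4, h5⟩ := MerA.cone h1 h2 (by
    rintro y η c ⟨x', i, c', k1, k2, k3, k4⟩
    exact ⟨x', i, c * c', k1, k2, k3, by rw [mul_smul, ← k4]⟩)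
  refine ⟨V ∩ φ ⁻¹' Ω₁, M.continuousOn.isOpen_inter_preimage M.isOpen h3, ⟨⟨hx₀, hx⟩, h4⟩,
    fun x₁ hx₁ hA => ?_⟩
  obtain ⟨x₁, rfl⟩ := hg.surj x₁
  obtain ⟨j, hj⟩ := hL.cover x₁
  obtain ⟨a, ha⟩ := hs.nz x₁ j hx₁.1.2 hj
  have h6 := fun l => (hs.sec l).holo j x₁ hx₁.1.2 hj
  choose b hb1 hb2 using fun l => hg.iso x₁ _ hA (hol_div (h6 l) (h6 a) ha)
  choose c hc1 hc2 using fun l => (M.hol _ hx₁.1 _).1 (hb1 l)
  obtain ⟨W, hW, hWo, hxW⟩ := eventually_nhds_iff.1 (((hL.isOpen j).eventually_mem hj).and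
    (((hol_continuousAt (h6 a)).eventually_ne ha).and ((eventually_all.2 hb2).and
      (hg.cont.continuousAt.eventually (eventually_all.2 hc2)))))
  obtain ⟨S, hS, hxS, hSW⟩ := exists_nhds_preimage_subset hg.cont hWo (z := g x₁)
    fun v hv => hg.inj _ v hA hv ▸ hxW
  obtain ⟨S', hS', e⟩ := M.emb.isInducing.isOpen_iff.1 (hS.preimage continuous_subtype_val)
  have h7 : ∀ y ∈ V, φ y ∈ S' ↔ y ∈ S := fun y hy => Set.ext_iff.1 e ⟨y, hy⟩
  obtain ⟨D, f, h8, h9, h10⟩ := h5 _ hx₁.2 ⟨x₁, j, 0, hx₁.1, hj, rfl, (zero_smul _ _).symm⟩ a c hc1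
    (by
      filter_upwards [continuousAt_fst.eventually (hS'.mem_nhds ((h7 _ hx₁.1).2 hxS))]
        with p hp ⟨x', i, c', k1, k2, k3, k4⟩ l
      obtain ⟨k5, k6, k7, k8⟩ := hW x' (hSW ((h7 _ k1).1 (k3 ▸ hp)))
      have k9 : c l p.1 = s l j x' / s a j x' := by rw [← k3]; exact ((k7 l).trans (k8 l)).symm
      rw [k4, k9, Pi.smul_apply, Pi.smul_apply, (hs.sec l).change i j _ k1.2 k2 k5,
        (hs.sec a).change i j _ k1.2 k2 k5, smul_eq_mul, smul_eq_mul]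
      field_simp)
  exact ⟨D ∘ φ, fun l => f l ∘ φ, a, fun y hy =>
    ⟨(M.hol y hy.1 _).2 ⟨D, (h8 _ hy.2).1, .rfl⟩,
      fun l => (M.hol y hy.1 _).2 ⟨f l, (h8 _ hy.2).2 l, .rfl⟩⟩, h9,
    fun x' i l k1 k2 => h10 _ k1.2 _ ⟨x', i, 1, k1.1, k2, rfl, (one_smul _ _).symm⟩ l⟩

end Mer

theorem mer_of (H : StRes0) : StMer := by
  intro X X' g A L U κ _ s hN hg hL hs x hx
  obtain ⟨x', rfl⟩ := hg.surj x
  obtain ⟨i, hi⟩ := hL.cover x'
  obtain ⟨l, -⟩ := hs.nz x' i hx hi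
  obtain ⟨n, hn⟩ := Nat.exists_eq_succ_of_ne_zero (Fintype.card_pos_iff.2 ⟨l⟩).ne'
  let σ : κ ≃ Fin (n + 1) := Fintype.equivFinOfCardEq hn
  obtain ⟨U₀, h1, h2, h3⟩ := Mer.core H hN hg hL (s := fun l => s (σ.symm l))
    ⟨hs.isOpen, fun l => hs.sec _, fun x i a b =>
      let ⟨l, hl⟩ := hs.nz x i a b
      ⟨σ l, by rwa [σ.symm_apply_apply]⟩⟩ hx
  refine ⟨U₀, h1, h2, fun x₁ a b => ?_⟩
  obtain ⟨D, f, m, h4, h5, h6⟩ := h3 x₁ a b
  exact ⟨D, fun l => f (σ l), σ.symm m, fun y hy => ⟨(h4 y hy).1, fun l => (h4 y hy).2 _⟩, h5,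
    fun x' i l a b => by simpa only [σ.symm_apply_apply] using h6 x' i (σ l) a b⟩

end Vale.Agent.P277Z.GH.Dom
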