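import Vale.Agent.P277Z.GH.Sk

/-!
# P277, block GH: domination of a projective modification (statements of the rows)
-/

open scoped Manifold ContDiff Topology
open Vale.Agent.P277 hiding Amin IsFlipR
open Vale.Agent.P272.K Vale.Agent.P285.H281.FD Set Filter
open Vale.Agent.P277.PH (HolF)
open Vale.Agent.P277Z.Val Vale.Agent.P277Z.St

noncomputable section

namespace Vale.Agent.P277Z.GH.Dom

/-- the common zeros of the `f l` contain no hypersurface through `y` -/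
def Prim {W κ : Type} [TopologicalSpace W] [ChartedSpace (Cm 4) W] (f : κ → W → ℂ) (y : W) : Prop :=
  ∀ c, HolF 4 c y → c y = 0 → ¬ ∀ᶠ y' in 𝓝 y, c y' = 0 → ∀ l, f l y' = 0

/-- proportional vectors -/
def Par {κ : Type} (a b : κ → ℂ) : Prop := ∀ l m, a l * b m = a m * b l

/-- sections of `L` over `g⁻¹ U` without common zeros -/
structure FSys (X X' : CSp) (g : X'.pt → X.pt) (L : Bd X'.pt) (U : Set X.pt) {κ : Type}
    (s : κ → L.ι → X'.pt → ℂ) : Prop where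
  isOpen : IsOpen U
  sec : ∀ l, IsSecx X' (g ⁻¹' U) L (s l)
  nz : ∀ x i, g x ∈ U → x ∈ L.U i → ∃ l, s l i x ≠ 0

/-- the map defined by `g` and the sections has finite fibres -/
def FinS {X X' : CSp} (g : X'.pt → X.pt) (L : Bd X'.pt) (U : Set X.pt) {κ : Type}
    (s : κ → L.ι → X'.pt → ℂ) : Prop :=
  ∀ x ∈ U, ∀ c : κ → ℂ, c ≠ 0 →
    {x' | g x' = x ∧ ∃ i, x' ∈ L.U i ∧ Par c fun l => s l i x'}.Finite

/-- ROW GCD: division by the greatest common divisor -/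
def StGcd : Prop := ∀ (W : Type) [TopologicalSpace W] [ChartedSpace (Cm 4) W]
  [IsManifold 𝓘(ℂ, Cm 4) ω W] (κ : Type) [Fintype κ] (f : κ → W → ℂ) (y : W),
  (∀ l, HolF 4 (f l) y) → (¬ ∀ᶠ y' in 𝓝 y, ∀ l, f l y' = 0) →
  ∃ (d : W → ℂ) (f' : κ → W → ℂ), HolF 4 d y ∧ (∀ l, HolF 4 (f' l) y) ∧
    ∀ᶠ y' in 𝓝 y, (∀ l, f l y' = d y' * f' l y') ∧ Prim f' y'

/-- ROW CPB: comparison of primitive families -/
def StCpb : Prop := ∀ (W : Type) [TopologicalSpace W] [ChartedSpace (Cm 4) W]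
  [IsManifold 𝓘(ℂ, Cm 4) ω W] (κ κ' : Type) [Fintype κ] [Fintype κ'] (F H : κ → W → ℂ)
  (F' H' : κ' → W → ℂ) (y : W), (∀ l, HolF 4 (F l) y) → (∀ l, HolF 4 (H l) y) →
  (∀ l, HolF 4 (F' l) y) → (∀ l, HolF 4 (H' l) y) → Prim F y → Prim F' y →
  (∀ᶠ y' in 𝓝 y, Par (fun l => F l y') fun l => H l y') →
  (∀ᶠ y' in 𝓝 y, Par (fun l => F' l y') fun l => H' l y') → (¬ ∀ᶠ y' in 𝓝 y, ∀ l, H l y' = 0) →
  Hir.Cpb (𝓝 y) (fun y' => ∑ l, ‖H l y'‖) (fun y' => ∑ l, ‖H' l y'‖) →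
  Hir.Cpb (𝓝 y) (fun y' => ∑ l, ‖F l y'‖) fun y' => ∑ l, ‖F' l y'‖

/-- ROW UNI: one line bundle with finite systems over the neighbourhoods of all points -/
def StUni : Prop := ∀ (X X' : CSp) (g : X'.pt → X.pt) (P : Bd X'.pt), IsLBx X' P →
  RelAmple X' X g P → ∃ L : Bd X'.pt, IsLBx X' L ∧ ∀ x, ∃ (U : Set X.pt) (m : ℕ)
    (s : Fin m → L.ι → X'.pt → ℂ), x ∈ U ∧ FSys X X' g L U s ∧ FinS g L U s

/-- ROW CMP: two systems have comparable norms -/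
def StCmp : Prop := ∀ (X X' : CSp) (g : X'.pt → X.pt) (L : Bd X'.pt) (U : Set X.pt) (κ κ' : Type)
  [Fintype κ] [Fintype κ'] (s : κ → L.ι → X'.pt → ℂ) (s' : κ' → L.ι → X'.pt → ℂ), Continuous g →
  IsLBx X' L → FSys X X' g L U s → FSys X X' g L U s' → ∀ x ∈ U, ∃ C : ℝ, 0 < C ∧
    ∀ᶠ x₂ in 𝓝 x, ∀ x' i, g x' = x₂ → x' ∈ L.U i → ∑ l, ‖s l i x'‖ ≤ C * ∑ l, ‖s' l i x'‖

/-- ROW MER: the ratios of the sections are meromorphic functions on the base -/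
def StMer : Prop := ∀ (X X' : CSp) (g : X'.pt → X.pt) (A : Set X.pt) (L : Bd X'.pt)
  (U : Set X.pt) (κ : Type) [Fintype κ] (s : κ → L.ι → X'.pt → ℂ), IsNormal 4 X' →
  IsBim X' X g A → IsLBx X' L → FSys X X' g L U s → ∀ x ∈ U, ∃ U₀, IsOpen U₀ ∧ x ∈ U₀ ∧
    ∀ x₁ ∈ U₀, x₁ ∉ A → ∃ (D : X.pt → ℂ) (f : κ → X.pt → ℂ) (m : κ),
      (∀ y ∈ U₀, X.Hol D y ∧ ∀ l, X.Hol (f l) y) ∧ D x₁ ≠ 0 ∧
      ∀ x' i l, g x' ∈ U₀ → x' ∈ L.U i → D (g x') * s l i x' = s m i x' * f l (g x')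

/-- ROW PRT: primitive families which are proportional to the sections -/
def StPrt : Prop := ∀ (X X' : CSp) (g : X'.pt → X.pt) (A : Set X.pt) (L : Bd X'.pt)
  (U : Set X.pt) (κ : Type) [Fintype κ] (s : κ → L.ι → X'.pt → ℂ), IsNormal 4 X' →
  IsBim X' X g A → IsLBx X' L → FSys X X' g L U s → ∀ (V : Lg) (p : V.W → X.pt),
  (∀ y, HolMap V.X X p y) → Dense (p ⁻¹' Aᶜ) → ∀ y, p y ∈ U → ∃ F : κ → V.W → ℂ,
    ∀ᶠ y' in 𝓝 y, (∀ l, HolF 4 (F l) y') ∧ Prim F y' ∧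
      ∀ x' i, g x' = p y' → p y' ∉ A → x' ∈ L.U i → Par (fun l => F l y') fun l => s l i x'

/-- the family is primitive, and proportional to finite systems of sections -/
structure Good {X X' : CSp} (g : X'.pt → X.pt) (A : Set X.pt) (L : Bd X'.pt) (V : Lg)
    (p : V.W → X.pt) (I : Fam V.X) : Prop where
  prim : ∀ γ, ∀ y ∈ I.O γ, Prim (W := V.W) (I.f γ) y
  sub : I.Z ⊆ p ⁻¹' A
  sys : ∀ γ, ∃ (U : Set X.pt) (s : Fin (I.m γ) → L.ι → X'.pt → ℂ), FSys X X' g L U s ∧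
    FinS g L U s ∧ ∀ y ∈ I.O γ, p y ∈ U ∧ ∀ x' i, g x' = p y → p y ∉ A → x' ∈ L.U i →
      Par (fun l => I.f γ l y) fun l => s l i x'

/-- ROW FAMD: the family -/
def StFamD : Prop := ∀ (X X' : CSp) (g : X'.pt → X.pt) (A : Set X.pt) (P : Bd X'.pt),
  IsNormal 4 X' → IsBim X' X g A → IsLBx X' P → RelAmple X' X g P → ∀ (V : Lg) (p : V.W → X.pt),
  (∀ y, HolMap V.X X p y) → Dense (p ⁻¹' Aᶜ) →
  ∃ (L : Bd X'.pt) (I : Fam V.X), IsLBx X' L ∧ Good g A L V p I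

/-- ROW LIFT: the lift to `X'` -/
def StLift : Prop := ∀ (X X' : CSp) (g : X'.pt → X.pt) (A : Set X.pt) (L : Bd X'.pt) (V V' : Lg)
  (p : V.W → X.pt) (π : V'.W → V.W) (I : Fam V.X) (a : Fin V'.r → ℕ), IsBim X' X g A →
  IsLBx X' L → Good g A L V p I → Nonempty V'.W → Continuous π →
  (∀ y, HolMap V'.X X (fun y => p (π y)) y) → Dense ((fun y => p (π y)) ⁻¹' Aᶜ) →
  I.Mono V' π a → ∃ q : V'.W → X'.pt, (∀ y, HolMap V'.X X' q y) ∧ ∀ y, g (q y) = p (π y)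

end Vale.Agent.P277Z.GH.Dom
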