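import Vale.Agent.P277Z.GH.KahA
import Vale.Agent.P277Z.Ps.Psd
import Vale.Agent.P277Z.Coh.Vap

/-!
# P277, block GH: partitions of unity on complex spaces, a positivity criterion
-/

open scoped Manifold ContDiff Topology ComplexOrder
open Vale.Agent.P277 hiding Amin IsFlipR
open Vale.Agent.P272.K Vale.Agent.P285.H281.FD Set Filter
open Vale.Agent.P277Z.St
open Vale.Agent.P284Z (levi cHess_quad cHess_psd_iff)
open Vale.Agent.P284Y.Lib (levi_hol levi_add levi_mul levi_sum levi_const_mul fderiv_hol two_le_inf)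

noncomputable section

namespace Vale.Agent.P277Z.GH.Ka

section pou
variable {X : CSp} {x : X.pt} {u : X.pt → ℝ}

theorem sm_zero (h : u =ᶠ[𝓝 x] 0) : Sm X u x :=
  let ⟨_, _, _, _, _, _, hx, hM⟩ := X.model x
  sm_of hM hx (ψ := fun _ => 0) (Eventually.of_forall fun _ => contDiffAt_const) h

theorem bump {O : Set X.pt} (hO : IsOpen O) (hx : x ∈ O) : ∃ ρ : X.pt → ℝ, (∀ y, 0 ≤ ρ y) ∧
    0 < ρ x ∧ (∀ y, Sm X ρ y) ∧ ∀ y, y ∉ O → ρ =ᶠ[𝓝 y] 0 := by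
  obtain ⟨N, k, V, Ω, h, φ, hV, hM⟩ := X.model x
  obtain ⟨ε, hε, h1⟩ := Metric.nhds_basis_closedBall.eventually_iff.1
    ((model_ev hM hV (p := fun y => y ∈ O) (hO.mem_nhds hx)).and
      (hM.isOpen'.mem_nhds (mem_Ω hM hV)))
  let b : ContDiffBump (φ x) := ⟨ε / 2, ε, by positivity, by linarith⟩
  let K := Metric.closedBall (φ x) ε ∩ (fun z i => h i z) ⁻¹' {0}
  have h2 : IsCompact K := (isCompact_closedBall (φ x) ε).of_isClosed_subset
    (ContinuousOn.preimage_isClosed_of_isClosed (fun z hz => (continuousAt_pi.2 fun i =>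
      (hM.holo i z (h1 hz).2).continuousAt).continuousWithinAt) Metric.isClosed_closedBall
      isClosed_singleton) inter_subset_left
  have h3 : IsCompact (Subtype.val '' (V.domRestrict φ ⁻¹' K)) := by
    refine ((hM.emb.isInducing.isCompact_preimage_iff fun z hz => ?_).2 h2).image
      continuous_subtype_val
    have : z ∈ φ '' V := by
      rw [hM.image]
      exact ⟨(h1 hz.1).2, fun i => congrFun hz.2 i⟩
    obtain ⟨y, k1, k2⟩ := this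
    exact ⟨⟨y, k1⟩, k2⟩
  have h4 : ∀ y, y ∉ Subtype.val '' (V.domRestrict φ ⁻¹' K) →
      V.indicator (fun y => b (φ y)) =ᶠ[𝓝 y] 0 := fun y hy => by
    filter_upwards [h3.isClosed.isOpen_compl.mem_nhds hy] with y' hy'
    by_cases k1 : y' ∈ V
    · rw [indicator_of_mem k1]
      refine b.zero_of_le_dist (le_of_not_gt fun k2 => hy' ⟨⟨y', k1⟩, ⟨le_of_lt k2, ?_⟩, rfl⟩)
      have : φ y' ∈ φ '' V := mem_image_of_mem φ k1
      rw [hM.image] at this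
      exact funext this.2
    · exact indicator_of_notMem k1 _
  refine ⟨V.indicator fun y => b (φ y), fun y => indicator_nonneg (fun _ _ => b.nonneg) y, ?_,
    fun y => ?_, fun y hy => h4 y ?_⟩
  · rw [indicator_of_mem hV]
    exact b.pos_of_mem_ball (Metric.mem_ball_self hε)
  · by_cases k1 : y ∈ V
    · exact sm_of hM k1 (ψ := b) (Eventually.of_forall fun _ => b.contDiffAt)
        (mem_of_superset (hM.isOpen.mem_nhds k1) fun y' hy' => indicator_of_mem hy' _)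
    · refine sm_zero (h4 y ?_)
      rintro ⟨y', -, rfl⟩
      exact k1 y'.2
  · rintro ⟨y', k1, rfl⟩
    exact hy ((h1 k1.1).1 y' y'.2 rfl)

/-- smooth partitions of unity -/
theorem pou {O : X.pt → Set X.pt} (hO : ∀ x, IsOpen (O x)) (hx : ∀ x, x ∈ O x) :
    ∃ (T : Finset X.pt) (r : T → X.pt → ℝ), (∀ a y, 0 ≤ r a y) ∧ (∀ a y, Sm X (r a) y) ∧
      (∀ (a : T) y, y ∉ O a → r a =ᶠ[𝓝 y] 0) ∧ ∀ y, ∑ a, r a y = 1 := by
  choose ρ h0 h1 h2 h3 using fun x => bump (hO x) (hx x)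
  have hc : ∀ x y, ContinuousAt (ρ x) y := fun x y => by
    obtain ⟨N, k, V, Ω, h, φ, ψ, k1, k2, k3, k4⟩ := h2 x y
    exact ((k3 _ (mem_Ω k2 k1)).continuousAt.comp (k2.continuousAt k1)).congr
      (mem_of_superset (k2.isOpen.mem_nhds k1) fun y' hy' => (k4 y' hy').symm)
  obtain ⟨T, hT⟩ := isCompact_univ.elim_nhds_subcover' (fun x _ => {y | 0 < ρ x y})
    fun x _ => (hc x x).eventually (lt_mem_nhds (h1 x))
  classical
  have h5 : ∀ y, 0 < ∑ a : T.image Subtype.val, ρ a y := fun y => by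
    obtain ⟨a, k1, k2⟩ := mem_iUnion₂.1 (hT (mem_univ y))
    exact Finset.sum_pos' (fun _ _ => h0 _ _)
      ⟨⟨a, Finset.mem_image_of_mem _ k1⟩, Finset.mem_univ _, k2⟩
  refine ⟨T.image Subtype.val, fun a y => ρ a y / ∑ b : T.image Subtype.val, ρ b y,
    fun a y => div_nonneg (h0 _ _) (h5 y).le, fun a y => ?_, fun a y hy => ?_, fun y => ?_⟩
  · refine sm_fun (f := fun b : T.image Subtype.val => ρ b) (fun b => h2 b y)
      (Θ := fun s => s a / ∑ b, s b) ?_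
    have k1 : ContDiff ℝ ∞ fun s : T.image Subtype.val → ℝ => ∑ b, s b :=
      ContDiff.sum fun b _ => contDiff_apply ℝ ℝ b
    filter_upwards [k1.continuous.continuousAt.eventually (lt_mem_nhds (h5 y))] with s hs
    exact (contDiff_apply ℝ ℝ a).contDiffAt.div k1.contDiffAt hs.ne'
  · filter_upwards [h3 a y hy] with y' k1
    simp [k1]
  · rw [← Finset.sum_div, div_self (h5 y).ne']

end pou

section amb
variable {N M : ℕ} {z ξ : Cm N}

theorem fs_dir {A : Type} [Fintype A] {F : A → Cm N → ℂ} (hF : ∀ a, AnalyticAt ℂ (F a) z) {k j : A}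
    (hk : F k z ≠ 0) (hj : fderiv ℂ (fun y => F j y / F k y) z ξ ≠ 0) :
    0 < levi (fun y => Real.log (∑ a, ‖F a y‖ ^ 2)) z ξ := by
  let L : Cm 1 →L[ℂ] Cm N :=
    (ContinuousLinearMap.proj (R := ℂ) (φ := fun _ : Fin 1 => ℂ) 0).smulRight ξ
  have h1 : HasFDerivAt (fun τ => z + L τ) L 0 := L.hasFDerivAt.const_add z
  have h2 : AnalyticAt ℂ (fun τ => z + L τ) 0 := analyticAt_const.add (L.analyticAt 0)
  have h0 : z + L 0 = z := by rw [map_zero, add_zero]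
  have h3 : ∀ a, AnalyticAt ℂ (fun τ => F a (z + L τ)) 0 := fun a =>
    AnalyticAt.comp (g := F a) (h0.symm ▸ hF a) h2
  have h4 : F k (z + L 0) ≠ 0 := h0.symm ▸ hk
  have h5 := Coh.fs_pos h3 h4 fun v hv => by
    have k1 : HasFDerivAt (fun y => F j y / F k y) (fderiv ℂ (fun y => F j y / F k y) z)
        (z + L 0) := h0.symm ▸ ((hF j).div (hF k) hk).differentiableAt.hasFDerivAt
    have k2 := (HasFDerivAt.comp (f := fun τ => z + L τ) 0 k1 h1).fderiv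
    have k3 : v 0 • fderiv ℂ (fun y => F j y / F k y) z ξ = 0 := by
      rw [← map_smul]
      exact (congrArg (fun T => T v) k2).symm.trans (hv j)
    exact funext fun i => by
      rw [Subsingleton.elim i 0]
      exact (smul_eq_zero.1 k3).resolve_right hj
  have h6 := levi_pos (Ps.two (Ps.sm_log h3 ⟨k, h4⟩)) h5 (w := 1) one_ne_zero
  rw [levi_hol (u := fun y => Real.log (∑ a, ‖F a y‖ ^ 2)) h2
    (h0.symm ▸ Ps.two (Ps.sm_log hF ⟨k, hk⟩)), h1.fderiv, h0] at h6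
  have h7 : L 1 = ξ := one_smul ℂ ξ
  rwa [h7] at h6

theorem levi_cut {Γ : Cm N → Cm M} {ρ : Cm M → ℝ} {L : Cm N → ℝ} (hΓ : AnalyticAt ℂ Γ z)
    (hρ : ContDiffAt ℝ 2 ρ (Γ z)) (hL : ContDiffAt ℝ 2 L z) (h : fderiv ℂ Γ z ξ = 0) :
    levi (fun w => ρ (Γ w) * L w) z ξ = ρ (Γ z) * levi L z ξ := by
  have h1 := hρ.differentiableAt two_ne_zero
  rw [levi_mul (u := fun w => ρ (Γ w)) (hρ.comp z ((hΓ.contDiffAt (n := 2)).restrict_scalars ℝ)) hL,
    levi_hol hΓ hρ, fderiv_hol hΓ.differentiableAt h1, fderiv_hol hΓ.differentiableAt h1,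
    map_smul, h, levi_zero]
  simp

theorem imm {n : ℕ} {Γ : Cm N → Cm M} {Q : Fin n → Cm N → ℂ} {G : Cm M × Cm n → ℂ}
    (hΓ : AnalyticAt ℂ Γ z) (hQ : ∀ m, AnalyticAt ℂ (Q m) z)
    (hG : AnalyticAt ℂ G (Γ z, fun m => Q m z)) (h : fderiv ℂ Γ z ξ = 0)
    (h' : ∀ m, fderiv ℂ (Q m) z ξ = 0) (b : Fin N) :
    fderiv ℂ (fun w => w b - G (Γ w, fun m => Q m w)) z ξ = ξ b := by
  have h1 := (hasFDerivAt_apply (𝕜 := ℂ) b z).sub (hG.differentiableAt.hasFDerivAt.comp z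
    (hΓ.differentiableAt.hasFDerivAt.prodMk
      (hasFDerivAt_pi.2 fun m => (hQ m).differentiableAt.hasFDerivAt)))
  rw [show fderiv ℂ (fun w => w b - G (Γ w, fun m => Q m w)) z = _ from h1.fderiv]
  have h2 : (ContinuousLinearMap.pi fun m => fderiv ℂ (Q m) z) ξ = 0 := funext h'
  simp [h, h2, Prod.mk_zero_zero]

/-- the ambient form of the curvature is positive in the directions of the fibre -/
theorem amb {ι : Type} [Fintype ι] {n : ι → ℕ} {S : ∀ a, Fin (n a) → Cm N → ℂ}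
    {ρ : ι → Cm M → ℝ} {c : ι → ℝ} {Γ : Cm N → Cm M} {a₀ : ι} {l₀ : Fin (n a₀)}
    {G : Fin N → Cm M × Cm (n a₀) → ℂ} (hΓ : AnalyticAt ℂ Γ z)
    (hS : ∀ a l, AnalyticAt ℂ (S a l) z) (hS0 : ∀ a, ∃ l, S a l z ≠ 0)
    (hρ : ∀ a, ContDiffAt ℝ 2 (ρ a) (Γ z)) (hρ0 : ∀ a, 0 ≤ ρ a (Γ z)) (hc : ∀ a, 0 < c a)
    (h0 : 0 < ρ a₀ (Γ z)) (hl : S a₀ l₀ z ≠ 0)
    (hG : ∀ b, AnalyticAt ℂ (G b) (Γ z, fun m => S a₀ m z / S a₀ l₀ z)) (hξ : ξ ≠ 0)
    (h : fderiv ℂ Γ z ξ = 0) :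
    0 < levi (fun w => ∑ a, ρ a (Γ w) * (c a * Real.log (∑ l, ‖S a l w‖ ^ 2)) +
      ∑ b, ‖w b - G b (Γ w, fun m => S a₀ m w / S a₀ l₀ w)‖ ^ 2) z ξ := by
  have hQ : ∀ m, AnalyticAt ℂ (fun w => S a₀ m w / S a₀ l₀ w) z := fun m =>
    (hS _ _).div (hS _ _) hl
  have hH : ∀ b, AnalyticAt ℂ (fun w => w b - G b (Γ w, fun m => S a₀ m w / S a₀ l₀ w)) z :=
    fun b => ((ContinuousLinearMap.proj (R := ℂ) (φ := fun _ : Fin N => ℂ) b).analyticAt z).sub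
      (AnalyticAt.comp (g := G b) (hG b) (hΓ.prod (AnalyticAt.pi hQ)))
  have hL : ∀ a, ContDiffAt ℝ 2 (fun w => Real.log (∑ l, ‖S a l w‖ ^ 2)) z := fun a =>
    Ps.two (Ps.sm_log (hS a) (hS0 a))
  have h1 : ∀ a, ContDiffAt ℝ 2
      (fun w => ρ a (Γ w) * (c a * Real.log (∑ l, ‖S a l w‖ ^ 2))) z := fun a =>
    ((hρ a).comp z ((hΓ.contDiffAt (n := 2)).restrict_scalars ℝ)).mul
      (contDiffAt_const.mul (hL a))
  have h2 : ∀ b, ContDiffAt ℝ 2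
      (fun w => ‖w b - G b (Γ w, fun m => S a₀ m w / S a₀ l₀ w)‖ ^ 2) z := fun b =>
    (((hH b).contDiffAt (n := 2)).restrict_scalars ℝ).norm_sq ℝ
  rw [levi_add (ContDiffAt.sum fun a _ => h1 a) (ContDiffAt.sum fun b _ => h2 b),
    levi_sum _ fun a _ => h1 a, levi_sum _ fun b _ => h2 b]
  simp only [fun a => levi_cut hΓ (hρ a) (contDiffAt_const.mul (hL a)) h,
    fun a => levi_const_mul (w := ξ) (hL a) (c a), fun b => P284Y.Ps.levi_nsq (hH b) ξ]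
  have h3 : ∀ a, 0 ≤ ρ a (Γ z) * (c a * levi (fun w => Real.log (∑ l, ‖S a l w‖ ^ 2)) z ξ) :=
    fun a => mul_nonneg (hρ0 a) (mul_nonneg (hc a).le
      ((cHess_psd_iff (hL a)).1 (Ps.psd_log (hS a) (hS0 a)) ξ))
  by_cases k : ∀ m, fderiv ℂ (fun w => S a₀ m w / S a₀ l₀ w) z ξ = 0
  · obtain ⟨b, hb⟩ := Function.ne_iff.1 hξ
    refine add_pos_of_nonneg_of_pos (Finset.sum_nonneg fun a _ => h3 a)
      (Finset.sum_pos' (fun _ _ => by positivity) ⟨b, Finset.mem_univ _, ?_⟩)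
    rw [imm hΓ hQ (hG b) h k b]
    exact mul_pos four_pos (pow_pos (norm_pos_iff.2 hb) 2)
  · obtain ⟨m, hm⟩ := not_forall.1 k
    exact add_pos_of_pos_of_nonneg (Finset.sum_pos' (fun a _ => h3 a) ⟨a₀, Finset.mem_univ _,
      mul_pos h0 (mul_pos (hc _) (fs_dir (hS a₀) hl hm))⟩)
      (Finset.sum_nonneg fun _ _ => by positivity)

/-- adding a large multiple of the pull back of a strictly plurisubharmonic function -/
theorem amb_large {Q : Cm N → ℝ} {υ : Cm M → ℝ} {Γ : Cm N → Cm M} (hΓ : AnalyticAt ℂ Γ z)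
    (hQ : ∀ᶠ w in 𝓝 z, ContDiffAt ℝ ∞ Q w)
    (hυ : ∀ᶠ w in 𝓝 (Γ z), ContDiffAt ℝ ∞ υ w ∧ (cHess υ w).PosDef)
    (h : ∀ ξ, ξ ≠ 0 → fderiv ℂ Γ z ξ = 0 → 0 < levi Q z ξ) :
    ∃ t₀ : ℝ, ∀ᶠ w in 𝓝 z, ∀ t, t₀ ≤ t → ContDiffAt ℝ ∞ (fun y => Q y + t * υ (Γ y)) w ∧
      (cHess (fun y => Q y + t * υ (Γ y)) w).PosDef := by
  have h1 := sm_an hΓ (hυ.mono fun _ h => h.1)
  have h2 : ∀ᶠ w in 𝓝 z, ∀ ξ, 0 ≤ levi (fun y => υ (Γ y)) w ξ := by
    filter_upwards [hΓ.eventually_analyticAt, hΓ.continuousAt.eventually hυ] with w k1 k2 ξ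
    rw [levi_hol k1 (Ps.two k2.1)]
    exact (cHess_psd_iff (Ps.two k2.1)).1 k2.2.posSemidef _
  obtain ⟨t₀, h3⟩ := pos_large (Ps.two hQ.self_of_nhds) (Ps.two h1.self_of_nhds) h2.self_of_nhds
    fun ξ hξ k => h ξ hξ (by
      rw [levi_hol hΓ (Ps.two hυ.self_of_nhds.1)] at k
      exact of_not_not fun k1 => (levi_pos (Ps.two hυ.self_of_nhds.1) hυ.self_of_nhds.2 k1).ne' k)
  refine ⟨t₀, ?_⟩
  filter_upwards [hQ, h1, h2, h3] with w k0 k1 k2 k3 t ht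
  have k4 : ContDiffAt ℝ ∞ (fun y => t * υ (Γ y)) w := contDiffAt_const.mul k1
  refine ⟨k0.add k4, Pos.RbAux.posDef_of_levi (Ps.two (k0.add k4)) fun ξ hξ => ?_⟩
  rw [levi_add (Ps.two k0) (Ps.two k4), levi_const_mul (Ps.two k1)]
  linarith [k3 ξ hξ, mul_le_mul_of_nonneg_right ht (k2 ξ)]

end amb

end Vale.Agent.P277Z.GH.Ka
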