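import Vale.Agent.P277Z.GH.Sk

/-!
# P277, block GH: resolutions whose exceptional set may be too large (definition)
-/

open scoped Manifold ContDiff Topology
open Vale.Agent.P277 hiding Amin IsFlipR
open Vale.Agent.P272.K Vale.Agent.P285.H281.FD Set Filter
open Vale.Agent.P277.PH (HolF)
open Vale.Agent.P277Z.Val

noncomputable section

namespace Vale.Agent.P277Z.GH

/-- `Res` without the fields `an`, `dim` -/
structure Pre (V : Lg) (X : CSp) (p : V.W → X.pt) (new : Finset (Fin V.r)) : Prop where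
  cont : Continuous p
  hol : ∀ y g, X.Hol g (p y) → HolF 4 (fun y => g (p y)) y
  surj : Function.Surjective p
  emb : IsOpenEmb X (⋃ l ∈ new, V.G l)ᶜ p
  inj : ∀ y y', y ∉ ⋃ l ∈ new, V.G l → p y' = p y → y' = y
  amp : ∃ (P : Bd V.W) (c : Fin V.r → ℕ) (τ : (Bd.inv P).ι → V.W → ℂ), IsLB 4 P ∧
    RelAmple V.X X p P ∧ (∀ l, 0 < c l ↔ l ∈ new) ∧ IsDiv V (Bd.inv P) τ c

theorem Pre.res {V : Lg} {X : CSp} {p : V.W → X.pt} {new : Finset (Fin V.r)} (h : Pre V X p new)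
    (an : IsAn X univ (p '' ⋃ l ∈ new, V.G l)) (dim : DimLe X 2 (p '' ⋃ l ∈ new, V.G l)) :
    Res V X p new :=
  ⟨h.cont, h.hol, h.surj, h.emb, h.inj, an, dim, h.amp⟩

end Vale.Agent.P277Z.GH
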