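import Vale.Agent.P277Z.Luf.Hol
import Vale.Agent.P277.H762.CL1
import Vale.Agent.P277.H335.Hyp

/-!
# P277, block GH: greatest common divisors of families; common zeros of a coprime family
-/

set_option linter.unusedSectionVars false

open scoped Manifold ContDiff Topology
open Filter Set Metric
open Vale.Agent.P272.K (Cm Chart At)
open Vale.Agent.P277.H762 (Cv cv_iUnion cv_of_local)
open Vale.Agent.P277.T3 (ThinM)

noncomputable section

namespace Vale.Agent.P277Z.GH.Pur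

/-- an analytic set which contains no smooth hypersurface has codimension two -/
theorem cv_two {n : ℕ} {κ : Type} [Countable κ] {U : Set (Cm (n + 2))} (hU : IsOpen U)
    {h : κ → Cm (n + 2) → ℂ} (hh : ∀ i, ∀ z ∈ U, AnalyticAt ℂ (h i) z)
    (H : ∀ z ∈ U, ∀ ζ : Cm (n + 2) → ℂ, AnalyticAt ℂ ζ z → ζ z = 0 → fderiv ℂ ζ z ≠ 0 →
      ¬ ∀ i, ∀ᶠ w in 𝓝 z, ζ w = 0 → h i w = 0) : Cv n {z | z ∈ U ∧ ∀ i, h i z = 0} := by
  let D : κ × ℕ × ℕ → Cm (n + 2) → ℂ := fun c =>
    P277.H622.dirD (h c.1) (TopologicalSpace.denseSeq _ c.2.1) c.2.2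
  refine (cv_iUnion (T := fun c => {z | (z ∈ U ∧ ∀ i, h i z = 0) ∧ D c z = 0 ∧
    fderiv ℂ (D c) z ≠ 0}) fun c => cv_of_local fun p hp => ?_).mono fun z hz => ?_
  · have hD : AnalyticAt ℂ (D c) p := P277.H622.analyticAt_dirD (hh _ p hp.1.1) _ _
    obtain ⟨e, h1, h2, h3, h4⟩ := P277.H762.exists_straight (n := n + 1) (by simp) hD hp.2.2
    have k1 : ∀ w ∈ e.source, D c w = 0 → e.symm (0, (e w).2) = w := fun w hw k => by
      rw [← k, ← h4]
      exact e.left_inv hw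
    have k2 : ((0 : ℂ), (e p).2) ∈ e.target := by
      rw [← hp.2.1, ← h4]
      exact e.map_source h1
    have k3 : ∀ q, ((0 : ℂ), q) ∈ e.target → AnalyticAt ℂ (fun q => e.symm (0, q)) q :=
      fun q hq => (h3 _ hq).comp (analyticAt_const.prod analyticAt_id)
    have k4 : Tendsto (fun w => (e w).2) (𝓝 p) (𝓝 (e p).2) := (h2 p h1).continuousAt.snd
    obtain ⟨i, hi⟩ := not_forall.1 (H p hp.1.1 _ hD hp.2.1 hp.2.2)
    have k5 : ¬ (fun q => h i (e.symm (0, q))) =ᶠ[𝓝 (e p).2] 0 := fun k => hi (by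
      filter_upwards [k4.eventually k, e.open_source.mem_nhds h1] with w a b d
      rwa [← k1 w b d])
    have k6 : ∀ᶠ q in 𝓝 (e p).2, ((0 : ℂ), q) ∈ e.target ∧ e.symm (0, q) ∈ U :=
      ((continuous_const.prodMk continuous_id).continuousAt.eventually
        (e.open_target.mem_nhds k2)).and ((k3 _ k2).continuousAt.eventually
          (hU.mem_nhds (by simpa only [k1 p h1 hp.2.1] using hp.1.1)))
    obtain ⟨r, hr, hB⟩ := Metric.eventually_nhds_iff_ball.1 k6
    have k7 : ∀ q ∈ ball (e p).2 r, AnalyticAt ℂ (fun q => h i (e.symm (0, q))) q := fun q hq =>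
      AnalyticAt.fun_comp (g := h i) (hh i _ (hB q hq).2) (k3 q (hB q hq).1)
    obtain ⟨W, g, a1, a2, a3⟩ := P277.H622.stB1 n _ _ isOpen_ball k7 fun z hz k =>
      k5 (Filter.eventually_of_mem (ball_mem_nhds _ hr)
        (AnalyticOnNhd.eqOn_zero_of_preconnected_of_eventuallyEq_zero k7
          (convex_ball _ r).isPreconnected hz k))
    have k8 : Cv n {q | q ∈ ball (e p).2 r ∧ h i (e.symm (0, q)) = 0} :=
      ⟨W, g, a1, fun l q hq => (a2 l q hq).1, a3⟩
    refine ⟨e.source ∩ {w | (e w).2 ∈ ball (e p).2 r}, inter_mem (e.open_source.mem_nhds h1)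
      (k4.eventually (ball_mem_nhds _ hr)), (k8.image isOpen_ball (fun _ a => a.1)
        fun q hq => k3 q (hB q hq).1).mono fun w hw => ?_⟩
    have k9 := k1 w hw.1.1 hw.2.2.1
    exact ⟨(e w).2, ⟨hw.1.2, by rw [k9]; exact hw.2.1.2 i⟩, k9⟩
  · let L : Cm (n + 2) →L[ℂ] ℂ := ContinuousLinearMap.proj 0
    have h1 : HasFDerivAt (fun w => L w - L z) L z := L.hasFDerivAt.sub_const _
    obtain ⟨i, hi⟩ := not_forall.1 (H z hz.1 (fun w => L w - L z)
      ((L.analyticAt z).sub analyticAt_const) (sub_self _) (by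
        rw [h1.fderiv]
        intro k
        simpa [L] using congrArg (fun T : Cm (n + 2) →L[ℂ] ℂ => T fun _ => 1) k))
    obtain ⟨l, m, h2⟩ := P277.H622.exists_dirD hU (hh i) hz.1
      (fun k => hi (k.mono fun _ a _ => a)) (hz.2 i)
    exact mem_iUnion.2 ⟨(i, l, m), hz, h2⟩

variable {n : ℕ} {W κ : Type} [TopologicalSpace W] [ChartedSpace (Cm n) W]
  [IsManifold 𝓘(ℂ, Cm n) ω W] {x : W}

/-- the family has no common factor at `x` -/
def CopF (n : ℕ) [ChartedSpace (Cm n) W] (h : κ → W → ℂ) (x : W) : Prop :=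
  ∀ a c, Hol n a x → Hol n c x → (∀ i, Dvd n a (fun y => c y * h i y) x) → Dvd n a c x

theorem dvd_of_cop {a c u v : W → ℂ} (ha : Hol n a x) (hc : Hol n c x) (hu : Hol n u x)
    (hv : Hol n v x) (h0 : Nz v x) (h : Cop n u v x) (h1 : Dvd n a (fun y => c y * u y) x)
    (h2 : Dvd n a (fun y => c y * v y) x) : Dvd n a c x := by
  have he := at_chart (n := n) x
  rw [cop_iff he hu hv h0] at h
  rw [← gW_dvd he ha (hc.mul hu), gW_mul he hc hu] at h1
  rw [← gW_dvd he ha (hc.mul hv), gW_mul he hc hv] at h2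
  rw [← gW_ne_zero he hv] at h0
  rw [← gW_dvd he ha hc]
  obtain ⟨p, hp⟩ := h1
  obtain ⟨q, hq⟩ := h2
  by_cases k : gW (chartAt (Cm n) x) x a = 0
  · rw [k, zero_mul] at hq
    rw [(mul_eq_zero.1 hq).resolve_right h0]
    exact dvd_zero _
  · have k1 : gW (chartAt (Cm n) x) x v ∣ q * gW (chartAt (Cm n) x) x u :=
      ⟨p, mul_left_cancel₀ k (by
        linear_combination gW (chartAt (Cm n) x) x v * hp - gW (chartAt (Cm n) x) x u * hq)⟩
    obtain ⟨w, rfl⟩ := h.dvd_of_dvd_mul_right k1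
    exact ⟨w, mul_right_cancel₀ h0 (by linear_combination hq)⟩

theorem gcd_aux (s : Finset κ) {h : κ → W → ℂ} {b : W → ℂ} (hh : ∀ i, Hol n (h i) x)
    (hb : Hol n b x) (h0 : Nz b x) :
    ∃ (g b' : W → ℂ) (h' : κ → W → ℂ), Hol n g x ∧ Hol n b' x ∧ (∀ i, Hol n (h' i) x) ∧
      ∀ᶠ y in 𝓝 x, b y = g y * b' y ∧ (∀ i ∈ s, h i y = g y * h' i y) ∧
        ∀ a c, Hol n a y → Hol n c y → Dvd n a (fun y => c y * b' y) y →
          (∀ i ∈ s, Dvd n a (fun y => c y * h' i y) y) → Dvd n a c y := by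
  classical
  induction s using Finset.induction_on with
  | empty =>
    exact ⟨b, fun _ => 1, h, hb, hol_const _ _, hh, .of_forall fun y => ⟨(mul_one _).symm,
      by simp, fun a c _ _ k _ => k.congr (.of_forall fun _ => mul_one _)⟩⟩
  | insert j s hj ih =>
    obtain ⟨g, b', h', k1, k2, k3, k4⟩ := ih
    have k5 : Nz g x := fun k => h0 (by
      filter_upwards [k, k4] with y a1 a2 using by rw [a2.1, a1, zero_mul])
    obtain ⟨d, u, v, a1, a2, a3, a4⟩ := (luf n W x).gcd _ _ (hh j) k1 k5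
    have k6 : Nz v x := fun k => k5 (by
      filter_upwards [k, a4] with y b1 b2 using by rw [b2.2.1, b1, mul_zero])
    refine ⟨d, fun y => v y * b' y, fun i y => if i = j then u y else v y * h' i y, a1, a3.mul k2,
      fun i => ?_, ?_⟩
    · by_cases e : i = j
      · simpa only [if_pos e] using a2
      · simpa only [if_neg e] using a3.mul (k3 i)
    have ne : ∀ i ∈ s, i ≠ j := fun i hi e => hj (e ▸ hi)
    filter_upwards [k4, a4, k6.near a3, a2.near, a3.near] with y b1 b2 b3 b4 b5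
    refine ⟨by rw [b1.1, b2.2.1, mul_assoc], fun i hi => ?_, fun a c c1 c2 c3 c4 => ?_⟩
    · rcases Finset.mem_insert.1 hi with rfl | hi
      · rw [if_pos rfl, b2.1]
      · rw [if_neg (ne i hi), b1.2.1 i hi, b2.2.1, mul_assoc]
    · refine dvd_of_cop c1 c2 b4 b5 b3 b2.2.2 ?_ (b1.2.2 a _ c1 (c2.mul b5)
        (c3.congr (.of_forall fun _ => (mul_assoc _ _ _).symm)) fun i hi => ?_)
      · simpa only [if_true] using c4 j (Finset.mem_insert_self _ _)
      · refine (c4 i (Finset.mem_insert_of_mem hi)).congr (.of_forall fun _ => ?_)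
        rw [if_neg (ne i hi), mul_assoc]

theorem cancel {a b g : W → ℂ} (ha : Hol n a x) (hb : Hol n b x) (hg : Hol n g x) (h0 : Nz g x)
    (h : ∀ᶠ y in 𝓝 x, g y * a y = g y * b y) : ∀ᶠ y in 𝓝 x, a y = b y := by
  have he := at_chart (n := n) x
  rw [← gW_eq_iff he (hg.mul ha) (hg.mul hb), gW_mul he hg ha, gW_mul he hg hb] at h
  exact (gW_eq_iff he ha hb).1 (mul_left_cancel₀ ((gW_ne_zero he hg).2 h0) h)

/-- the greatest common divisor of a family -/
theorem gcd_fam [Fintype κ] {h : κ → W → ℂ} (hh : ∀ i, Hol n (h i) x) {j : κ} (h0 : Nz (h j) x) :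
    ∃ (g : W → ℂ) (h' : κ → W → ℂ), ∀ᶠ y in 𝓝 x, Hol n g y ∧ Nz g y ∧ (∀ i, Hol n (h' i) y) ∧
      (∀ i, h i y = g y * h' i y) ∧ CopF n h' y := by
  obtain ⟨g, b', h', k1, k2, k3, k4⟩ := gcd_aux Finset.univ hh (hh j) h0
  have k5 : Nz g x := fun k => h0 (by
    filter_upwards [k, k4] with y a1 a2 using by rw [a2.1, a1, zero_mul])
  have k6 := cancel (k3 j) k2 k1 k5 (k4.mono fun y a => (a.2.1 j (Finset.mem_univ _)).symm.trans a.1)
  refine ⟨g, h', ?_⟩
  filter_upwards [k1.near, k5.near k1, eventually_all.2 fun i => (k3 i).near, k4,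
    k6.eventually_nhds] with y a1 a2 a3 a4 a5
  exact ⟨a1, a2, a3, fun i => a4.2.1 i (Finset.mem_univ _), fun a c b1 b2 b3 => a4.2.2 a c b1 b2
    ((b3 j).congr (a5.mono fun _ e => by rw [e])) fun i _ => b3 i⟩

/-- the common zeros of a coprime family have codimension two -/
theorem thin_cop {W : Type} [TopologicalSpace W] [ChartedSpace (Cm (n + 2)) W]
    [IsManifold 𝓘(ℂ, Cm (n + 2)) ω W] [Countable κ] {h : κ → W → ℂ} {x : W}
    (hh : ∀ᶠ y in 𝓝 x, (∀ i, Hol (n + 2) (h i) y) ∧ CopF (n + 2) h y) :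
    ∃ N ∈ 𝓝 x, ThinM (n + 2) n (N ∩ {y | ∀ i, h i y = 0}) := by
  have he := at_chart (n := n + 2) x
  set e := chartAt (Cm (n + 2)) x
  obtain ⟨U, h1, h2, h3⟩ := _root_.eventually_nhds_iff.1 (((At.ev he).2 hh).and
    (e.open_target.mem_nhds (e.map_source he.2)))
  have h4 : ∀ z ∈ U, At e (e.symm z) ∧ e (e.symm z) = z := fun z hz =>
    ⟨⟨he.1, e.map_target (h1 z hz).2⟩, e.right_inv (h1 z hz).2⟩
  have h5 : ∀ i, ∀ z ∈ U, AnalyticAt ℂ (fun z => h i (e.symm z)) z := fun i z hz => by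
    have := (h1 z hz).1.1 i e (h4 z hz).1
    rwa [(h4 z hz).2] at this
  have h6 := cv_two h2 h5 fun z hz ζ a1 a2 a3 a4 => by
    obtain ⟨b1, b2⟩ := h4 z hz
    obtain ⟨c, -, hc⟩ := (h1 z hz).1.2 (fun y => ζ (e y)) (fun _ => 1)
      (hol_comp b1 (b2.symm ▸ a1)) (hol_const _ _) fun i => by
        obtain ⟨u, c1, c2⟩ := P277.H762.exists_div (n := n + 1) (by simp) a1 a3 a2 (h5 i z hz) (a4 i)
        refine ⟨fun y => u (e y), hol_comp b1 (b2.symm ▸ c1), ?_⟩
        filter_upwards [(e.continuousAt b1.2).eventually (b2.symm ▸ c2), At.left b1] with y d1 d2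
        rw [one_mul, mul_comm, ← d1, d2]
    have : (1 : ℂ) = c (e.symm z) * ζ (e (e.symm z)) := hc.self_of_nhds
    rw [b2, a2, mul_zero] at this
    exact one_ne_zero this
  have : Nonempty W := ⟨x⟩
  refine ⟨e.source ∩ e ⁻¹' U, inter_mem (e.open_source.mem_nhds he.2)
    ((e.continuousAt he.2).eventually (h2.mem_nhds h3)), (P277.H335.HY.thinM_of_cv he.1 h6
      fun z hz => (h1 z hz.1).2).mono fun y hy => ⟨e y, ⟨hy.1.2, fun i => ?_⟩, e.left_inv hy.1.1⟩⟩
  rw [e.left_inv hy.1.1]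
  exact hy.2 i

end Vale.Agent.P277Z.GH.Pur
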