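import Vale.Agent.P277Z.GH.PreDef
import Vale.Agent.P277Z.GH.PurA
import Vale.Agent.P277Z.Val.Mon
import Vale.Agent.P277Z.Hl.Desc
import Vale.Agent.P277Z.Slc.Div
import Vale.Agent.P277.H29.CY.Semi
import Vale.Agent.P277.A.Emb

/-!
# P277, block GH: quotients, divisors of sections, very ample families
-/

set_option linter.unusedSectionVars false

open scoped Manifold ContDiff Topology
open Vale.Agent.P277 hiding Amin IsFlipR
open Vale.Agent.P272.K Vale.Agent.P285.H281.FD Set Filter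
open Vale.Agent.P277.PH (HolF)
open Vale.Agent.P277.H615 (VA)
open Vale.Agent.P277Z.Val

noncomputable section

namespace Vale.Agent.P277Z.GH.Pur

section va
variable {X Z : CSp} {f : X.pt → Z.pt}

theorem va_twist {L M : Bd X.pt} {V : Set Z.pt} {κ : Type} [Fintype κ] {s : κ → L.ι → X.pt → ℂ}
    (h : VA X Z f L V κ s) {σ : M.ι → X.pt → ℂ} (h1 : IsSecx X (f ⁻¹' V) M σ)
    (h2 : ∀ j x, f x ∈ V → x ∈ M.U j → σ j x ≠ 0) :
    VA X Z f (L.mul M) V κ fun l i x => s l i.1 x * σ i.2 x where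
  sec l := ⟨fun i x hx hi => hol_mul ((h.sec l).holo _ x hx hi.1) (h1.holo _ x hx hi.2),
    fun i j x hx hi hj => by
      rw [(h.sec l).change _ _ x hx hi.1 hj.1, h1.change _ _ x hx hi.2 hj.2]
      exact mul_mul_mul_comm _ _ _ _⟩
  bpf x i hx hi := (h.bpf x i.1 hx hi.1).imp fun _ a => mul_ne_zero a (h2 _ x hx hi.2)
  sep x x' i j hx e hne hi hj := by
    obtain ⟨l, m, a⟩ := h.sep x x' i.1 j.1 hx e hne hi.1 hj.1
    refine ⟨l, m, fun b => a (mul_right_cancel₀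
      (mul_ne_zero (h2 _ x hx hi.2) (h2 _ x' (e ▸ hx) hj.2)) ?_)⟩
    linear_combination b
  jet x i l hx hi hl g hg := by
    obtain ⟨N, a, G, b1, b2, b3⟩ := h.jet x i.1 l hx hi.1 (left_ne_zero_of_mul hl) g hg
    have k := h2 _ x hx hi.2
    refine ⟨N, a, G, b1, by simpa only [mul_div_mul_right _ _ k] using b2, ?_⟩
    filter_upwards [b3, (hol_continuousAt (h1.holo _ x hx hi.2)).eventually_ne k] with y c1 c2
    simpa only [mul_div_mul_right _ _ c2] using c1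

/-- relatively very ample -/
def VAm (X Z : CSp) (f : X.pt → Z.pt) (L : Bd X.pt) : Prop :=
  ∀ z, ∃ (V : Set Z.pt) (κ : Type) (_ : Fintype κ) (s : κ → L.ι → X.pt → ℂ), IsOpen V ∧ z ∈ V ∧
    VA X Z f L V κ s

theorem VAm.relAmple {L : Bd X.pt} (h : VAm X Z f L) : RelAmple X Z f L :=
  H29.CY.relAmple_of_fintype fun z => by
    obtain ⟨V, κ, _, s, h1, h2, h3⟩ := h z
    have h4 : VA X Z f (L.pow 1) V κ s :=
      VA.congr (ι := L.ι) (U := L.U) (g := L.g) h3 (by funext i j x; exact (pow_one _).symm)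
    exact ⟨V, 1, κ, _, s, h1, h2, le_rfl, h4.sec, h4.bpf, h4.sep, h4.jet⟩

theorem exists_vam {L : Bd X.pt} (h : RelAmple X Z f L) : ∃ K, 1 ≤ K ∧ VAm X Z f (L.pow K) := by
  classical
  choose V k κ hκ s h1 h2 h3 h4 using VA.of_relAmple h
  obtain ⟨t, -, ht⟩ := isCompact_univ.elim_nhds_subcover V fun z _ => (h1 z).mem_nhds (h2 z)
  refine ⟨∏ z ∈ t, k z, Finset.one_le_prod' fun z _ => h3 z, fun z => ?_⟩
  obtain ⟨a, ha, hz⟩ := mem_iUnion₂.1 (ht (mem_univ z))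
  refine ⟨V a, κ a × κ a, inferInstance, _, h1 a, hz, VA.congr (ι := L.ι) (U := L.U)
    (g := fun i j x => (L.g i j x ^ k a) ^ ∏ z ∈ t.erase a, k z)
    ((h4 a).pow (Finset.one_le_prod' fun z _ => h3 z)) ?_⟩
  funext i j x
  rw [← pow_mul, Finset.mul_prod_erase _ _ ha]

end va

variable {V V' : Lg} {y : V.W} {a b c : V.W → ℂ}

theorem lb_iff {L : Bd V.W} : IsLB 4 L ↔ IsLBx V.X L :=
  ⟨fun h => ⟨h.isOpen, h.cover, fun i j x a b e he => (h.holo i j e x he a b).analyticAt,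
    h.ne_zero, h.cocycle⟩, fun h => ⟨h.isOpen, h.cover,
    fun i j e x he a b => (h.holo i j x a b e he).contDiffAt, h.ne_zero, h.cocycle⟩⟩

theorem eq_at (ha : Hol 4 a y) (hb : Hol 4 b y) (h : ∀ᶠ x in 𝓝 y, x ∉ V.E → a x = b x) :
    a y = b y := Slc.Dv.eq_of_dense V.dense ha.cont hb.cont h

/-- the quotient -/
def qt (V : Lg) (a b : V.W → ℂ) : V.W → ℂ := Slc.Dv.ext V.Eᶜ fun x => a x / b x

theorem qt_spec (h : Dvd 4 b a y) (h0 : ∀ᶠ x in 𝓝 y, x ∉ V.E → b x ≠ 0) :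
    Hol 4 (qt V a b) y ∧ ∀ᶠ x in 𝓝 y, a x = qt V a b x * b x := by
  obtain ⟨c, h1, h2⟩ := h
  have h3 : ∀ᶠ x in 𝓝 y, c x = qt V a b x := Slc.Dv.ext_eq V.dense h1 (by
    filter_upwards [h2, h0] with x e1 e2 e3 using by rw [e1, mul_div_cancel_right₀ _ (e2 e3)])
  exact ⟨h1.congr h3, by filter_upwards [h2, h3] with x e1 e2 using e2 ▸ e1⟩

theorem mon_zero {n : Fin V.r → ℕ} (h : Mon V y a n) : a y = 0 ↔ ∃ l, y ∈ V.G l ∧ 0 < n l := by
  obtain ⟨ζ, hζ⟩ := V.exEq y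
  obtain ⟨u, -, h1, h2⟩ := h ζ hζ
  rw [h2.self_of_nhds, mul_eq_zero, or_iff_right h1, Finset.prod_eq_zero_iff]
  simp only [Finset.mem_univ, true_and, pow_eq_zero_iff', hζ.iff.self_of_nhds, Nat.pos_iff_ne_zero]

/-- the divisor of a section which does not vanish outside the components -/
theorem exists_div {L : Bd V.W} (hL : IsLBx V.X L) {τ : L.ι → V.W → ℂ}
    (h : IsSecx V.X univ L τ) (h0 : ∀ i, ∀ x ∈ L.U i, x ∉ V.E → τ i x ≠ 0) :
    ∃ c, IsDiv V L τ c := by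
  have k : ∀ y i j n, y ∈ L.U i → y ∈ L.U j → Mon V y (τ j) n → Mon V y (τ i) n :=
    fun y i j n hi hj e => e.unit (hL.holo i j y hi hj) (hL.ne_zero i j y hi hj) (by
      filter_upwards [(hL.isOpen i).mem_nhds hi, (hL.isOpen j).mem_nhds hj] with x e1 e2
        using h.change i j x trivial e1 e2)
  obtain ⟨c, hc⟩ := exists_glob (V := V) (fun y n => ∃ i, y ∈ L.U i ∧ Mon V y (τ i) n)
    (fun y => by
      obtain ⟨i, hi⟩ := hL.cover y
      obtain ⟨n, hn⟩ := exists_mon (h.holo i y trivial hi)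
        (mem_of_superset ((hL.isOpen i).mem_nhds hi) (h0 i))
      exact ⟨n, i, hi, hn⟩)
    (fun y n ⟨i, hi, e⟩ => by
      filter_upwards [(hL.isOpen i).mem_nhds hi, e.eventually] with x e1 e2 using ⟨i, e1, e2⟩)
    (fun y n n' l hl ⟨i, hi, e⟩ ⟨j, hj, e'⟩ => e.unique (k y i j n' hi hj e') hl)
    fun y n n' ⟨i, hi, e⟩ e' => ⟨i, hi, e.change e'⟩
  refine ⟨c, ⟨fun i e x he hi => (h.holo i x trivial hi e he).contDiffAt,
    fun i j x => h.change i j x trivial⟩, fun y i ζ hi hζ => ?_⟩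
  obtain ⟨j, hj, e⟩ := hc y
  exact k y i j c hi hj e ζ hζ

variable {π : V'.W → V.W} {new : Finset (Fin V'.r)}

theorem closedU (s : Finset (Fin V.r)) : IsClosed (⋃ l ∈ s, V.G l) :=
  isClosed_biUnion_finset fun l _ => V.closed l

theorem subE (s : Finset (Fin V.r)) : ⋃ l ∈ s, V.G l ⊆ V.E :=
  iUnion₂_subset fun l _ => subset_iUnion _ l

theorem bl (h : Pre V' V.X π new) : Hl.Bl 4 π univ (π '' ⋃ l ∈ new, V'.G l) where
  cont := h.cont
  isOpen := isOpen_univ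
  closed := ((closedU new).isCompact.image h.cont).isClosed
  maps _ := trivial
  proper L _ hL := (hL.isClosed.preimage h.cont).isCompact
  surj z _ _ := h.surj z
  dense := V'.dense.mono fun y (hy : y ∉ V'.E) ⟨y', e1, e2⟩ =>
    hy (subE new (h.inj y y' (fun e => hy (subE new e)) e2 ▸ e1))
  hol := h.hol
  one y y' e := h.inj y y' fun e' => e ⟨y, e', rfl⟩
  sec y e := by
    have hy : y ∈ (⋃ l ∈ new, V'.G l)ᶜ := fun e' => e ⟨y, e', rfl⟩
    refine ⟨h.emb.inv y, h.emb.inv_continuousAt y hy, h.emb.inv_apply y hy, ?_, fun a ha =>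
      h.emb.hol_of_analyticAt y hy (at_chart y) (ha _ (at_chart y))⟩
    filter_upwards [h.emb.isOpen_image.mem_nhds ⟨y, hy, rfl⟩] with z hz using h.emb.apply_inv y hz

/-- divisibility descends -/
theorem dvd_desc {Z : Set V.W} (h : Hl.Bl 4 π univ Z) (hs : Function.Surjective π) {z : V.W}
    (hZ : Hl.Thin 4 Z z) (h1 : ∀ y, π y = z → Dvd 4 (fun y => a (π y)) (fun y => b (π y)) y ∧
      ∀ᶠ x in 𝓝 y, x ∉ V'.E → a (π x) ≠ 0) : Dvd 4 a b z := by
  have h2 := fun y e => qt_spec (h1 y e).1 (h1 y e).2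
  obtain ⟨q, h3, h4⟩ := Hl.Ds.desc h trivial hZ fun y e => (h2 y e).1
  refine ⟨q, h3, ?_⟩
  filter_upwards [h4, Hl.Ds.tube h trivial fun y e => (h2 y e).2] with w e1 e2
  obtain ⟨y, rfl⟩ := hs w
  rw [e2 y rfl, e1 y rfl]

end Vale.Agent.P277Z.GH.Pur
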