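import Vale.Agent.P277Z.GH.PurB

/-!
# P277, block GH: purity of the exceptional set
-/

set_option linter.unusedSectionVars false
set_option linter.unusedVariables false

open scoped Manifold ContDiff Topology
open Vale.Agent.P277 hiding Amin IsFlipR
open Vale.Agent.P272.K Vale.Agent.P285.H281.FD Set Filter
open Vale.Agent.P277.PH (HolF)
open Vale.Agent.P277.H615 (VA)
open Vale.Agent.P277Z.Val

noncomputable section

namespace Vale.Agent.P277Z.GH.Pur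

variable {V V' : Lg}

/-- the setting -/
structure Cx (π : V'.W → V.W) (Z : Set V.W) (L : Bd V'.W) (t : L.ι → V'.W → ℂ) : Prop where
  bl : Hl.Bl 4 π univ Z
  surj : Function.Surjective π
  thin : ∀ z, Hl.Thin 4 Z z
  lb : IsLBx V'.X L
  sec : IsSecx V'.X univ (Bd.inv L) t
  ne : ∀ i, ∀ y ∈ L.U i, y ∉ V'.E → t i y ≠ 0
  vam : VAm V'.X V.X π L

/-- the local data: the functions `s m * t` descend to `g * h m`, where the `h m` are coprime -/
structure Ld (π : V'.W → V.W) (L : Bd V'.W) (t : L.ι → V'.W → ℂ) (x : V.W) where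
  O : Set V.W
  κ : Type
  [fin : Fintype κ]
  s : κ → L.ι → V'.W → ℂ
  g : V.W → ℂ
  h : κ → V.W → ℂ
  isOpen : IsOpen O
  mem : x ∈ O
  va : VA V'.X V.X π L O κ s
  hg : ∀ z ∈ O, Hol 4 g z
  hh : ∀ z ∈ O, (∀ m, Hol 4 (h m) z) ∧ CopF 4 h z
  eq : ∀ y i m, π y ∈ O → y ∈ L.U i → s m i y * t i y = g (π y) * h m (π y)

attribute [instance] Ld.fin

variable {π : V'.W → V.W} {Z : Set V.W} {L : Bd V'.W} {t : L.ι → V'.W → ℂ} {x x' x'' : V.W}
  {y : V'.W} {i j : L.ι}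

theorem Cx.near (C : Cx π Z L t) {O : Set V.W} (hO : IsOpen O) (h1 : π y ∈ O) (h2 : y ∈ L.U i) :
    ∀ᶠ w in 𝓝 y, π w ∈ O ∧ w ∈ L.U i :=
  (C.bl.cont.continuousAt.eventually (hO.mem_nhds h1)).and ((C.lb.isOpen i).mem_nhds h2)

theorem Cx.ld (C : Cx π Z L t) (x : V.W) : Nonempty (Ld π L t x) := by
  obtain ⟨O, κ, _, s, h1, h2, h3⟩ := C.vam x
  choose I hI using C.lb.cover
  have k1 : ∀ m y i, π y ∈ O → y ∈ L.U i → s m (I y) y * t (I y) y = s m i y * t i y :=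
    fun m y i a b => by
      have e : t (I y) y = (L.g (I y) i y)⁻¹ * t i y := C.sec.change _ _ y trivial (hI y) b
      rw [(h3.sec m).change _ _ y a (hI y) b, e, mul_mul_mul_comm,
        mul_inv_cancel₀ (C.lb.ne_zero _ _ y (hI y) b), one_mul]
  have k2 : ∀ m y, π y = x → Hol 4 (fun y : V'.W => s m (I y) y * t (I y) y) y := fun m y e =>
    Hol.congr (Hol.mul ((h3.sec m).holo _ y (e ▸ h2 :) (hI y)) (C.sec.holo _ y trivial (hI y)))
      ((C.near h1 (e ▸ h2) (hI y)).mono fun w a => (k1 m w _ a.1 a.2).symm)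
  choose b hb1 hb2 using fun m => Hl.Ds.desc C.bl trivial (C.thin x) (k2 m)
  obtain ⟨y₀, rfl⟩ := C.surj x
  obtain ⟨m, hm⟩ := h3.bpf y₀ _ h2 (hI y₀)
  have k3 : Nz (b m) (π y₀) := fun k => by
    obtain ⟨w, a1, a2, a3, a4⟩ := ((V'.freqE y₀).and_eventually
      ((C.bl.cont.continuousAt.eventually (k.and (hb2 m))).and ((C.near h1 h2 (hI y₀)).and
        ((hol_continuousAt ((h3.sec m).holo _ y₀ h2 (hI y₀))).eventually_ne hm)))).exists
    exact mul_ne_zero a4 (C.ne _ w a3.2 a1)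
      ((k1 m w _ a3.1 a3.2).symm.trans ((a2.2 w rfl).trans a2.1))
  obtain ⟨g, h, k4⟩ := gcd_fam hb1 k3
  obtain ⟨O', a1, a2, a3⟩ := eventually_nhds_iff.1
    (k4.and ((eventually_all.2 hb2).and (h1.mem_nhds h2)))
  exact ⟨⟨O', κ, s, g, h, a2, a3, h3.mono fun z hz => (a1 z hz).2.2, fun z hz => (a1 z hz).1.1,
    fun z hz => ⟨(a1 z hz).1.2.2.1, (a1 z hz).1.2.2.2.2⟩, fun y i m e1 e2 => by
      rw [← k1 m y i (a1 _ e1).2.2 e2, (a1 _ e1).2.1 m y rfl, (a1 _ e1).1.2.2.2.1 m]⟩⟩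

/-- the pull back of the common factor -/
def Ld.γ (D : Ld π L t x) (y : V'.W) : ℂ := D.g (π y)

/-- the new section -/
def Ld.τ (D : Ld π L t x) (i : L.ι) : V'.W → ℂ := qt V' (t i) D.γ

/-- the transition functions -/
def Ld.T (D : Ld π L t x) (D' : Ld π L t x') : V'.W → ℂ := qt V' D.γ D'.γ

variable {D : Ld π L t x} {D' : Ld π L t x'} {D'' : Ld π L t x''}

theorem Cx.γ_ne (C : Cx π Z L t) (h : π y ∈ D.O) : ∀ᶠ w in 𝓝 y, w ∉ V'.E → D.γ w ≠ 0 := by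
  obtain ⟨i, hi⟩ := C.lb.cover y
  filter_upwards [C.near D.isOpen h hi] with w a b
  obtain ⟨m, hm⟩ := D.va.bpf w i a.1 a.2
  exact left_ne_zero_of_mul (D.eq w i m a.1 a.2 ▸ mul_ne_zero hm (C.ne i w a.2 b))

theorem Cx.hol_s (_ : Cx π Z L t) (h : π y ∈ D.O) (hi : y ∈ L.U i) (m : D.κ) :
    Hol 4 (D.s m i) y := (D.va.sec m).holo i y h hi

theorem Cx.hol_h (C : Cx π Z L t) (h : π y ∈ D.O) (m : D.κ) : Hol 4 (fun w => D.h m (π w)) y :=
  C.bl.hol y _ ((D.hh _ h).1 m)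

theorem Cx.dvd_t (C : Cx π Z L t) (h : π y ∈ D.O) (hi : y ∈ L.U i) : Dvd 4 D.γ (t i) y := by
  obtain ⟨m, hm⟩ := D.va.bpf y i h hi
  refine ⟨_, (C.hol_h h m).div (C.hol_s h hi m) hm, ?_⟩
  filter_upwards [C.near D.isOpen h hi, (C.hol_s h hi m).ne_near hm] with w a b
  rw [div_mul_eq_mul_div, eq_div_iff b, mul_comm, D.eq w i m a.1 a.2, mul_comm, Ld.γ]

theorem Cx.τ_spec (C : Cx π Z L t) (h : π y ∈ D.O) (hi : y ∈ L.U i) :
    Hol 4 (D.τ i) y ∧ ∀ᶠ w in 𝓝 y, t i w = D.τ i w * D.γ w :=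
  qt_spec (C.dvd_t h hi) (C.γ_ne h)

theorem Cx.h_eq (C : Cx π Z L t) (h : π y ∈ D.O) (hi : y ∈ L.U i) (m : D.κ) :
    D.h m (π y) = D.s m i y * D.τ i y := by
  refine eq_at (C.hol_h h m) ((C.hol_s h hi m).mul (C.τ_spec h hi).1) ?_
  filter_upwards [C.near D.isOpen h hi, (C.τ_spec h hi).2, C.γ_ne h] with w a b c d
  refine mul_left_cancel₀ (c d) ?_
  rw [← show _ = D.γ w * _ from D.eq w i m a.1 a.2, b]
  ring

theorem Cx.τ_zero (C : Cx π Z L t) (h : π y ∈ D.O) (hi : y ∈ L.U i) :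
    D.τ i y = 0 ↔ ∀ m, D.h m (π y) = 0 := by
  obtain ⟨m, hm⟩ := D.va.bpf y i h hi
  exact ⟨fun e m => by rw [C.h_eq h hi, e, mul_zero],
    fun e => (mul_eq_zero.1 (C.h_eq h hi m ▸ e m)).resolve_left hm⟩

theorem Cx.dvd_g (C : Cx π Z L t) {z : V.W} (h : z ∈ D.O) (h' : z ∈ D'.O) : Dvd 4 D.g D'.g z :=
  (D'.hh z h').2 _ _ (D.hg z h) (D'.hg z h') fun m => dvd_desc C.bl C.surj (C.thin z) (by
    rintro y rfl
    obtain ⟨i, hi⟩ := C.lb.cover y
    exact ⟨((C.dvd_t h hi).mul_left (C.hol_s h' hi m)).congr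
      ((C.near D'.isOpen h' hi).mono fun w a => D'.eq w i m a.1 a.2), C.γ_ne h⟩)

theorem Cx.T_spec (C : Cx π Z L t) (h : π y ∈ D.O) (h' : π y ∈ D'.O) :
    Hol 4 (D.T D') y ∧ ∀ᶠ w in 𝓝 y, D.γ w = D.T D' w * D'.γ w := by
  obtain ⟨c, h1, h2⟩ := C.dvd_g h' h
  exact qt_spec ⟨_, C.bl.hol y c h1, C.bl.cont.continuousAt.eventually h2⟩ (C.γ_ne h')

theorem Cx.T_mul (C : Cx π Z L t) (h : π y ∈ D.O) (h' : π y ∈ D'.O) (h'' : π y ∈ D''.O) :
    D.T D' y * D'.T D'' y = D.T D'' y := by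
  refine eq_at ((C.T_spec h h').1.mul (C.T_spec h' h'').1) (C.T_spec h h'').1 ?_
  filter_upwards [(C.T_spec h h').2, (C.T_spec h' h'').2, (C.T_spec h h'').2, C.γ_ne h'']
    with w a b c d e
  refine mul_right_cancel₀ (d e) ?_
  rw [← c, a, mul_assoc, ← b]

theorem Cx.T_ne (C : Cx π Z L t) (h : π y ∈ D.O) (h' : π y ∈ D'.O) : D.T D' y ≠ 0 := by
  have k : D.T D y = 1 := eq_at (C.T_spec h h).1 (hol_const 1 y) (by
    filter_upwards [(C.T_spec h h).2, C.γ_ne h] with w a b c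
    exact mul_right_cancel₀ (b c) (by rw [← a, one_mul]))
  exact left_ne_zero_of_mul (by rw [C.T_mul h h' h, k]; exact one_ne_zero)

theorem Cx.τ_change (C : Cx π Z L t) (h : π y ∈ D.O) (h' : π y ∈ D'.O) (hi : y ∈ L.U i)
    (hj : y ∈ L.U j) : D.τ i y = (L.g i j y * D.T D' y)⁻¹ * D'.τ j y := by
  rw [eq_inv_mul_iff_mul_eq₀ (mul_ne_zero (C.lb.ne_zero i j y hi hj) (C.T_ne h h'))]
  refine eq_at (a := fun w => L.g i j w * D.T D' w * D.τ i w) ((Hol.mul (C.lb.holo i j y hi hj)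
    (C.T_spec h h').1).mul (C.τ_spec h hi).1) (C.τ_spec h' hj).1 ?_
  filter_upwards [(C.T_spec h h').2, (C.τ_spec h hi).2, (C.τ_spec h' hj).2, C.γ_ne h',
    (C.lb.isOpen i).mem_nhds hi, (C.lb.isOpen j).mem_nhds hj] with w a b c d e f g
  have k : t i w = (L.g i j w)⁻¹ * t j w := C.sec.change i j w trivial e f
  rw [eq_inv_mul_iff_mul_eq₀ (C.lb.ne_zero i j w e f)] at k
  refine mul_right_cancel₀ (d g) ?_
  rw [← c, ← k, b, a]
  ring

/-- the bundle of the common factors -/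
def bM (D : ∀ x, Ld π L t x) : Bd V'.W := ⟨V.W, fun x => π ⁻¹' (D x).O, fun x x' => (D x).T (D x')⟩

variable (D : ∀ x, Ld π L t x)

theorem Cx.lbP (C : Cx π Z L t) : IsLBx V'.X (L.mul (bM D)) where
  isOpen i := (C.lb.isOpen i.1).inter ((D i.2).isOpen.preimage C.bl.cont)
  cover y := (C.lb.cover y).elim fun i hi => ⟨(i, π y), hi, (D _).mem⟩
  holo i j y a b := hol_mul (C.lb.holo _ _ y a.1 b.1) (C.T_spec a.2 b.2).1
  ne_zero i j y a b := mul_ne_zero (C.lb.ne_zero _ _ y a.1 b.1) (C.T_ne a.2 b.2)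
  cocycle i j k y a b c := (mul_mul_mul_comm _ _ _ _).trans
    (congrArg₂ _ (C.lb.cocycle _ _ _ y a.1 b.1 c.1) (C.T_mul a.2 b.2 c.2))

theorem Cx.ampP (C : Cx π Z L t) : RelAmple V'.X V.X π (L.mul (bM D)) :=
  VAm.relAmple fun z : V.W => ⟨_, _, (D z).fin, _, (D z).isOpen, (D z).mem, va_twist (M := bM D) (D z).va
    (σ := fun x => (D x).T (D z)) ⟨fun _ _ a b => (C.T_spec b a).1,
      fun _ _ _ a b c => (C.T_mul b c a).symm⟩ fun _ _ a b => C.T_ne b a⟩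

theorem Cx.divP (C : Cx π Z L t) :
    ∃ c, IsDiv V' (Bd.inv (L.mul (bM D))) (fun i => (D i.2).τ i.1) c :=
  exists_div (H615.IsLBx.inv (C.lbP D)) ⟨fun _ _ _ a => (C.τ_spec a.2 a.1).1,
    fun _ _ _ _ a b => C.τ_change a.2 b.2 a.1 b.1⟩ fun i y a b =>
      left_ne_zero_of_mul ((C.τ_spec a.2 a.1).2.self_of_nhds ▸ C.ne i.1 y a.1 b)

variable {D} {c : Fin V'.r → ℕ}

theorem Cx.key (C : Cx π Z L t) (hc : IsDiv V' (Bd.inv (L.mul (bM D))) (fun i => (D i.2).τ i.1) c)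
    (h : π y ∈ (D x).O) (hi : y ∈ L.U i) :
    y ∈ ⋃ l ∈ Finset.univ.filter fun l => 0 < c l, V'.G l ↔ (D x).τ i y = 0 := by
  rw [mon_zero (n := c) fun ζ hζ => hc.div y (i, x) ζ ⟨hi, h⟩ hζ]
  simp only [mem_iUnion, Finset.mem_filter, Finset.mem_univ, true_and, exists_prop, and_comm]

theorem Cx.res [Nonempty V.W] (C : Cx π Z L t)
    (hc : IsDiv V' (Bd.inv (L.mul (bM D))) (fun i => (D i.2).τ i.1) c) :
    Res V' V.X π (Finset.univ.filter fun l => 0 < c l) := by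
  set exc := Finset.univ.filter fun l => 0 < c l with hexc
  have k1 : ∀ y x, π y ∈ (D x).O → (y ∈ ⋃ l ∈ exc, V'.G l ↔ ∀ m, (D x).h m (π y) = 0) :=
    fun y x h => (C.lb.cover y).elim fun i hi => (C.key hc h hi).trans (C.τ_zero h hi)
  have k2 : ∀ x, ∀ᶠ z in 𝓝 x, z ∈ π '' ⋃ l ∈ exc, V'.G l ↔ ∀ m, (D x).h m z = 0 := fun x => by
    filter_upwards [(D x).isOpen.mem_nhds (D x).mem] with z hz
    obtain ⟨y, rfl⟩ := C.surj z
    exact ⟨fun ⟨y', a, b⟩ => b ▸ (k1 y' x (b ▸ hz)).1 a, fun a => ⟨y, (k1 y x hz).2 a, rfl⟩⟩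
  have k3 : ∀ y y', y ∉ ⋃ l ∈ exc, V'.G l → π y' = π y → y' = y := fun y y' a b => by
    by_contra e
    obtain ⟨i, hi⟩ := C.lb.cover y
    obtain ⟨j, hj⟩ := C.lb.cover y'
    have h := (D (π y)).mem
    have h' : π y' ∈ (D (π y)).O := b ▸ h
    obtain ⟨l, m, k⟩ := (D (π y)).va.sep y y' i j h b e hi hj
    have a' : y' ∉ ⋃ l ∈ exc, V'.G l := fun d => a ((k1 y _ h).2 (b ▸ (k1 y' _ h').1 d))
    refine k (mul_right_cancel₀ (mul_ne_zero (mt (C.key hc h hi).2 a) (mt (C.key hc h' hj).2 a')) ?_)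
    rw [mul_mul_mul_comm, ← C.h_eq h hi, ← C.h_eq h' hj, mul_mul_mul_comm, ← C.h_eq h hi,
      ← C.h_eq h' hj, b, mul_comm]
  refine ⟨C.bl.cont, C.bl.hol, C.surj, ⟨(closedU exc).isOpen_compl, C.bl.cont.continuousOn,
    fun y a y' _ b => (k3 y y' a b.symm).symm, fun W a b => ?_, fun y a e he g => ⟨fun b =>
      C.bl.hol y g b e he, fun b => ?_⟩⟩, k3, fun (x : V.W) _ => ?_, ?_, _, c, _, lb_iff.2 (C.lbP D),
    C.ampP D, fun l => by simp [hexc], hc⟩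
  · have : π '' W = (π '' Wᶜ)ᶜ := by
      refine Subset.antisymm ?_ (subset_image_compl C.surj |>.trans (by rw [compl_compl]))
      rintro _ ⟨y, e1, rfl⟩ ⟨y', e2, e3⟩
      exact e2 (k3 y y' (a e1) e3 ▸ e1)
    exact this ▸ (b.isClosed_compl.isCompact.image C.bl.cont).isClosed.isOpen_compl
  · obtain ⟨q, e1, e2⟩ := Hl.Ds.desc C.bl trivial (C.thin (π y)) (β := fun w => g (π w))
      fun y' e3 => k3 y y' a e3 ▸ PH.holF_of (g := fun w => g (π w)) he b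
    refine e1.congr (e2.mono fun w e3 => ?_)
    obtain ⟨y', rfl⟩ := C.surj w
    exact (e3 y' rfl).symm
  · refine ⟨_, fun m => (D x).h ((Fintype.equivFin _).symm m), fun m => ((D x).hh x (D x).mem).1 _,
      (k2 x).mono fun z e => e.trans (Fintype.equivFin _).symm.surjective.forall⟩
  · have : SecondCountableTopology V.W := ChartedSpace.secondCountable_of_sigmaCompact (Cm 4) V.W
    refine H60.Z.thinM_iff.1 (H335.HY.thinM_of_local fun x _ => ?_)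
    obtain ⟨N, a, b⟩ := @thin_cop 2 _ V.W _ V.ch V.mf _ _ x
      (mem_of_superset ((D x).isOpen.mem_nhds (D x).mem) (D x).hh)
    exact ⟨_, inter_mem a (k2 x), T3.ThinM.mono (n := 4) b fun z e => ⟨e.1.1, e.1.2.1 e.2⟩⟩

end Vale.Agent.P277Z.GH.Pur

namespace Vale.Agent.P277Z.GH

open Pur

/-- **purity**: the exceptional set can be shrunk to the components which are contracted -/
theorem Pre.purify {V V' : Lg} [Nonempty V.W] {π : V'.W → V.W} {new : Finset (Fin V'.r)}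
    (h : Pre V' V.X π new) (ht : ∀ z, Hl.Thin 4 (π '' ⋃ l ∈ new, V'.G l) z) :
    ∃ exc ⊆ new, Res V' V.X π exc := by
  obtain ⟨P, c, τ, h1, h2, h3, h4⟩ := h.amp
  obtain ⟨K, -, h5⟩ := exists_vam h2
  have k : ∀ i, ∀ y ∈ P.U i, τ i y = 0 ↔ ∃ l, y ∈ V'.G l ∧ 0 < c l := fun i y a =>
    mon_zero fun ζ hζ => h4.div y i ζ a hζ
  have C : Cx π _ (P.pow K) fun i y => τ i y ^ K := ⟨bl h, h.surj, ht,
    H615.IsLBx.pow (lb_iff.1 h1) K, ⟨fun i y _ a e he =>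
      (h4.sec.holo i e y he a).analyticAt.fun_pow K, fun i j y _ a b => by
        rw [h4.sec.change i j y a b, mul_pow]
        exact congrArg (· * _) (inv_pow _ _)⟩, fun i y a b => pow_ne_zero _ fun e =>
      ((k i y a).1 e).elim fun l d => b (mem_iUnion.2 ⟨l, d.1⟩), h5⟩
  let D := fun x => Classical.choice (C.ld x)
  obtain ⟨c', h6⟩ := C.divP D
  refine ⟨_, fun l hl => ?_, C.res h6⟩
  obtain ⟨y₀, h7⟩ := (V'.conn l).nonempty
  obtain ⟨y, a, b⟩ := (Lg.freq1 h7).exists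
  obtain ⟨i, hi⟩ := h1.cover y
  have e1 := (C.τ_spec (D (π y)).mem hi).2.self_of_nhds
  rw [(C.key h6 (D (π y)).mem hi).1 (mem_biUnion hl a), zero_mul] at e1
  obtain ⟨l', e2, e3⟩ := (k i y hi).1 (pow_eq_zero_iff'.1 e1).1
  by_cases e : l' = l
  · exact (h3 l).1 (e ▸ e3)
  · exact (b l' e e2).elim

end Vale.Agent.P277Z.GH
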