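import Vale.Agent.P277Z.GH.Res0
import Vale.Agent.P277Z.Hir.All
import Vale.Agent.P277Z.Pos.All

/-!
# P277, block GH: resolution of singularities
-/

namespace Vale.Agent.P277Z.GH

theorem res0 : StRes0 := res0_of Pos.kodA Hir.stMain

theorem prinA (V : Val.Lg) (I : Fam V.X) (hd : Dense I.Zᶜ) : Mdl I V.E :=
  prin1 Pos.kodA Hir.stMainL V I hd

end Vale.Agent.P277Z.GH
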